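import Mathlib

-- ▼ part R103/Defs
section

/-!
# R103: abstract "plane systems"

A finite measure space `Ω` with a measure preserving flow `φ`, an action `R` of the circle
("rotation of the velocity", parametrised by angles in `ℝ`, `2π`-periodic) and a "distance to the
singular set" `ρ`, such that away from the singular set the maps `T ζ` (move by the displacement
`ζ ∈ ℂ` measured in the moving frame) form a local action of the additive group `ℂ`.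
Instances: the frame bundle over the doubled triangle, and products of two such systems.
-/

open MeasureTheory Filter Topology

noncomputable section

namespace Crest.Agent.R103

/-- The translation by `ζ` in the moving frame: rotate the velocity to the direction of `ζ`,
flow for the time `‖ζ‖`, rotate back. -/
def tr {Ω : Type*} (φ : ℝ → Ω → Ω) (R : ℝ → Ω → Ω) (ζ : ℂ) (z : Ω) : Ω :=
  R (-ζ.arg) (φ ‖ζ‖ (R ζ.arg z))

/-- Abstract plane system. -/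
structure PlaneSys (Ω : Type*) [TopologicalSpace Ω] [MeasurableSpace Ω] (μ : Measure Ω) where
  /-- the flow (an honest action of `ℝ`, everywhere defined) -/
  φ : ℝ → Ω → Ω
  /-- the rotations (an honest action of the circle `ℝ / 2πℤ`) -/
  R : ℝ → Ω → Ω
  /-- distance to the singular set -/
  ρ : Ω → ℝ
  /-- geometric constant: in `{C₀ ε ≤ ρ}` displacements of length `≤ ε` commute -/
  C₀ : ℝ
  /-- volume constant -/
  Cv : ℝ
  one_le_C₀ : 1 ≤ C₀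
  Cv_nonneg : 0 ≤ Cv
  φ_meas : Measurable (fun p : ℝ × Ω => φ p.1 p.2)
  φ_zero : ∀ z, φ 0 z = z
  φ_add : ∀ s t z, φ (s + t) z = φ s (φ t z)
  φ_mp : ∀ t, MeasurePreserving (φ t) μ μ
  R_meas : Measurable (fun p : ℝ × Ω => R p.1 p.2)
  R_zero : ∀ z, R 0 z = z
  R_add : ∀ a b z, R (a + b) z = R a (R b z)
  R_two_pi : ∀ z, R (2 * Real.pi) z = z
  R_mp : ∀ a, MeasurePreserving (R a) μ μ
  R_cont : ∀ z, Continuous (fun a => R a z)
  ρ_meas : Measurable ρ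
  ρ_nonneg : ∀ z, 0 ≤ ρ z
  ρ_R : ∀ a z, ρ (R a z) = ρ z
  ρ_φ : ∀ t z, ρ (φ t z) ≤ ρ z + |t|
  vol : ∀ b : ℝ, 0 < b → μ {z | ρ z < b} ≤ ENNReal.ofReal (Cv * b ^ 2)
  /-- time reversal -/
  rev : ∀ t : ℝ, ∀ᵐ z ∂μ, φ t (R Real.pi z) = R Real.pi (φ (-t) z)
  /-- local commutation / parallelogram law -/
  LC : ∀ ε : ℝ, 0 < ε → ∀ ζ ζ' : ℂ, ‖ζ‖ ≤ ε → ‖ζ'‖ ≤ ε →
    ∀ᵐ z ∂μ, C₀ * ε ≤ ρ z → tr φ R ζ' (tr φ R ζ z) = tr φ R (ζ + ζ') z
  /-- small translations move almost every point only a little -/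
  cont : ∀ᵐ z ∂μ, Tendsto (fun ζ : ℂ => tr φ R ζ z) (𝓝 0) (𝓝 z)

namespace PlaneSys

variable {Ω : Type*} [TopologicalSpace Ω] [MeasurableSpace Ω] {μ : Measure Ω}

/-- translation by `ζ` in the moving frame -/
def T (S : PlaneSys Ω μ) (ζ : ℂ) (z : Ω) : Ω := tr S.φ S.R ζ z

end PlaneSys

end Crest.Agent.R103
end
end

-- ▼ part R103/Basic
section

open MeasureTheory Filter Topology

noncomputable section

namespace Crest.Agent.R103

namespace PlaneSys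

variable {Ω : Type*} [TopologicalSpace Ω] [MeasurableSpace Ω] {μ : Measure Ω}
variable (S : PlaneSys Ω μ)

lemma φ_measurable (t : ℝ) : Measurable (S.φ t) :=
  S.φ_meas.comp (measurable_const.prodMk measurable_id)


lemma T_def (ζ : ℂ) (z : Ω) : S.T ζ z = S.R (-ζ.arg) (S.φ ‖ζ‖ (S.R ζ.arg z)) := rfl

lemma R_neg_R (a : ℝ) (z : Ω) : S.R (-a) (S.R a z) = z := by
  rw [← S.R_add, neg_add_cancel, S.R_zero]

lemma R_R_neg (a : ℝ) (z : Ω) : S.R a (S.R (-a) z) = z := by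
  rw [← S.R_add, add_neg_cancel, S.R_zero]

lemma φ_neg_φ (a : ℝ) (z : Ω) : S.φ (-a) (S.φ a z) = z := by
  rw [← S.φ_add, neg_add_cancel, S.φ_zero]


lemma R_int_two_pi (k : ℤ) (z : Ω) : S.R (k * (2 * Real.pi)) z = z := by
  have hn : ∀ (n : ℕ) (z : Ω), S.R (n * (2 * Real.pi)) z = z := by
    intro n
    induction n with
    | zero => intro z; simp [S.R_zero]
    | succ n ih =>
      intro z
      have : ((n + 1 : ℕ) : ℝ) * (2 * Real.pi) = n * (2 * Real.pi) + 2 * Real.pi := by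
        push_cast; ring
      rw [this, S.R_add, S.R_two_pi, ih]
  obtain ⟨n, rfl | rfl⟩ := k.eq_nat_or_neg
  · simpa using hn n z
  · have h := S.R_neg_R ((n : ℝ) * (2 * Real.pi)) z
    rw [hn n z] at h
    have e : ((-(n : ℤ) : ℤ) : ℝ) * (2 * Real.pi) = -((n : ℝ) * (2 * Real.pi)) := by
      push_cast; ring
    rw [e]; exact h

lemma R_add_int_two_pi (a : ℝ) (k : ℤ) (z : Ω) : S.R (a + k * (2 * Real.pi)) z = S.R a z := by
  rw [S.R_add, S.R_int_two_pi]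

/-- the rotation only depends on the angle mod `2π`. -/
lemma R_congr {a b : ℝ} (h : (a : Real.Angle) = (b : Real.Angle)) (z : Ω) :
    S.R a z = S.R b z := by
  obtain ⟨k, hk⟩ := Real.Angle.angle_eq_iff_two_pi_dvd_sub.1 h
  have : a = b + k * (2 * Real.pi) := by linarith
  rw [this, S.R_add_int_two_pi]

lemma T_measurable_uncurry : Measurable (fun p : ℂ × Ω => S.T p.1 p.2) := by
  have h1 : Measurable (fun p : ℂ × Ω => S.R p.1.arg p.2) :=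
    S.R_meas.comp ((Complex.measurable_arg.comp measurable_fst).prodMk measurable_snd)
  have h2 : Measurable (fun p : ℂ × Ω => S.φ ‖p.1‖ (S.R p.1.arg p.2)) :=
    S.φ_meas.comp (((measurable_norm).comp measurable_fst).prodMk h1)
  exact S.R_meas.comp (((Complex.measurable_arg.comp measurable_fst).neg).prodMk h2)

lemma T_measurable (ζ : ℂ) : Measurable (S.T ζ) :=
  S.T_measurable_uncurry.comp (measurable_const.prodMk measurable_id)

lemma T_mp (ζ : ℂ) : MeasurePreserving (S.T ζ) μ μ :=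
  (S.R_mp _).comp ((S.φ_mp _).comp (S.R_mp _))

lemma T_zero (z : Ω) : S.T 0 z = z := by
  rw [S.T_def]; simp [S.φ_zero, S.R_zero]

/-- the polar form of `T` -/
lemma T_polar {t : ℝ} (ht : 0 ≤ t) (α : ℝ) (z : Ω) :
    S.T (t * Complex.exp (α * Complex.I)) z = S.R (-α) (S.φ t (S.R α z)) := by
  rcases ht.eq_or_lt with rfl | ht
  · simp [S.T_zero, S.φ_zero, S.R_neg_R]
  have hn : ‖(t : ℂ) * Complex.exp (α * Complex.I)‖ = t := by
    rw [norm_mul, Complex.norm_exp_ofReal_mul_I]; simp [abs_of_pos ht]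
  have ha : (((t : ℂ) * Complex.exp (α * Complex.I)).arg : Real.Angle) = (α : Real.Angle) := by
    have h := Complex.arg_mul_cos_add_sin_mul_I_coe_angle ht (α : Real.Angle)
    rw [Complex.exp_mul_I]
    simpa using h
  rw [S.T_def, hn, S.R_congr ha]
  have ha' : ((-((t : ℂ) * Complex.exp (α * Complex.I)).arg : ℝ) : Real.Angle)
      = ((-α : ℝ) : Real.Angle) := by
    rw [Real.Angle.coe_neg, ha, Real.Angle.coe_neg]
  rw [S.R_congr ha']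

lemma T_ofReal_of_nonneg {t : ℝ} (ht : 0 ≤ t) (z : Ω) : S.T (t : ℂ) z = S.φ t z := by
  have := S.T_polar ht 0 z
  simpa [S.R_zero] using this

lemma exists_polar (ζ : ℂ) : ∃ (t : ℝ) (α : ℝ), 0 ≤ t ∧ t = ‖ζ‖ ∧
    ζ = t * Complex.exp (α * Complex.I) :=
  ⟨‖ζ‖, ζ.arg, norm_nonneg _, rfl, (Complex.norm_mul_exp_arg_mul_I ζ).symm⟩

/-- `T ζ ∘ R α = R α ∘ T (e^{iα} ζ)` -/
lemma T_R (ζ : ℂ) (α : ℝ) (z : Ω) :
    S.T ζ (S.R α z) = S.R α (S.T (Complex.exp (α * Complex.I) * ζ) z) := by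
  obtain ⟨t, β, ht, -, rfl⟩ := exists_polar ζ
  have e : Complex.exp (α * Complex.I) * ((t : ℂ) * Complex.exp (β * Complex.I))
      = t * Complex.exp (((β + α : ℝ) : ℂ) * Complex.I) := by
    push_cast; rw [add_mul, Complex.exp_add]; ring
  rw [e, S.T_polar ht, S.T_polar ht]
  rw [← S.R_add β α z, ← S.R_add α]
  congr 1; ring

/-- translations in one direction form a semigroup -/
lemma T_ray {s t : ℝ} (hs : 0 ≤ s) (ht : 0 ≤ t) (α : ℝ) (z : Ω) :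
    S.T (((s + t : ℝ) : ℂ) * Complex.exp (α * Complex.I)) z
      = S.T (s * Complex.exp (α * Complex.I)) (S.T (t * Complex.exp (α * Complex.I)) z) := by
  rw [S.T_polar (add_nonneg hs ht), S.T_polar hs, S.T_polar ht, S.R_R_neg, ← S.φ_add]

lemma ρ_T (ζ : ℂ) (z : Ω) : S.ρ (S.T ζ z) ≤ S.ρ z + ‖ζ‖ := by
  rw [S.T_def, S.ρ_R]
  have := S.ρ_φ ‖ζ‖ (S.R ζ.arg z)
  rw [S.ρ_R, abs_of_nonneg (norm_nonneg ζ)] at this
  exact this

/-- `T (-ζ)` is the inverse of `T ζ` almost everywhere -/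
lemma T_neg (ζ : ℂ) : ∀ᵐ z ∂μ, S.T (-ζ) (S.T ζ z) = z := by
  obtain ⟨t, α, ht, -, rfl⟩ := exists_polar ζ
  have e : -((t : ℂ) * Complex.exp (α * Complex.I))
      = t * Complex.exp (((α + Real.pi : ℝ) : ℂ) * Complex.I) := by
    push_cast; rw [add_mul, Complex.exp_add, Complex.exp_pi_mul_I]; ring
  have h1 := S.rev t
  have h2 : ∀ᵐ z ∂μ, S.φ t (S.R Real.pi (S.φ t (S.R α z)))
      = S.R Real.pi (S.φ (-t) (S.φ t (S.R α z))) :=
    ((S.φ_mp t).comp (S.R_mp α)).quasiMeasurePreserving.ae h1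
  filter_upwards [h2] with z hz
  rw [e, S.T_polar ht, S.T_polar ht]
  have : S.R (α + Real.pi) (S.R (-α) (S.φ t (S.R α z))) = S.R Real.pi (S.φ t (S.R α z)) := by
    rw [add_comm, S.R_add, S.R_R_neg]
  rw [this, hz, S.φ_neg_φ, ← S.R_add, ← S.R_add]
  have : -(α + Real.pi) + Real.pi + α = 0 := by ring
  rw [this, S.R_zero]

/-- for real `t` (of any sign) `T t = φ t` a.e. -/
lemma T_ofReal (t : ℝ) : ∀ᵐ z ∂μ, S.T (t : ℂ) z = S.φ t z := by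
  rcases le_or_gt 0 t with ht | ht
  · exact Eventually.of_forall fun z => S.T_ofReal_of_nonneg ht z
  · have ht' : 0 ≤ -t := by linarith
    have h := S.T_neg ((-t : ℝ) : ℂ)
    have h2 : ∀ᵐ z ∂μ, S.T (-((-t : ℝ) : ℂ)) (S.T ((-t : ℝ) : ℂ) (S.φ t z)) = S.φ t z :=
      (S.φ_mp t).quasiMeasurePreserving.ae h
    filter_upwards [h2] with z hz
    rw [S.T_ofReal_of_nonneg ht', S.φ_neg_φ] at hz
    simpa using hz

section Koopman

/-- Koopman operator of `T ζ` on `L²` -/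
def U (ζ : ℂ) : Lp ℂ 2 μ →ₗᵢ[ℂ] Lp ℂ 2 μ :=
  Lp.compMeasurePreservingₗᵢ ℂ (S.T ζ) (S.T_mp ζ)

/-- Koopman operator of the rotation `R α` -/
def rot (α : ℝ) : Lp ℂ 2 μ →ₗᵢ[ℂ] Lp ℂ 2 μ :=
  Lp.compMeasurePreservingₗᵢ ℂ (S.R α) (S.R_mp α)

/-- Koopman operator of the flow `φ t` -/
def Uφ (t : ℝ) : Lp ℂ 2 μ →ₗᵢ[ℂ] Lp ℂ 2 μ :=
  Lp.compMeasurePreservingₗᵢ ℂ (S.φ t) (S.φ_mp t)

lemma U_coe (ζ : ℂ) (f : Lp ℂ 2 μ) : S.U ζ f =ᵐ[μ] fun z => f (S.T ζ z) :=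
  Lp.coeFn_compMeasurePreserving f (S.T_mp ζ)

lemma rot_coe (α : ℝ) (f : Lp ℂ 2 μ) : S.rot α f =ᵐ[μ] fun z => f (S.R α z) :=
  Lp.coeFn_compMeasurePreserving f (S.R_mp α)

lemma Uφ_coe (t : ℝ) (f : Lp ℂ 2 μ) : S.Uφ t f =ᵐ[μ] fun z => f (S.φ t z) :=
  Lp.coeFn_compMeasurePreserving f (S.φ_mp t)

end Koopman

end PlaneSys

end Crest.Agent.R103
end
end

-- ▼ part R103/Iface

/-!
# R103: interface of the abstract part (operators and the statements `St...`)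
-/

open MeasureTheory Filter Topology
open scoped InnerProductSpace

noncomputable section

namespace Crest.Agent.R103

/-- the first harmonic averages of an operator valued function: `kernel k` is `e^{i k α}` -/
def harm {H : Type*} [NormedAddCommGroup H] [NormedSpace ℂ H] (k : ℤ) (F : ℝ → H) : H :=
  ((2 * Real.pi)⁻¹ : ℝ) • ∫ α in (0 : ℝ)..(2 * Real.pi), Complex.exp (k * α * Complex.I) • F α

/-! ## A1. telescoping lemma in a Hilbert space (pure functional analysis) -/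

/-- TELESCOPING. `rot` a strongly continuous `2π`-periodic unitary representation, `Ep`, `Em` shift
the weight by `±1`, and `‖Ep (P_n h)‖ = ‖Em (P_n h)‖` for all `n` (only for the given `h`);
`P_n f = harm (-n) (fun α => rot α f)`. -/
def StTele : Prop :=
  ∀ (H : Type) [NormedAddCommGroup H] [InnerProductSpace ℂ H] [CompleteSpace H]
    (rot : ℝ → H →ₗᵢ[ℂ] H),
    (∀ f, rot 0 f = f) → (∀ a b f, rot (a + b) f = rot a (rot b f)) →
    (∀ f, rot (2 * Real.pi) f = f) → (∀ f, Continuous fun α => rot α f) →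
    ∀ (Ep Em : H →L[ℂ] H),
    (∀ α f, rot α (Ep f) = Complex.exp (α * Complex.I) • Ep (rot α f)) →
    (∀ α f, rot α (Em f) = Complex.exp (-(α * Complex.I)) • Em (rot α f)) →
    ∀ h : H, (∀ n : ℤ, ‖Ep (harm (-n) fun α => rot α h)‖ = ‖Em (harm (-n) fun α => rot α h)‖) →
    ∀ (n : ℤ) (r : ℝ), 0 ≤ r → r < 1 →
      ‖Em (harm (-n) fun α => rot α h)‖ ≤ (Real.sqrt (1 - r ^ 2))⁻¹ * ‖Em h + (r : ℂ) • Ep h‖

namespace PlaneSys

variable {Ω : Type} [TopologicalSpace Ω] [MeasurableSpace Ω] {μ : Measure Ω}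

section ops
variable (S : PlaneSys Ω μ)

/-- weight component of weight `n` -/
def P (n : ℤ) (f : Lp ℂ 2 μ) : Lp ℂ 2 μ := harm (-n) fun α => S.rot α f

/-- `E_+(δ) f = (2π)⁻¹ ∫ e^{-iα} f ∘ T (δ e^{iα}) dα` -/
def Ep (δ : ℝ) (f : Lp ℂ 2 μ) : Lp ℂ 2 μ :=
  harm (-1) fun α => S.U (δ * Complex.exp (α * Complex.I)) f

/-- `E_-(δ) f = (2π)⁻¹ ∫ e^{iα} f ∘ T (δ e^{iα}) dα` -/
def Em (δ : ℝ) (f : Lp ℂ 2 μ) : Lp ℂ 2 μ :=
  harm 1 fun α => S.U (δ * Complex.exp (α * Complex.I)) f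

/-- `f` vanishes a.e. where `ρ < b` -/
def SuppGe (b : ℝ) (f : Lp ℂ 2 μ) : Prop := ∀ᵐ z ∂μ, S.ρ z < b → f z = 0

/-- the regularised distance at scale `L` : `inf_s (|s|/L + L ρ(φ_s z))` -/
def rt (L : ℝ) (z : Ω) : ℝ := ⨅ s : ℝ, (|s| / L + L * S.ρ (S.φ s z))

/-- `k`-th radius -/
def rad (ρ₀ : ℝ) (k : ℕ) : ℝ := ρ₀ / 8 ^ k

/-- the cutoff function with `K` scales -/
def eta (ρ₀ : ℝ) (K : ℕ) (L : ℝ) (z : Ω) : ℝ :=
  (K : ℝ)⁻¹ * ∑ k ∈ Finset.range K, max 0 (min 1 (S.rt L z / rad ρ₀ k - 1))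

end ops

/-! ## A2. continuity of the representations -/

/-- all standing assumptions on the space are bundled in this class-like `Prop` arguments:
`Ω` is a second countable pseudometrizable Borel space and `μ` is finite. -/
def StCont : Prop :=
  ∀ (Ω : Type) [TopologicalSpace Ω] [MeasurableSpace Ω] [BorelSpace Ω]
    [SecondCountableTopology Ω] [TopologicalSpace.PseudoMetrizableSpace Ω]
    (μ : Measure Ω) [IsFiniteMeasure μ] (S : PlaneSys Ω μ),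
    (∀ f : Lp ℂ 2 μ, Tendsto (fun ζ : ℂ => S.U ζ f) (𝓝 0) (𝓝 f)) ∧
    (∀ f : Lp ℂ 2 μ, Continuous fun α => S.rot α f) ∧
    (∀ f : Lp ℂ 2 μ, Continuous fun t => S.Uφ t f) ∧
    (∀ (t : ℝ) (f : Lp ℂ 2 μ), 0 ≤ t →
      Continuous fun α : ℝ => S.U (t * Complex.exp (α * Complex.I)) f)

/-! ## A3. elementary properties of `P`, `Ep`, `Em` -/

def StE : Prop :=
  ∀ (Ω : Type) [TopologicalSpace Ω] [MeasurableSpace Ω] [BorelSpace Ω]
    [SecondCountableTopology Ω] [TopologicalSpace.PseudoMetrizableSpace Ω]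
    (μ : Measure Ω) [IsFiniteMeasure μ] (S : PlaneSys Ω μ) (δ : ℝ), 0 ≤ δ →
    ∃ Ep' Em' : Lp ℂ 2 μ →L[ℂ] Lp ℂ 2 μ,
      (∀ f, Ep' f = S.Ep δ f) ∧ (∀ f, Em' f = S.Em δ f) ∧
      (∀ f, ‖S.Ep δ f‖ ≤ ‖f‖) ∧ (∀ f, ‖S.Em δ f‖ ≤ ‖f‖) ∧
      (∀ α f, S.rot α (S.Ep δ f) = Complex.exp (α * Complex.I) • S.Ep δ (S.rot α f)) ∧
      (∀ α f, S.rot α (S.Em δ f) = Complex.exp (-(α * Complex.I)) • S.Em δ (S.rot α f)) ∧
      (∀ f g, ⟪S.Ep δ f, g⟫_ℂ = - ⟪f, S.Em δ g⟫_ℂ) ∧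
      (∀ f g, ⟪S.Em δ f, g⟫_ℂ = - ⟪f, S.Ep δ g⟫_ℂ)

/-- properties of the weight projections: linear, contractive, self-adjoint, weight, completeness
(`f` is determined by its weight components: if `⟪P n f, g⟫ = 0` for all `n` then `⟪f,g⟫ = 0`),
and they preserve the support condition. -/
def StP : Prop :=
  ∀ (Ω : Type) [TopologicalSpace Ω] [MeasurableSpace Ω] [BorelSpace Ω]
    [SecondCountableTopology Ω] [TopologicalSpace.PseudoMetrizableSpace Ω]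
    (μ : Measure Ω) [IsFiniteMeasure μ] (S : PlaneSys Ω μ),
    (∀ n : ℤ, ∃ P' : Lp ℂ 2 μ →L[ℂ] Lp ℂ 2 μ, ∀ f, P' f = S.P n f) ∧
    (∀ n f, ‖S.P n f‖ ≤ ‖f‖) ∧
    (∀ n f g, ⟪S.P n f, g⟫_ℂ = ⟪f, S.P n g⟫_ℂ) ∧
    (∀ f g, (∀ n, ⟪S.P n f, g⟫_ℂ = 0) → ⟪f, g⟫_ℂ = 0) ∧
    (∀ n b f, S.SuppGe b f → S.SuppGe b (S.P n f))

/-! ## A4. the commutation identity -/

def StComm : Prop :=
  ∀ (Ω : Type) [TopologicalSpace Ω] [MeasurableSpace Ω] [BorelSpace Ω]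
    [SecondCountableTopology Ω] [TopologicalSpace.PseudoMetrizableSpace Ω]
    (μ : Measure Ω) [IsFiniteMeasure μ] (S : PlaneSys Ω μ) (δ : ℝ), 0 < δ →
    ∀ f, S.SuppGe (S.C₀ * δ) f → ‖S.Ep δ f‖ = ‖S.Em δ f‖

/-! ## A5. the regularised distance -/

def StRt : Prop :=
  ∀ (Ω : Type) [TopologicalSpace Ω] [MeasurableSpace Ω] [BorelSpace Ω]
    [SecondCountableTopology Ω] [TopologicalSpace.PseudoMetrizableSpace Ω]
    (μ : Measure Ω) [IsFiniteMeasure μ] (S : PlaneSys Ω μ) (L : ℝ), 1 ≤ L →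
    Measurable (S.rt L) ∧ (∀ z, 0 ≤ S.rt L z) ∧ (∀ z, S.rt L z ≤ L * S.ρ z) ∧
    (∀ t z, |S.rt L (S.φ t z) - S.rt L z| ≤ |t| / L) ∧
    (∀ ζ : ℂ, ∀ᵐ z ∂μ, |S.rt L (S.T ζ z) - S.rt L z| ≤ (S.C₀ + 1) * L * ‖ζ‖) ∧
    (∀ r : ℝ, 0 < r → μ {z | S.rt L z < r} ≤ ENNReal.ofReal (20 * S.Cv * r ^ 2))

/-! ## A6. the cutoff -/

def StEta : Prop :=
  ∀ (Ω : Type) [TopologicalSpace Ω] [MeasurableSpace Ω] [BorelSpace Ω]
    [SecondCountableTopology Ω] [TopologicalSpace.PseudoMetrizableSpace Ω]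
    (μ : Measure Ω) [IsFiniteMeasure μ] (S : PlaneSys Ω μ) (L : ℝ), 1 ≤ L →
    ∀ (ρ₀ : ℝ) (K : ℕ), 0 < ρ₀ → 0 < K →
    Measurable (S.eta ρ₀ K L) ∧ (∀ z, 0 ≤ S.eta ρ₀ K L z) ∧ (∀ z, S.eta ρ₀ K L z ≤ 1) ∧
    (∀ z, S.ρ z < rad ρ₀ K / L → S.eta ρ₀ K L z = 0) ∧
    (∫ z, (1 - S.eta ρ₀ K L z) ^ 2 ∂μ ≤ 80 * S.Cv * ρ₀ ^ 2) ∧
    (∀ (g : Ω → Ω) (a : ℝ), Measurable g → 0 ≤ a → a ≤ rad ρ₀ K / 2 →
      (∀ᵐ z ∂μ, |S.rt L (g z) - S.rt L z| ≤ a) →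
      ∫ z, (S.eta ρ₀ K L (g z) - S.eta ρ₀ K L z) ^ 2 ∂μ ≤ a ^ 2 * (180 * S.Cv) / K)

/-! ## A7. the main estimate -/

/-- `u` bounded, invariant under the flow. For every `ε, δ₀ > 0` there are `0 < δ < δ₀` and `h`
with `‖h - u‖ ≤ ε` and all weight components of `h` have small discrete gradient at scale `δ`. -/
def StMain : Prop :=
  ∀ (Ω : Type) [TopologicalSpace Ω] [MeasurableSpace Ω] [BorelSpace Ω]
    [SecondCountableTopology Ω] [TopologicalSpace.PseudoMetrizableSpace Ω]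
    (μ : Measure Ω) [IsFiniteMeasure μ] (S : PlaneSys Ω μ) (u : Lp ℂ 2 μ) (B : ℝ),
    (∀ᵐ z ∂μ, ‖u z‖ ≤ B) → (∀ t, S.Uφ t u = u) →
    ∀ ε : ℝ, 0 < ε → ∀ δ₀ : ℝ, 0 < δ₀ → ∃ δ : ℝ, 0 < δ ∧ δ < δ₀ ∧ ∃ h : Lp ℂ 2 μ,
      ‖h - u‖ ≤ ε ∧ ∀ n : ℤ, ‖S.Ep δ (S.P n h)‖ ≤ ε * δ ∧ ‖S.Em δ (S.P n h)‖ ≤ ε * δ

/-! ## A8. Theorem A -/

def StThmA : Prop :=
  ∀ (Ω : Type) [TopologicalSpace Ω] [MeasurableSpace Ω] [BorelSpace Ω]
    [SecondCountableTopology Ω] [TopologicalSpace.PseudoMetrizableSpace Ω]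
    (μ : Measure Ω) [IsFiniteMeasure μ] (S : PlaneSys Ω μ) (u : Lp ℂ 2 μ) (B : ℝ),
    (∀ᵐ z ∂μ, ‖u z‖ ≤ B) → (∀ t, S.Uφ t u = u) → ∀ ζ : ℂ, S.U ζ u = u

/-! ## A9. product system -/

def StProd : Prop :=
  ∀ (Ω : Type) [TopologicalSpace Ω] [MeasurableSpace Ω] [BorelSpace Ω]
    [SecondCountableTopology Ω] [TopologicalSpace.PseudoMetrizableSpace Ω]
    (μ : Measure Ω) [IsFiniteMeasure μ] (S : PlaneSys Ω μ),
    ∃ S2 : PlaneSys (Ω × Ω) (μ.prod μ),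
      (∀ t z, S2.φ t z = (S.φ t z.1, S.φ t z.2)) ∧ (∀ ζ z, S2.T ζ z = (S.T ζ z.1, S.T ζ z.2))

/-! ## B1. the kernel operator of a bounded kernel is compact -/

/-- for a measurable set `s ⊆ Ω × Ω` there is a compact operator `K` with
`⟪1_A, K 1_B⟫ = (μ×μ)(s ∩ A×B)`; and it is the unique bounded operator with these
matrix coefficients. -/
def StKer : Prop :=
  ∀ (Ω : Type) [MeasurableSpace Ω] (μ : Measure Ω) [IsFiniteMeasure μ] (s : Set (Ω × Ω)),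
    MeasurableSet s → ∃ K : Lp ℂ 2 μ →L[ℂ] Lp ℂ 2 μ, IsCompactOperator K ∧
      (∀ f g : Lp ℂ 2 μ, ⟪g, K f⟫_ℂ =
        ∫ z, s.indicator (fun z : Ω × Ω => (starRingEnd ℂ) (g z.1) * f z.2) z ∂(μ.prod μ))

/-! ## B2. finite dimensional invariant subspaces -/

/-- every finite dimensional subspace of `L²` invariant under all `U ζ` consists of vectors fixed
by all `U ζ`. -/
def StFin : Prop :=
  ∀ (Ω : Type) [TopologicalSpace Ω] [MeasurableSpace Ω] [BorelSpace Ω]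
    [SecondCountableTopology Ω] [TopologicalSpace.PseudoMetrizableSpace Ω]
    (μ : Measure Ω) [IsFiniteMeasure μ] (S : PlaneSys Ω μ) (V : Submodule ℂ (Lp ℂ 2 μ)),
    FiniteDimensional ℂ V → (∀ ζ, ∀ f ∈ V, S.U ζ f ∈ V) → ∀ f ∈ V, ∀ ζ, S.U ζ f = f

/-! ## B3. Theorem B -/

/-- if the only `T`-invariant `L²` functions are constants, then every measurable set
`s ⊆ Ω × Ω` invariant (mod null sets) under all `T ζ × T ζ` is null or conull. -/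
def StThmB : Prop :=
  ∀ (Ω : Type) [TopologicalSpace Ω] [MeasurableSpace Ω] [BorelSpace Ω]
    [SecondCountableTopology Ω] [TopologicalSpace.PseudoMetrizableSpace Ω]
    (μ : Measure Ω) [IsFiniteMeasure μ] (S : PlaneSys Ω μ),
    (∀ f : Lp ℂ 2 μ, (∀ ζ, S.U ζ f = f) → ∃ c : ℂ, f =ᵐ[μ] fun _ => c) →
    ∀ s : Set (Ω × Ω), MeasurableSet s →
      (∀ ζ : ℂ, (fun z : Ω × Ω => (S.T ζ z.1, S.T ζ z.2)) ⁻¹' s =ᵐ[μ.prod μ] s) →
      (μ.prod μ) s = 0 ∨ (μ.prod μ) sᶜ = 0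

/-! ## AB. abstract conclusion -/

def StAbs : Prop :=
  ∀ (Ω : Type) [TopologicalSpace Ω] [MeasurableSpace Ω] [BorelSpace Ω]
    [SecondCountableTopology Ω] [TopologicalSpace.PseudoMetrizableSpace Ω]
    (μ : Measure Ω) [IsFiniteMeasure μ] (S : PlaneSys Ω μ),
    (∀ f : Lp ℂ 2 μ, (∀ ζ, S.U ζ f = f) → ∃ c : ℂ, f =ᵐ[μ] fun _ => c) →
    ∀ s : Set (Ω × Ω), MeasurableSet s →
      (∀ t : ℝ, (fun z : Ω × Ω => (S.φ t z.1, S.φ t z.2)) ⁻¹' s =ᵐ[μ.prod μ] s) →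
      (μ.prod μ) s = 0 ∨ (μ.prod μ) sᶜ = 0

end PlaneSys

end Crest.Agent.R103
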