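import Crest.Prelude.Def_Billiard
import Crest.Agent.R103.Iface

/-!
# R103: concrete part, definitions
-/

open MeasureTheory Filter Topology
open Crest.AnalysisR.Billiard

noncomputable section

namespace Crest.Agent.R103

/-- cross product -/
def cr (u v : Plane) : ℝ := u 0 * v 1 - u 1 * v 0

/-- rotation by a quarter turn -/
def J (v : Plane) : Plane := !₂[-(v 1), v 0]

@[simp] lemma J_zero (v : Plane) : J v 0 = -(v 1) := rfl
@[simp] lemma J_one (v : Plane) : J v 1 = v 0 := rfl

section triangle
variable (A : Fin 3 → Plane)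

/-- twice the signed area -/
def Dt : ℝ := cr (A 1 - A 0) (A 2 - A 0)

/-- barycentric coordinate `i` -/
def cd (i : Fin 3) (x : Plane) : ℝ := cr (A (i + 1) - x) (A (i + 2) - x) / Dt A

/-- linear part of the barycentric coordinate `i` -/
def ld (i : Fin 3) (v : Plane) : ℝ := cr (sideVec A i) v / Dt A

/-- reflection in the line of side `i` -/
def refl (i : Fin 3) (x : Plane) : Plane := A (i + 1) + mirror (sideVec A i) (x - A (i + 1))

/-- composition of reflections along a word (first letter applied first) -/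
def reflW : List (Fin 3) → Plane → Plane
  | [], x => x
  | i :: w, x => reflW w (refl A i x)

/-- composition of the linear reflections along a word (first letter applied first) -/
def mirW : List (Fin 3) → Plane → Plane
  | [], v => v
  | i :: w, v => mirW w (mirror (sideVec A i) v)

/-- distance to the vertices -/
def vd (x : Plane) : ℝ := min (dist x (A 0)) (min (dist x (A 1)) (dist x (A 2)))

/-- admissible states: in the open triangle, or on the boundary with inward velocity -/
def Adm (p : Phase) : Prop := ∀ i, 0 < cd A i p.1 ∨ (cd A i p.1 = 0 ∧ 0 < ld A i p.2)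

/-- the line of `p` avoids all unfolded vertices -/
def LineOK (p : Phase) : Prop :=
  ∀ (w : List (Fin 3)) (s : ℝ) (j : Fin 3), reflW A w (p.1 + s • (p.2 : Plane)) ≠ A j

/-- good states -/
def OK (p : Phase) : Prop := Adm A p ∧ LineOK A p

/-- a chain passes through `p` -/
def Good (p : Phase) : Prop := ∃ c : Chain A, c.Through p

end triangle

section chains
variable {A : Fin 3 → Plane}

lemma exists_idx (c : Chain A) (τ : ℝ) : ∃ k : ℤ, c.t k ≤ τ ∧ τ < c.t (k + 1) := by
  obtain ⟨a, ha⟩ := (c.tendsto_atBot.eventually (eventually_le_atBot τ)).exists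
  obtain ⟨b, hb⟩ := (c.tendsto_atTop.eventually (eventually_gt_atTop τ)).exists
  have hbdd : ∃ b : ℤ, ∀ z : ℤ, c.t z ≤ τ → z ≤ b := by
    refine ⟨b, fun z hz => ?_⟩
    by_contra h
    push Not at h
    have := c.strictMono_t h
    linarith
  obtain ⟨k, hk, hk'⟩ := Int.exists_greatest_of_bdd hbdd ⟨a, ha⟩
  refine ⟨k, hk, ?_⟩
  by_contra h
  push Not at h
  have := hk' _ h
  omega

/-- the index of the flight containing time `τ` -/
def idx (c : Chain A) (τ : ℝ) : ℤ := (exists_idx c τ).choose

lemma idx_le (c : Chain A) (τ : ℝ) : c.t (idx c τ) ≤ τ := (exists_idx c τ).choose_spec.1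

lemma lt_idx (c : Chain A) (τ : ℝ) : τ < c.t (idx c τ + 1) := (exists_idx c τ).choose_spec.2

lemma idx_unique (c : Chain A) {τ : ℝ} {k : ℤ} (h1 : c.t k ≤ τ) (h2 : τ < c.t (k + 1)) :
    idx c τ = k := by
  have a := idx_le c τ
  have b := lt_idx c τ
  have h3 : c.t (idx c τ) < c.t (k + 1) := by linarith
  have h4 : c.t k < c.t (idx c τ + 1) := by linarith
  have h5 := c.strictMono_t.lt_iff_lt.1 h3
  have h6 := c.strictMono_t.lt_iff_lt.1 h4
  omega

lemma idx_zero (c : Chain A) : idx c 0 = 0 :=
  idx_unique c c.t_zero_le (by simpa using c.t_one_pos)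

lemma norm_vel (c : Chain A) (k : ℤ) : ‖c.vel k‖ = 1 := by
  have h := c.unit_speed k
  have h2 : 0 < c.t (k + 1) - c.t k := sub_pos.2 (c.strictMono_t (by omega))
  rw [Chain.vel, norm_smul, norm_inv, Real.norm_eq_abs, abs_of_pos h2, h, dist_comm,
    dist_eq_norm, inv_mul_cancel₀]
  rw [← dist_eq_norm, dist_comm, ← h]; exact h2.ne'

/-- the state of the chain at time `τ` -/
def stateAt (c : Chain A) (τ : ℝ) : Phase :=
  (c.q (idx c τ) + (τ - c.t (idx c τ)) • c.vel (idx c τ),
    ⟨c.vel (idx c τ), by simp [norm_vel]⟩)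

lemma isStateAt_iff (c : Chain A) (τ : ℝ) (y : Phase) :
    c.IsStateAt τ y ↔ y = stateAt c τ := by
  constructor
  · rintro ⟨k, h1, h2, h3, h4⟩
    have hk := idx_unique c h1 h2
    refine Prod.ext ?_ (Subtype.ext ?_)
    · simp only [stateAt, hk]; exact h3
    · simp only [stateAt, hk]; exact h4
  · rintro rfl
    exact ⟨idx c τ, idx_le c τ, lt_idx c τ, rfl, rfl⟩

lemma through_iff (c : Chain A) (p : Phase) : c.Through p ↔ p = stateAt c 0 :=
  isStateAt_iff c 0 p

end chains

section flow
variable (A : Fin 3 → Plane)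

open Classical in
/-- a chain through `p` -/
def chainOf (p : Phase) (h : Good A p) : Chain A := h.choose

open Classical in
/-- the billiard flow on phase space (identity on bad states) -/
def flowP (t : ℝ) (p : Phase) : Phase :=
  if h : OK A p ∧ Good A p then stateAt (chainOf A p h.2) t else p

open Classical in
/-- parity of the number of collisions in the time interval from `0` to `t` -/
def par (t : ℝ) (p : Phase) : Bool :=
  if h : OK A p ∧ Good A p then decide (Odd (idx (chainOf A p h.2) t)) else false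

/-- the flow on oriented frames `Phase × Bool` -/
def flowM (t : ℝ) (z : Phase × Bool) : Phase × Bool :=
  (flowP A t z.1, xor z.2 (par A t z.1))

end flow

/-- sign of an orientation -/
def sgn (b : Bool) : ℝ := if b then 1 else -1

lemma sgn_sq (b : Bool) : sgn b * sgn b = 1 := by cases b <;> norm_num [sgn]

lemma norm_rot_aux (α : ℝ) (b : Bool) (v : Plane) (hv : ‖v‖ = 1) :
    ‖Real.cos α • v + (sgn b * Real.sin α) • J v‖ = 1 := by
  have h1 : ‖v‖ ^ 2 = v 0 ^ 2 + v 1 ^ 2 := by
    rw [EuclideanSpace.norm_sq_eq]; simp [Fin.sum_univ_two]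
  have h2 : ‖Real.cos α • v + (sgn b * Real.sin α) • J v‖ ^ 2 = 1 := by
    rw [EuclideanSpace.norm_sq_eq]
    simp only [Fin.sum_univ_two, PiLp.add_apply, PiLp.smul_apply, smul_eq_mul, J_zero, J_one,
      Real.norm_eq_abs, sq_abs]
    have h3 := sgn_sq b
    have h4 := Real.cos_sq_add_sin_sq α
    rw [hv] at h1
    have h5 : sgn b ^ 2 = 1 := by rw [pow_two, h3]
    have : (Real.cos α * v 0 + sgn b * Real.sin α * -(v 1)) ^ 2
        + (Real.cos α * v 1 + sgn b * Real.sin α * v 0) ^ 2
        = (Real.cos α ^ 2 + sgn b ^ 2 * Real.sin α ^ 2) * (v 0 ^ 2 + v 1 ^ 2) := by ring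
    rw [this, h5, one_mul, h4, ← h1]; norm_num
  nlinarith [norm_nonneg (Real.cos α • v + (sgn b * Real.sin α) • J v)]

/-- rotation of the velocity of a frame by the angle `α` (in the sense of the orientation) -/
def rotF (α : ℝ) (z : Phase × Bool) : Phase × Bool :=
  ((z.1.1, ⟨Real.cos α • (z.1.2 : Plane) + (sgn z.2 * Real.sin α) • J (z.1.2 : Plane), by
    have := norm_rot_aux α z.2 (z.1.2 : Plane) (by simp)
    simpa using this⟩), z.2)

/-- the frame map `ζ ↦ Re ζ • v ± Im ζ • J v` -/
def frm (z : Phase × Bool) (ζ : ℂ) : Plane :=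
  ζ.re • (z.1.2 : Plane) + (sgn z.2 * ζ.im) • J (z.1.2 : Plane)

/-- the measure on oriented frames -/
def μM (A : Fin 3 → Plane) : Measure (Phase × Bool) := (phaseMeasure A).prod Measure.count

end Crest.Agent.R103
end
private theorem rz_8e17b0ddea : type_of% @_root_.Crest.Agent.R103.mirW.eq_def := @_root_.Crest.Agent.R103.mirW.eq_def -- L45
private theorem rz_0e8704b796 : type_of% @_root_.Crest.Agent.R103.mirW.eq_1 := @_root_.Crest.Agent.R103.mirW.eq_1 -- L45
private theorem rz_1a6c0acefe : type_of% @_root_.Crest.Agent.R103.reflW.eq_def := @_root_.Crest.Agent.R103.reflW.eq_def -- L40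
private theorem rz_0babe7dfb7 : type_of% @_root_.Crest.Agent.R103.reflW.eq_1 := @_root_.Crest.Agent.R103.reflW.eq_1 -- L40
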