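import Crest.Agent.R103.Iface
import Mathlib

-- ▼ part R103/EOps
section

/-!
# R103, A3: the operators `Ep`, `Em` (helper950)
-/

open MeasureTheory Filter Topology
open scoped InnerProductSpace

noncomputable section

namespace Crest.Agent.R103

namespace EOps

section harm

variable {H : Type*} [NormedAddCommGroup H] [NormedSpace ℂ H]

lemma continuous_kernel (k : ℤ) : Continuous fun α : ℝ => Complex.exp (k * α * Complex.I) := by
  fun_prop

lemma norm_kernel (k : ℤ) (α : ℝ) : ‖Complex.exp (k * α * Complex.I)‖ = 1 := by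
  have : (k : ℂ) * α * Complex.I = ((k * α : ℝ) : ℂ) * Complex.I := by push_cast; ring
  rw [this, Complex.norm_exp_ofReal_mul_I]

lemma harm_add (k : ℤ) {F G : ℝ → H} (hF : Continuous F) (hG : Continuous G) :
    harm k (fun α => F α + G α) = harm k F + harm k G := by
  unfold harm
  rw [← smul_add]
  congr 1
  rw [← intervalIntegral.integral_add]
  · congr 1; ext α; rw [smul_add]
  · exact ((continuous_kernel k).smul hF).intervalIntegrable _ _
  · exact ((continuous_kernel k).smul hG).intervalIntegrable _ _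

lemma harm_smul (k : ℤ) (c : ℂ) (F : ℝ → H) :
    harm k (fun α => c • F α) = c • harm k F := by
  unfold harm
  rw [smul_comm c]
  congr 1
  rw [← intervalIntegral.integral_smul]
  congr 1; ext α; rw [smul_comm]

lemma norm_harm_le (k : ℤ) {F : ℝ → H} {B : ℝ} (hF : ∀ α, ‖F α‖ ≤ B) : ‖harm k F‖ ≤ B := by
  unfold harm
  have h := intervalIntegral.norm_integral_le_of_norm_le_const (a := 0) (b := 2 * Real.pi)
    (f := fun α => Complex.exp (k * α * Complex.I) • F α) (C := B) (fun α _ => by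
      rw [norm_smul, norm_kernel, one_mul]; exact hF α)
  have hpi : 0 < 2 * Real.pi := by positivity
  rw [norm_smul, Real.norm_of_nonneg (by positivity)]
  rw [sub_zero, abs_of_pos hpi] at h
  calc (2 * Real.pi)⁻¹ * ‖∫ α in (0 : ℝ)..(2 * Real.pi), Complex.exp (k * α * Complex.I) • F α‖
      ≤ (2 * Real.pi)⁻¹ * (B * (2 * Real.pi)) := by gcongr
    _ = B := by field_simp

lemma map_harm {H' : Type*} [NormedAddCommGroup H'] [NormedSpace ℂ H'] [CompleteSpace H]
    [CompleteSpace H'] (L : H →L[ℂ] H') (k : ℤ)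
    {F : ℝ → H} (hF : Continuous F) : L (harm k F) = harm k (fun α => L (F α)) := by
  unfold harm
  have h1 : L (((2 * Real.pi)⁻¹ : ℝ) • ∫ α in (0 : ℝ)..(2 * Real.pi),
      Complex.exp (k * α * Complex.I) • F α) = ((2 * Real.pi)⁻¹ : ℝ) •
      L (∫ α in (0 : ℝ)..(2 * Real.pi), Complex.exp (k * α * Complex.I) • F α) := by
    rw [← Complex.coe_smul, map_smul, Complex.coe_smul]
  rw [h1, ← ContinuousLinearMap.intervalIntegral_comp_comm]
  · simp only [map_smul]
  · exact ((continuous_kernel k).smul hF).intervalIntegrable _ _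

/-- shift of a periodic integrand -/
lemma harm_shift (k : ℤ) (c : ℝ) {F : ℝ → H} (hp : Function.Periodic F (2 * Real.pi)) :
    harm k (fun α => F (α + c)) = Complex.exp (-(k * c * Complex.I)) • harm k F := by
  unfold harm
  rw [smul_comm (Complex.exp (-(k * c * Complex.I)))]
  congr 1
  rw [← intervalIntegral.integral_smul]
  set G : ℝ → H := fun α => Complex.exp (-(k * c * Complex.I)) •
    (Complex.exp (k * α * Complex.I) • F α) with hG
  have hGp : Function.Periodic G (2 * Real.pi) := by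
    intro α
    simp only [hG, hp α]
    congr 2
    have : (k : ℂ) * ((α + 2 * Real.pi : ℝ) : ℂ) * Complex.I
        = k * α * Complex.I + k * (2 * Real.pi * Complex.I) := by push_cast; ring
    rw [this, Complex.exp_add, Complex.exp_int_mul_two_pi_mul_I, mul_one]
  have h1 : (∫ α in (0 : ℝ)..(2 * Real.pi), Complex.exp (k * α * Complex.I) • F (α + c))
      = ∫ α in (0 : ℝ)..(2 * Real.pi), G (α + c) := by
    congr 1; ext α
    simp only [hG]
    rw [smul_smul, ← Complex.exp_add]
    congr 2; push_cast; ring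
  rw [h1, intervalIntegral.integral_comp_add_right]
  rw [zero_add, add_comm (2 * Real.pi) c]
  have h2 := hGp.intervalIntegral_add_eq c 0
  rw [zero_add] at h2
  exact h2

end harm

section inner

variable {H : Type*} [NormedAddCommGroup H] [InnerProductSpace ℂ H] [CompleteSpace H]

/-- pairing on the right -/
lemma inner_harm_right (k : ℤ) (f : H) {F : ℝ → H} (hF : Continuous F) :
    ⟪f, harm k F⟫_ℂ = harm k (fun α => ⟪f, F α⟫_ℂ) :=
  map_harm (innerSL ℂ f) k hF

lemma harm_conj (k : ℤ) (F : ℝ → ℂ) :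
    harm k (fun α => (starRingEnd ℂ) (F α)) = (starRingEnd ℂ) (harm (-k) F) := by
  unfold harm
  rw [Complex.real_smul, Complex.real_smul, map_mul, Complex.conj_ofReal,
    intervalIntegral.integral_of_le (by positivity), intervalIntegral.integral_of_le (by positivity),
    ← integral_conj]
  congr 2; ext α
  rw [smul_eq_mul, smul_eq_mul, map_mul, ← Complex.exp_conj]
  congr 2
  simp [Complex.conj_ofReal, Complex.conj_I]

/-- pairing on the left -/
lemma inner_harm_left (k : ℤ) (f : H) {F : ℝ → H} (hF : Continuous F) :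
    ⟪harm k F, f⟫_ℂ = harm (-k) (fun α => ⟪F α, f⟫_ℂ) := by
  rw [← inner_conj_symm, inner_harm_right k f hF]
  have h := harm_conj (-k) (fun α => ⟪f, F α⟫_ℂ)
  rw [neg_neg] at h
  rw [← h]
  congr 1; ext α
  rw [inner_conj_symm]

end inner

end EOps

open EOps

namespace PlaneSys

section

variable {Ω : Type*} [TopologicalSpace Ω] [MeasurableSpace Ω] {μ : Measure Ω} (S : PlaneSys Ω μ)


/-- `rot α ∘ U ζ = U (e^{iα} ζ) ∘ rot α` -/
lemma rot_U (α : ℝ) (ζ : ℂ) (f : Lp ℂ 2 μ) :
    S.rot α (S.U ζ f) = S.U (Complex.exp (α * Complex.I) * ζ) (S.rot α f) := by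
  refine Lp.ext ?_
  have h1 : S.rot α (S.U ζ f) =ᵐ[μ] fun z => f (S.T ζ (S.R α z)) := by
    refine (S.rot_coe α _).trans ?_
    exact (S.R_mp α).quasiMeasurePreserving.ae (S.U_coe ζ f)
  have h2 : S.U (Complex.exp (α * Complex.I) * ζ) (S.rot α f) =ᵐ[μ]
      fun z => f (S.R α (S.T (Complex.exp (α * Complex.I) * ζ) z)) := by
    refine (S.U_coe _ _).trans ?_
    exact (S.T_mp _).quasiMeasurePreserving.ae (S.rot_coe α f)
  filter_upwards [h1, h2] with z e1 e2
  rw [e1, e2, S.T_R]

/-- `U ζ (U (-ζ) f) = f` -/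
lemma U_U_neg (ζ : ℂ) (f : Lp ℂ 2 μ) : S.U ζ (S.U (-ζ) f) = f := by
  refine Lp.ext ?_
  have h1 : S.U ζ (S.U (-ζ) f) =ᵐ[μ] fun z => f (S.T (-ζ) (S.T ζ z)) := by
    refine (S.U_coe ζ _).trans ?_
    exact (S.T_mp ζ).quasiMeasurePreserving.ae (S.U_coe (-ζ) f)
  filter_upwards [h1, S.T_neg ζ] with z e1 e2
  rw [e1, e2]


/-- the adjoint of `U ζ` is `U (-ζ)` -/
lemma inner_U_left (ζ : ℂ) (f g : Lp ℂ 2 μ) : ⟪S.U ζ f, g⟫_ℂ = ⟪f, S.U (-ζ) g⟫_ℂ := by
  rw [← (S.U ζ).inner_map_map f (S.U (-ζ) g), S.U_U_neg]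

lemma U_circle_periodic (δ : ℝ) (f : Lp ℂ 2 μ) :
    Function.Periodic (fun α : ℝ => S.U (δ * Complex.exp (α * Complex.I)) f) (2 * Real.pi) := by
  intro α
  have : Complex.exp (((α + 2 * Real.pi : ℝ) : ℂ) * Complex.I) = Complex.exp (α * Complex.I) := by
    push_cast
    rw [add_mul, Complex.exp_add, Complex.exp_two_pi_mul_I, mul_one]
  simp only [this]

end

/-- covariance of the circle averages -/
lemma rot_harm_U {Ω : Type*} [TopologicalSpace Ω] [MeasurableSpace Ω] {μ : Measure Ω}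
    (S : PlaneSys Ω μ) (δ : ℝ)
    (hc : ∀ f : Lp ℂ 2 μ, Continuous fun α : ℝ => S.U (δ * Complex.exp (α * Complex.I)) f)
    (k : ℤ) (a : ℝ) (f : Lp ℂ 2 μ) :
    S.rot a (harm k fun α => S.U (δ * Complex.exp (α * Complex.I)) f)
      = Complex.exp (-(k * a * Complex.I)) •
        harm k fun α => S.U (δ * Complex.exp (α * Complex.I)) (S.rot a f) := by
  have h1 := map_harm (S.rot a).toContinuousLinearMap k (hc f)
  have h2 : (fun α : ℝ => (S.rot a).toContinuousLinearMap
      (S.U (δ * Complex.exp (α * Complex.I)) f))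
      = fun α : ℝ => (fun β : ℝ => S.U (δ * Complex.exp (β * Complex.I)) (S.rot a f)) (α + a) := by
    ext1 α
    show S.rot a (S.U (δ * Complex.exp (α * Complex.I)) f) = _
    rw [S.rot_U]
    congr 2
    push_cast
    rw [add_mul, Complex.exp_add]; ring
  rw [h2, harm_shift k a (S.U_circle_periodic δ (S.rot a f))] at h1
  exact h1

/-- A3, given the continuity of the circle of translations. -/
theorem eops_of (hcont : StCont) : StE := by
  intro Ω _ _ _ _ _ μ _ S δ hδ
  obtain ⟨-, -, -, hU⟩ := hcont Ω μ S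
  have hc : ∀ f : Lp ℂ 2 μ, Continuous fun α : ℝ => S.U (δ * Complex.exp (α * Complex.I)) f :=
    fun f => hU δ f hδ
  have hlin : ∀ k : ℤ, ∃ E : Lp ℂ 2 μ →L[ℂ] Lp ℂ 2 μ,
      ∀ f, E f = harm k fun α => S.U (δ * Complex.exp (α * Complex.I)) f := by
    intro k
    refine ⟨LinearMap.mkContinuous
      { toFun := fun f => harm k fun α => S.U (δ * Complex.exp (α * Complex.I)) f
        map_add' := fun f g => by
          rw [← harm_add k (hc f) (hc g)]
          congr 1; ext1 α; rw [map_add]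
        map_smul' := fun c f => by
          rw [RingHom.id_apply, ← harm_smul]
          congr 1; ext1 α; rw [map_smul] } 1 (fun f => ?_), fun f => rfl⟩
    rw [one_mul]
    exact norm_harm_le k fun α => (LinearIsometry.norm_map _ f).le
  have hadj : ∀ f g, ⟪S.Ep δ f, g⟫_ℂ = - ⟪f, S.Em δ g⟫_ℂ := by
    intro f g
    unfold Ep Em
    rw [inner_harm_left _ _ (hc f), inner_harm_right _ _ (hc g)]
    have h1 : (fun α : ℝ => ⟪S.U (δ * Complex.exp (α * Complex.I)) f, g⟫_ℂ)
        = fun α : ℝ => (fun β : ℝ => ⟪f, S.U (δ * Complex.exp (β * Complex.I)) g⟫_ℂ)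
          (α + Real.pi) := by
      ext1 α
      show _ = ⟪f, S.U (δ * Complex.exp (((α + Real.pi : ℝ) : ℂ) * Complex.I)) g⟫_ℂ
      rw [S.inner_U_left]
      congr 3
      push_cast
      rw [add_mul, Complex.exp_add, Complex.exp_pi_mul_I]; ring
    have hp : Function.Periodic (fun β : ℝ => ⟪f, S.U (δ * Complex.exp (β * Complex.I)) g⟫_ℂ)
        (2 * Real.pi) := by
      intro β
      show ⟪f, S.U (δ * Complex.exp (((β + 2 * Real.pi : ℝ) : ℂ) * Complex.I)) g⟫_ℂ = _
      have := S.U_circle_periodic δ g β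
      simp only at this
      rw [this]
    rw [h1, neg_neg, harm_shift 1 Real.pi hp]
    have : Complex.exp (-(((1 : ℤ) : ℂ) * Real.pi * Complex.I)) = -1 := by
      rw [Int.cast_one, one_mul, Complex.exp_neg, Complex.exp_pi_mul_I]; norm_num
    rw [this]
    simp
  obtain ⟨Ep', hEp⟩ := hlin (-1)
  obtain ⟨Em', hEm⟩ := hlin 1
  refine ⟨Ep', Em', hEp, hEm, ?_, ?_, ?_, ?_, hadj, ?_⟩
  · intro f
    exact norm_harm_le _ fun α => (LinearIsometry.norm_map _ f).le
  · intro f
    exact norm_harm_le _ fun α => (LinearIsometry.norm_map _ f).le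
  · intro a f
    have := S.rot_harm_U δ hc (-1) a f
    simpa [Ep] using this
  · intro a f
    have := S.rot_harm_U δ hc 1 a f
    simpa [Em] using this
  · intro f g
    have h := hadj g f
    have h2 := congrArg (starRingEnd ℂ) h
    rw [map_neg, inner_conj_symm, inner_conj_symm] at h2
    rw [h2, neg_neg]

end PlaneSys

end Crest.Agent.R103
end
end

-- ▼ part R103/WkScalar
section

/-!
# R103, step (5) of note 11649: scalar mollification lemma

If a continuous function on `ℂ` is uniformly approximated by continuous functions whose first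
harmonics (on circles of radius `δ → 0` centred near `0`) are `o(δ)`, then it is constant near `0`.
-/

open MeasureTheory Filter Topology Metric Set
open scoped Convolution

noncomputable section

namespace Crest.Agent.R103.Wk

/-- integral against the character `e^{ika}` over the circle of radius `δ` centred at `ζ` -/
def circ (k : ℤ) (F : ℂ → ℂ) (δ : ℝ) (ζ : ℂ) : ℂ :=
  ∫ a in (0 : ℝ)..(2 * Real.pi),
    Complex.exp (k * a * Complex.I) * F (ζ + δ * Complex.exp (a * Complex.I))

lemma norm_char (k : ℤ) (a : ℝ) : ‖Complex.exp (k * a * Complex.I)‖ = 1 := by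
  have : ((k : ℂ) * a * Complex.I) = ((k * a : ℝ) : ℂ) * Complex.I := by push_cast; ring
  rw [this, Complex.norm_exp_ofReal_mul_I]

lemma int_char {k : ℤ} (hk : k ≠ 0) :
    ∫ a in (0 : ℝ)..(2 * Real.pi), Complex.exp (k * a * Complex.I) = 0 := by
  have h0 : (k : ℂ) * Complex.I ≠ 0 := by
    simp [hk]
  have h := integral_exp_mul_complex (a := 0) (b := 2 * Real.pi) h0
  have e : ∀ a : ℝ, (k : ℂ) * a * Complex.I = (k : ℂ) * Complex.I * a := by intro a; ring
  simp_rw [e]
  rw [h]
  have h1 : Complex.exp ((k : ℂ) * Complex.I * ((2 * Real.pi : ℝ) : ℂ)) = 1 := by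
    rw [Complex.exp_eq_one_iff]
    exact ⟨k, by push_cast; ring⟩
  rw [h1]; simp

lemma circ_cont {F : ℂ → ℂ} (hF : Continuous F) (k : ℤ) (δ : ℝ) (ζ : ℂ) :
    Continuous fun a : ℝ =>
      Complex.exp (k * a * Complex.I) * F (ζ + δ * Complex.exp (a * Complex.I)) := by
  fun_prop

/-- first harmonics do not see constants -/
lemma circ_le_of_sub {F : ℂ → ℂ} (hF : Continuous F) {k : ℤ} (hk : k ≠ 0) {δ C : ℝ} {ζ : ℂ}
    (h : ∀ a : ℝ, ‖F (ζ + δ * Complex.exp (a * Complex.I)) - F ζ‖ ≤ C) :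
    ‖circ k F δ ζ‖ ≤ C * (2 * Real.pi) := by
  have e : circ k F δ ζ = ∫ a in (0 : ℝ)..(2 * Real.pi),
      Complex.exp (k * a * Complex.I) * (F (ζ + δ * Complex.exp (a * Complex.I)) - F ζ) := by
    have h1 : ∀ a : ℝ, Complex.exp (k * a * Complex.I) *
        (F (ζ + δ * Complex.exp (a * Complex.I)) - F ζ)
        = Complex.exp (k * a * Complex.I) * F (ζ + δ * Complex.exp (a * Complex.I))
          - Complex.exp (k * a * Complex.I) * F ζ := by intro a; ring
    simp_rw [h1]
    rw [intervalIntegral.integral_sub, intervalIntegral.integral_mul_const, int_char hk]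
    · simp [circ]
    · exact (circ_cont hF k δ ζ).intervalIntegrable _ _
    · exact Continuous.intervalIntegrable (by fun_prop) _ _
  rw [e]
  have := intervalIntegral.norm_integral_le_of_norm_le_const (a := 0) (b := 2 * Real.pi) (C := C)
    (f := fun a : ℝ => Complex.exp (k * a * Complex.I) *
      (F (ζ + δ * Complex.exp (a * Complex.I)) - F ζ))
    (fun a _ => by rw [norm_mul, norm_char, one_mul]; exact h a)
  rwa [sub_zero, abs_of_pos (by positivity)] at this

lemma circ_sub {F G : ℂ → ℂ} (hF : Continuous F) (hG : Continuous G) (k : ℤ) (δ : ℝ) (ζ : ℂ) :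
    circ k (fun z => F z - G z) δ ζ = circ k F δ ζ - circ k G δ ζ := by
  unfold circ
  rw [← intervalIntegral.integral_sub ((circ_cont hF k δ ζ).intervalIntegrable _ _)
    ((circ_cont hG k δ ζ).intervalIntegrable _ _)]
  congr 1
  ext a; ring

/-- a real-linear map `ℂ → ℂ` whose two first harmonics vanish is zero -/
lemma eq_zero_of_harmonics (A : ℂ →L[ℝ] ℂ)
    (h1 : ∫ a in (0 : ℝ)..(2 * Real.pi),
      Complex.exp ((1 : ℤ) * a * Complex.I) * A (Complex.exp (a * Complex.I)) = 0)
    (h2 : ∫ a in (0 : ℝ)..(2 * Real.pi),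
      Complex.exp ((-1 : ℤ) * a * Complex.I) * A (Complex.exp (a * Complex.I)) = 0) :
    A = 0 := by
  -- Wirtinger components
  set p : ℂ := (A 1 - Complex.I * A Complex.I) / 2 with hp
  set q : ℂ := (A 1 + Complex.I * A Complex.I) / 2 with hq
  have hA : ∀ z : ℂ, A z = p * z + q * (starRingEnd ℂ) z := by
    intro z
    have hz : z = (z.re : ℝ) • (1 : ℂ) + (z.im : ℝ) • Complex.I := by
      apply Complex.ext <;> simp
    have h3 : A z = (z.re : ℂ) * A 1 + (z.im : ℂ) * A Complex.I := by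
      conv_lhs => rw [hz]
      rw [map_add, map_smul, map_smul]
      simp
    have h4 : (starRingEnd ℂ) z = (z.re : ℂ) - (z.im : ℂ) * Complex.I := by
      apply Complex.ext <;> simp
    have h5 : z = (z.re : ℂ) + (z.im : ℂ) * Complex.I := (Complex.re_add_im z).symm
    rw [h3, h4]
    conv_rhs => rw [h5]
    simp only [Complex.add_re, Complex.ofReal_re, Complex.mul_re, Complex.I_re, mul_zero,
      Complex.ofReal_im, Complex.I_im, mul_one, sub_self, add_zero, Complex.add_im, Complex.mul_im,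
      zero_add]
    rw [hp, hq]
    ring_nf
    simp only [Complex.I_sq]
    ring
  have hc : ∀ a : ℝ, (starRingEnd ℂ) (Complex.exp (a * Complex.I))
      = Complex.exp ((-1 : ℤ) * a * Complex.I) := by
    intro a
    rw [← Complex.exp_conj]
    congr 1
    simp
  have e1 : ∀ a : ℝ, Complex.exp ((1 : ℤ) * a * Complex.I) * A (Complex.exp (a * Complex.I))
      = p * Complex.exp ((2 : ℤ) * a * Complex.I) + q := by
    intro a
    rw [hA, hc, mul_add]
    have t1 : Complex.exp ((1 : ℤ) * a * Complex.I) * (p * Complex.exp (a * Complex.I))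
        = p * Complex.exp ((2 : ℤ) * a * Complex.I) := by
      rw [mul_left_comm, ← Complex.exp_add]
      congr 2; push_cast; ring
    have t2 : Complex.exp ((1 : ℤ) * a * Complex.I) * (q * Complex.exp ((-1 : ℤ) * a * Complex.I))
        = q := by
      rw [mul_left_comm, ← Complex.exp_add]
      have : ((1 : ℤ) : ℂ) * a * Complex.I + ((-1 : ℤ) : ℂ) * a * Complex.I = 0 := by
        push_cast; ring
      rw [this, Complex.exp_zero, mul_one]
    rw [t1, t2]
  have e2 : ∀ a : ℝ, Complex.exp ((-1 : ℤ) * a * Complex.I) * A (Complex.exp (a * Complex.I))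
      = p + q * Complex.exp ((-2 : ℤ) * a * Complex.I) := by
    intro a
    rw [hA, hc, mul_add]
    have t1 : Complex.exp ((-1 : ℤ) * a * Complex.I) * (p * Complex.exp (a * Complex.I)) = p := by
      rw [mul_left_comm, ← Complex.exp_add]
      have : ((-1 : ℤ) : ℂ) * a * Complex.I + a * Complex.I = 0 := by
        push_cast; ring
      rw [this, Complex.exp_zero, mul_one]
    have t2 : Complex.exp ((-1 : ℤ) * a * Complex.I) *
        (q * Complex.exp ((-1 : ℤ) * a * Complex.I))
        = q * Complex.exp ((-2 : ℤ) * a * Complex.I) := by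
      rw [mul_left_comm, ← Complex.exp_add]
      congr 2; push_cast; ring
    rw [t1, t2]
  simp_rw [e1] at h1
  simp_rw [e2] at h2
  rw [intervalIntegral.integral_add, intervalIntegral.integral_const_mul,
    int_char (by norm_num : (2 : ℤ) ≠ 0)] at h1
  rw [intervalIntegral.integral_add, intervalIntegral.integral_const_mul,
    int_char (by norm_num : (-2 : ℤ) ≠ 0)] at h2
  · have hpi : ((2 * Real.pi : ℝ) : ℂ) ≠ 0 := by
      exact_mod_cast (by positivity : (2 * Real.pi : ℝ) ≠ 0)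
    have hq0 : q = 0 := by
      simp only [mul_zero, intervalIntegral.integral_const, sub_zero, zero_add] at h1
      rw [Complex.real_smul] at h1
      exact (mul_eq_zero.1 h1).resolve_left hpi
    have hp0 : p = 0 := by
      simp only [mul_zero, intervalIntegral.integral_const, sub_zero, add_zero] at h2
      rw [Complex.real_smul] at h2
      exact (mul_eq_zero.1 h2).resolve_left hpi
    ext z
    rw [hA, hq0, hp0]; simp
  · exact Continuous.intervalIntegrable (by fun_prop) _ _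
  · exact Continuous.intervalIntegrable (by fun_prop) _ _
  · exact Continuous.intervalIntegrable (by fun_prop) _ _
  · exact Continuous.intervalIntegrable (by fun_prop) _ _


section moll

variable (φ : ContDiffBump (0 : ℂ))

/-- mollification -/
def moll (g : ℂ → ℂ) : ℂ → ℂ := (φ.normed volume ⋆[ContinuousLinearMap.lsmul ℝ ℝ, volume] g)

lemma moll_apply (g : ℂ → ℂ) (z : ℂ) : moll φ g z = ∫ t, φ.normed volume t • g (z - t) := rfl

lemma moll_contDiff {g : ℂ → ℂ} (hg : Continuous g) : ContDiff ℝ 1 (moll φ g) :=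
  φ.hasCompactSupport_normed.contDiff_convolution_left _ φ.contDiff_normed hg.locallyIntegrable

lemma moll_integrable {g : ℂ → ℂ} (hg : Continuous g) (z : ℂ) :
    Integrable fun t => φ.normed volume t • g (z - t) := by
  refine Continuous.integrable_of_hasCompactSupport ?_ ?_
  · exact φ.continuous_normed.smul (hg.comp (continuous_const.sub continuous_id))
  · exact φ.hasCompactSupport_normed.smul_right

lemma moll_sub {f g : ℂ → ℂ} (hf : Continuous f) (hg : Continuous g) (z : ℂ) :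
    moll φ (fun t => f t - g t) z = moll φ f z - moll φ g z := by
  rw [moll_apply, moll_apply, moll_apply, ← integral_sub (moll_integrable φ hf z)
    (moll_integrable φ hg z)]
  congr 1
  ext t
  rw [smul_sub]

lemma moll_lip : ∃ M : ℝ, 0 ≤ M ∧ ∀ (g : ℂ → ℂ) (ε : ℝ), Continuous g → (∀ t, ‖g t‖ ≤ ε) →
    ∀ z z' : ℂ, ‖moll φ g z - moll φ g z'‖ ≤ M * ε * ‖z - z'‖ := by
  obtain ⟨K, hK⟩ := ContDiff.lipschitzWith_of_hasCompactSupport (𝕂 := ℝ)
    (φ.hasCompactSupport_normed (μ := volume)) (φ.contDiff_normed (n := 1)) (by simp)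
  set V : ℝ := (volume (ball (0 : ℂ) φ.rOut)).toReal with hV
  refine ⟨K * (2 * V), by positivity, fun g ε hg hε z z' => ?_⟩
  have hε0 : 0 ≤ ε := (norm_nonneg _).trans (hε 0)
  have e : ∀ w, moll φ g w = ∫ t, φ.normed volume (w - t) • g t := fun w =>
    convolution_lsmul_swap
  have hint : ∀ w, Integrable fun t => φ.normed volume (w - t) • g t := by
    intro w
    have h := (moll_integrable φ hg w).comp_sub_left w
    simpa using h
  rw [e, e, ← integral_sub (hint z) (hint z')]
  have e2 : ∀ t, φ.normed volume (z - t) • g t - φ.normed volume (z' - t) • g t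
      = (φ.normed volume (z - t) - φ.normed volume (z' - t)) • g t := fun t => by rw [sub_smul]
  simp_rw [e2]
  set s : Set ℂ := ball z φ.rOut ∪ ball z' φ.rOut with hs
  have h0 : ∀ t, t ∉ s → (φ.normed volume (z - t) - φ.normed volume (z' - t)) • g t = 0 := by
    intro t ht
    have h1 : t ∉ ball z φ.rOut := fun h => ht (Or.inl h)
    have h2 : t ∉ ball z' φ.rOut := fun h => ht (Or.inr h)
    have k : ∀ w : ℂ, t ∉ ball w φ.rOut → φ.normed volume (w - t) = 0 := by
      intro w hw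
      have : (w - t) ∉ Function.support (φ.normed volume) := by
        rw [φ.support_normed_eq]
        simpa [mem_ball, dist_eq_norm, norm_sub_rev] using hw
      simpa [Function.mem_support] using this
    rw [k z h1, k z' h2]; simp
  rw [← setIntegral_eq_integral_of_forall_compl_eq_zero h0]
  have hsfin : volume s < ⊤ := (measure_union_le _ _).trans_lt
    (ENNReal.add_lt_top.2 ⟨measure_ball_lt_top, measure_ball_lt_top⟩)
  have hb := norm_setIntegral_le_of_norm_le_const (μ := volume) (s := s)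
    (C := K * ‖z - z'‖ * ε)
    (f := fun t => (φ.normed volume (z - t) - φ.normed volume (z' - t)) • g t) hsfin
    (fun t _ => by
      rw [norm_smul]
      have h1 := hK.dist_le_mul (z - t) (z' - t)
      rw [dist_eq_norm, dist_eq_norm] at h1
      have h2 : z - t - (z' - t) = z - z' := by ring
      rw [h2] at h1
      exact mul_le_mul h1 (hε t) (norm_nonneg _) (by positivity))
  refine hb.trans ?_
  have hvs : (volume s).toReal ≤ 2 * V := by
    have h1 : volume s ≤ volume (ball (0 : ℂ) φ.rOut) + volume (ball (0 : ℂ) φ.rOut) := by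
      refine (measure_union_le _ _).trans ?_
      rw [Measure.addHaar_ball_center volume z, Measure.addHaar_ball_center volume z']
    have h2 := ENNReal.toReal_mono (ENNReal.add_lt_top.2
      ⟨measure_ball_lt_top, measure_ball_lt_top⟩).ne h1
    rw [ENNReal.toReal_add measure_ball_lt_top.ne measure_ball_lt_top.ne] at h2
    linarith
  have : (volume.real s) = (volume s).toReal := rfl
  rw [this]
  calc K * ‖z - z'‖ * ε * (volume s).toReal ≤ K * ‖z - z'‖ * ε * (2 * V) := by gcongr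
    _ = K * (2 * V) * ε * ‖z - z'‖ := by ring

lemma circ_moll {g : ℂ → ℂ} (hg : Continuous g) (k : ℤ) (δ : ℝ) (ζ : ℂ) :
    circ k (moll φ g) δ ζ = ∫ t, φ.normed volume t • circ k g δ (ζ - t) := by
  unfold circ
  have e : ∀ a : ℝ, Complex.exp (k * a * Complex.I) *
      moll φ g (ζ + δ * Complex.exp (a * Complex.I))
      = ∫ t, φ.normed volume t • (Complex.exp (k * a * Complex.I) *
        g (ζ - t + δ * Complex.exp (a * Complex.I))) := by
    intro a
    rw [moll_apply, ← integral_const_mul]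
    congr 1
    ext t
    rw [mul_smul_comm]
    congr 3
    ring
  simp_rw [e]
  rw [intervalIntegral_integral_swap]
  · congr 1
    ext t
    rw [intervalIntegral.integral_smul]
  · -- integrability
    have hcont : Continuous (Function.uncurry fun (a : ℝ) (t : ℂ) => φ.normed volume t •
        (Complex.exp (k * a * Complex.I) * g (ζ - t + δ * Complex.exp (a * Complex.I)))) := by
      have h1 : Continuous fun p : ℝ × ℂ => φ.normed volume p.2 :=
        φ.continuous_normed.comp continuous_snd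
      have h2 : Continuous fun p : ℝ × ℂ => g (ζ - p.2 + δ * Complex.exp (p.1 * Complex.I)) :=
        hg.comp (by fun_prop)
      have h3 : Continuous fun p : ℝ × ℂ => Complex.exp (k * p.1 * Complex.I) := by fun_prop
      exact h1.smul (h3.mul h2)
    have hcpt : IsCompact (Icc (0 : ℝ) (2 * Real.pi) ×ˢ closedBall (0 : ℂ) φ.rOut) :=
      isCompact_Icc.prod (isCompact_closedBall _ _)
    have hi : IntegrableOn (Function.uncurry fun (a : ℝ) (t : ℂ) => φ.normed volume t •
        (Complex.exp (k * a * Complex.I) * g (ζ - t + δ * Complex.exp (a * Complex.I))))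
        (Icc (0 : ℝ) (2 * Real.pi) ×ˢ closedBall (0 : ℂ) φ.rOut) (volume.prod volume) :=
      hcont.continuousOn.integrableOn_compact hcpt
    have hi2 : IntegrableOn (Function.uncurry fun (a : ℝ) (t : ℂ) => φ.normed volume t •
        (Complex.exp (k * a * Complex.I) * g (ζ - t + δ * Complex.exp (a * Complex.I))))
        (Icc (0 : ℝ) (2 * Real.pi) ×ˢ univ) (volume.prod volume) := by
      refine hi.of_forall_sdiff_eq_zero (measurableSet_Icc.prod MeasurableSet.univ) ?_
      rintro ⟨a, t⟩ ⟨h1, h2⟩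
      have h3 : t ∉ closedBall (0 : ℂ) φ.rOut := fun h => h2 ⟨h1.1, h⟩
      have h4 : φ.normed volume t = 0 := by
        have : t ∉ Function.support (φ.normed volume) := by
          rw [φ.support_normed_eq]
          exact fun h => h3 (ball_subset_closedBall h)
        simpa [Function.mem_support] using this
      simp [h4]
    rw [IntegrableOn, ← Measure.prod_restrict, Measure.restrict_univ] at hi2
    refine hi2.mono_measure ?_
    refine Measure.prod_mono ?_ le_rfl
    rw [uIoc_of_le (by positivity)]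
    exact Measure.restrict_mono Ioc_subset_Icc_self le_rfl

lemma norm_circ_moll_le {g : ℂ → ℂ} (hg : Continuous g) (k : ℤ) (δ : ℝ) (ζ : ℂ) {C : ℝ}
    (h : ∀ t ∈ ball (0 : ℂ) φ.rOut, ‖circ k g δ (ζ - t)‖ ≤ C) :
    ‖circ k (moll φ g) δ ζ‖ ≤ C := by
  rw [circ_moll φ hg]
  have h1 : ∀ t, ‖φ.normed volume t • circ k g δ (ζ - t)‖ ≤ C * φ.normed volume t := by
    intro t
    rw [norm_smul, Real.norm_of_nonneg (φ.nonneg_normed t), mul_comm]
    by_cases ht : t ∈ ball (0 : ℂ) φ.rOut
    · exact mul_le_mul_of_nonneg_right (h t ht) (φ.nonneg_normed t)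
    · have h4 : φ.normed volume t = 0 := by
        have : t ∉ Function.support (φ.normed volume) := by
          rw [φ.support_normed_eq]; exact ht
        simpa [Function.mem_support] using this
      simp [h4]
  refine (norm_integral_le_of_norm_le (φ.integrable_normed.const_mul C)
    (Eventually.of_forall h1)).trans ?_
  rw [integral_const_mul, φ.integral_normed, mul_one]

end moll


/-- the first harmonics of a differentiable function on small circles -/
lemma circ_deriv {F : ℂ → ℂ} (hF : Continuous F) {ζ : ℂ} {A : ℂ →L[ℝ] ℂ}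
    (hA : HasFDerivAt F A ζ) {k : ℤ} (hk : k ≠ 0) {ε : ℝ} (hε : 0 < ε) :
    ∃ δ₁ : ℝ, 0 < δ₁ ∧ ∀ δ : ℝ, 0 < δ → δ < δ₁ →
      ‖circ k F δ ζ - (δ : ℂ) * ∫ a in (0 : ℝ)..(2 * Real.pi),
        Complex.exp (k * a * Complex.I) * A (Complex.exp (a * Complex.I))‖
      ≤ ε * δ * (2 * Real.pi) := by
  have h := (hasFDerivAt_iff_isLittleO_nhds_zero.1 hA).def hε
  rw [Metric.eventually_nhds_iff] at h
  obtain ⟨δ₁, hδ₁, h⟩ := h
  refine ⟨δ₁, hδ₁, fun δ hδ hδ' => ?_⟩
  -- the function `F - A(· - ζ)`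
  set D : ℂ → ℂ := fun z => F z - A (z - ζ) with hD
  have hDc : Continuous D := hF.sub (A.continuous.comp (continuous_id.sub continuous_const))
  have hlin : Continuous fun z : ℂ => A (z - ζ) :=
    A.continuous.comp (continuous_id.sub continuous_const)
  have e : circ k F δ ζ - (δ : ℂ) * ∫ a in (0 : ℝ)..(2 * Real.pi),
        Complex.exp (k * a * Complex.I) * A (Complex.exp (a * Complex.I)) = circ k D δ ζ := by
    rw [hD, circ_sub hF hlin]
    congr 1
    unfold circ
    rw [← intervalIntegral.integral_const_mul]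
    congr 1
    ext a
    have h1 : ζ + (δ : ℂ) * Complex.exp (a * Complex.I) - ζ
        = (δ : ℝ) • Complex.exp (a * Complex.I) := by
      rw [Complex.real_smul]; ring
    beta_reduce
    rw [h1, map_smul, Complex.real_smul]; ring
  rw [e]
  refine circ_le_of_sub hDc hk fun a => ?_
  have hn : ‖(δ : ℂ) * Complex.exp (a * Complex.I)‖ = δ := by
    rw [norm_mul, Complex.norm_exp_ofReal_mul_I]; simp [abs_of_pos hδ]
  have h2 := h (y := (δ : ℂ) * Complex.exp (a * Complex.I)) (by
    rw [dist_zero_right, hn]; exact hδ')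
  rw [hn] at h2
  have h3 : D (ζ + δ * Complex.exp (a * Complex.I)) - D ζ
      = F (ζ + δ * Complex.exp (a * Complex.I)) - F ζ - A (δ * Complex.exp (a * Complex.I)) := by
    simp only [hD, add_sub_cancel_left, sub_self, map_zero, sub_zero]
    ring
  rw [h3]; exact h2

/-- **Scalar lemma.** A continuous function which is a uniform limit of continuous functions with
`o(δ)` first harmonics on small circles centred in a disc is constant on a smaller disc. -/
theorem scalar {G : ℂ → ℂ} (hG : Continuous G) {e : ℝ} (he : 0 < e)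
    (happ : ∀ ε : ℝ, 0 < ε → ∀ δ₀ : ℝ, 0 < δ₀ → ∃ δ : ℝ, 0 < δ ∧ δ < δ₀ ∧ ∃ Gh : ℂ → ℂ,
      Continuous Gh ∧ (∀ z, ‖Gh z - G z‖ ≤ ε) ∧
      ∀ z : ℂ, ‖z‖ < e → ‖circ 1 Gh δ z‖ ≤ ε * δ ∧ ‖circ (-1) Gh δ z‖ ≤ ε * δ)
    {ζ : ℂ} (hζ : ‖ζ‖ < e / 2) : G ζ = G 0 := by
  -- derivative of mollifications vanish
  have key : ∀ φ : ContDiffBump (0 : ℂ), φ.rOut < e / 2 → ∀ z : ℂ, ‖z‖ < e / 2 →
      fderiv ℝ (moll φ G) z = 0 := by
    intro φ hφ z hz
    obtain ⟨M, hM0, hM⟩ := moll_lip φ
    have hc : Continuous (moll φ G) := (moll_contDiff φ hG).continuous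
    have hd : HasFDerivAt (moll φ G) (fderiv ℝ (moll φ G) z) z :=
      ((moll_contDiff φ hG).differentiable one_ne_zero z).hasFDerivAt
    set A := fderiv ℝ (moll φ G) z with hAdef
    have harm0 : ∀ k : ℤ, k = 1 ∨ k = -1 → ∫ a in (0 : ℝ)..(2 * Real.pi),
        Complex.exp (k * a * Complex.I) * A (Complex.exp (a * Complex.I)) = 0 := by
      intro k hk
      have hk0 : k ≠ 0 := by rcases hk with rfl | rfl <;> norm_num
      set I₀ := ∫ a in (0 : ℝ)..(2 * Real.pi),
        Complex.exp (k * a * Complex.I) * A (Complex.exp (a * Complex.I)) with hI₀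
      by_contra hne
      have hpos : 0 < ‖I₀‖ := norm_pos_iff.2 hne
      set W : ℝ := (2 * Real.pi) + M * (2 * Real.pi) + 1 with hW
      have hWpos : 0 < W := by positivity
      set ε : ℝ := ‖I₀‖ / (2 * W) with hεdef
      have hε : 0 < ε := by positivity
      obtain ⟨δ₁, hδ₁, h1⟩ := circ_deriv hc hd hk0 hε
      obtain ⟨δ, hδ, hδ', Gh, hGh, hGh1, hGh2⟩ := happ ε hε δ₁ hδ₁
      have h2 := h1 δ hδ hδ'
      -- bound of `circ k (moll φ G) δ z`
      have h3 : ‖circ k (moll φ Gh) δ z‖ ≤ ε * δ := by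
        refine norm_circ_moll_le φ hGh k δ z fun t ht => ?_
        have hzt : ‖z - t‖ < e := by
          have : ‖t‖ < φ.rOut := by simpa using ht
          calc ‖z - t‖ ≤ ‖z‖ + ‖t‖ := norm_sub_le _ _
            _ < e := by linarith
        rcases hk with rfl | rfl
        · exact (hGh2 _ hzt).1
        · exact (hGh2 _ hzt).2
      have h4 : ‖circ k (moll φ fun z => G z - Gh z) δ z‖ ≤ M * ε * δ * (2 * Real.pi) := by
        refine circ_le_of_sub (moll_contDiff φ (hG.sub hGh)).continuous hk0 fun a => ?_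
        refine (hM _ ε (hG.sub hGh) (fun t => by
          rw [Pi.sub_apply, norm_sub_rev]; exact hGh1 t) _ _).trans ?_
        rw [add_sub_cancel_left, norm_mul, Complex.norm_exp_ofReal_mul_I]
        simp [abs_of_pos hδ]
      have h5 : circ k (moll φ fun z => G z - Gh z) δ z
          = circ k (moll φ G) δ z - circ k (moll φ Gh) δ z := by
        have : moll φ (fun z => G z - Gh z) = fun z => moll φ G z - moll φ Gh z :=
          funext fun z => moll_sub φ hG hGh z
        rw [this, circ_sub hc (moll_contDiff φ hGh).continuous]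
      have h6 : ‖circ k (moll φ G) δ z‖ ≤ M * ε * δ * (2 * Real.pi) + ε * δ := by
        have : circ k (moll φ G) δ z
            = circ k (moll φ fun z => G z - Gh z) δ z + circ k (moll φ Gh) δ z := by
          rw [h5]; ring
        rw [this]
        exact (norm_add_le _ _).trans (add_le_add h4 h3)
      have h7 : δ * ‖I₀‖ ≤ ε * W * δ := by
        have : (δ : ℂ) * I₀ = circ k (moll φ G) δ z - (circ k (moll φ G) δ z - (δ : ℂ) * I₀) := by
          ring
        have h8 : ‖(δ : ℂ) * I₀‖ = δ * ‖I₀‖ := by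
          rw [norm_mul]; simp [abs_of_pos hδ]
        rw [← h8, this]
        refine (norm_sub_le _ _).trans ?_
        refine (add_le_add h6 h2).trans (le_of_eq ?_)
        rw [hW]; ring
      have h9 : ‖I₀‖ ≤ ε * W := by
        have := le_of_mul_le_mul_left (by linarith : δ * ‖I₀‖ ≤ δ * (ε * W)) hδ
        exact this
      rw [hεdef] at h9
      have : ‖I₀‖ / (2 * W) * W = ‖I₀‖ / 2 := by field_simp
      rw [this] at h9
      linarith
    exact eq_zero_of_harmonics A (harm0 1 (Or.inl rfl)) (harm0 (-1) (Or.inr rfl))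
  -- hence mollifications are constant on the disc
  have hconst : ∀ φ : ContDiffBump (0 : ℂ), φ.rOut < e / 2 → moll φ G ζ = moll φ G 0 := by
    intro φ hφ
    refine isOpen_ball.is_const_of_fderiv_eq_zero (𝕜 := ℝ) (s := ball (0 : ℂ) (e / 2))
      (convex_ball _ _).isPreconnected
      ((moll_contDiff φ hG).differentiable one_ne_zero).differentiableOn
      (fun z hz => key φ hφ z (by simpa using hz)) (by simpa using hζ)
      (mem_ball_self (by positivity))
  -- pass to the limit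
  let φ : ℕ → ContDiffBump (0 : ℂ) := fun n =>
    { rIn := e / (n + 4) / 2, rOut := e / (n + 4), rIn_pos := by positivity,
      rIn_lt_rOut := half_lt_self (by positivity) }
  have hφ0 : Tendsto (fun n => (φ n).rOut) atTop (𝓝 0) := by
    have h : Tendsto (fun n : ℕ => (n : ℝ) + 4) atTop atTop :=
      tendsto_atTop_add_const_right _ _ tendsto_natCast_atTop_atTop
    exact Tendsto.div_atTop tendsto_const_nhds h
  have hφlt : ∀ n, (φ n).rOut < e / 2 := by
    intro n
    show e / ((n : ℝ) + 4) < e / 2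
    have : (0 : ℝ) ≤ n := Nat.cast_nonneg n
    gcongr
    linarith
  have l1 := ContDiffBump.convolution_tendsto_right_of_continuous (μ := (volume : Measure ℂ))
    hφ0 hG ζ
  have l2 := ContDiffBump.convolution_tendsto_right_of_continuous (μ := (volume : Measure ℂ))
    hφ0 hG 0
  have l3 : (fun n => ((φ n).normed volume ⋆[ContinuousLinearMap.lsmul ℝ ℝ, volume] G) ζ)
      = fun n => ((φ n).normed volume ⋆[ContinuousLinearMap.lsmul ℝ ℝ, volume] G) 0 :=
    funext fun n => hconst (φ n) (hφlt n)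
  rw [l3] at l1
  exact tendsto_nhds_unique l1 l2

end Crest.Agent.R103.Wk
end
end

-- ▼ part R103/Wk

/-!
# R103, step (5) of note 11649 (core of task A8)
-/

open MeasureTheory Filter Topology Metric Set
open scoped InnerProductSpace

noncomputable section

namespace Crest.Agent.R103.Wk

/-- radial retraction of `ℂ` onto the closed ball of radius `e` -/
def ret (e : ℝ) (z : ℂ) : ℂ := ((e / max e ‖z‖ : ℝ) : ℂ) * z

lemma ret_cont {e : ℝ} (he : 0 < e) : Continuous (ret e) := by
  unfold ret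
  refine Continuous.mul (Complex.continuous_ofReal.comp ?_) continuous_id
  exact continuous_const.div (continuous_const.max continuous_norm)
    (fun z => (he.trans_le (le_max_left _ _)).ne')

lemma ret_of_le {e : ℝ} (he : 0 < e) {z : ℂ} (hz : ‖z‖ ≤ e) : ret e z = z := by
  unfold ret
  rw [max_eq_left hz, div_self he.ne']; simp

lemma norm_ret_le {e : ℝ} (he : 0 < e) (z : ℂ) : ‖ret e z‖ ≤ e := by
  unfold ret
  have hm : 0 < max e ‖z‖ := he.trans_le (le_max_left _ _)
  rw [norm_mul, Complex.norm_real, Real.norm_of_nonneg (by positivity), div_mul_eq_mul_div,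
    div_le_iff₀ hm]
  exact mul_le_mul_of_nonneg_left (le_max_right _ _) he.le

/-- pairing with `harm` -/
lemma inner_harm {H : Type*} [NormedAddCommGroup H] [InnerProductSpace ℂ H] [CompleteSpace H]
    (k : ℤ) {F : ℝ → H} (hF : Continuous F) (v : H) :
    ∫ α in (0 : ℝ)..(2 * Real.pi), Complex.exp (k * α * Complex.I) * ⟪v, F α⟫_ℂ
      = (2 * Real.pi : ℝ) * ⟪v, harm k F⟫_ℂ := by
  have hpi : (0 : ℝ) < 2 * Real.pi := by positivity
  have hc : Continuous fun α : ℝ => Complex.exp (k * α * Complex.I) := by fun_prop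
  have hint : IntervalIntegrable (fun α : ℝ => Complex.exp (k * α * Complex.I) • F α)
      volume 0 (2 * Real.pi) := (hc.smul hF).intervalIntegrable _ _
  have h2 := (innerSL ℂ v).intervalIntegral_comp_comm hint
  simp only [innerSL_apply_apply, inner_smul_right] at h2
  unfold harm
  rw [← Complex.coe_smul, inner_smul_right, ← mul_assoc, ← h2]
  have e1 : ((2 * Real.pi : ℝ) : ℂ) * (((2 * Real.pi)⁻¹ : ℝ) : ℂ) = 1 := by
    rw [← Complex.ofReal_mul, mul_inv_cancel₀ hpi.ne', Complex.ofReal_one]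
  rw [e1, one_mul]

end Crest.Agent.R103.Wk

namespace Crest.Agent.R103.PlaneSys

variable {Ω : Type} [TopologicalSpace Ω] [MeasurableSpace Ω] {μ : Measure Ω}
variable (S : PlaneSys Ω μ)

/-- the local group law on the level of the Koopman operators: `U ζ (U ξ ψ) = U (ζ + ξ) ψ` if `ψ`
is supported in `{b ≤ ρ}` and `ζ, ξ` are small compared to `b`. -/
theorem U_U_of_suppGe {b ε : ℝ} (hε : 0 < ε) (hb : (S.C₀ + 2) * ε ≤ b) {ψ : Lp ℂ 2 μ}
    (hψ : S.SuppGe b ψ) {ζ ξ : ℂ} (hζ : ‖ζ‖ ≤ ε) (hξ : ‖ξ‖ ≤ ε) :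
    S.U ζ (S.U ξ ψ) = S.U (ζ + ξ) ψ := by
  have h1 : S.U ζ (S.U ξ ψ) =ᵐ[μ] fun z => ψ (S.T ξ (S.T ζ z)) := by
    refine (S.U_coe ζ _).trans ?_
    exact (S.T_mp ζ).quasiMeasurePreserving.ae_eq (S.U_coe ξ ψ)
  have h2 : S.U (ζ + ξ) ψ =ᵐ[μ] fun z => ψ (S.T (ζ + ξ) z) := S.U_coe _ _
  have h3 : ∀ᵐ z ∂μ, S.ρ (S.T ξ (S.T ζ z)) < b → ψ (S.T ξ (S.T ζ z)) = 0 :=
    ((S.T_mp ξ).comp (S.T_mp ζ)).quasiMeasurePreserving.ae hψ
  have h4 : ∀ᵐ z ∂μ, S.ρ (S.T (ζ + ξ) z) < b → ψ (S.T (ζ + ξ) z) = 0 :=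
    (S.T_mp (ζ + ξ)).quasiMeasurePreserving.ae hψ
  have h5 := S.LC ε hε ζ ξ hζ hξ
  refine Lp.ext ?_
  filter_upwards [h1, h2, h3, h4, h5] with z h1 h2 h3 h4 h5
  rw [h1, h2]
  rcases le_or_gt (S.C₀ * ε) (S.ρ z) with h | h
  · have := h5 h
    have e : S.T ξ (S.T ζ z) = S.T (ζ + ξ) z := this
    rw [e]
  · have k1 : S.ρ (S.T ξ (S.T ζ z)) < b := by
      have a1 := S.ρ_T ξ (S.T ζ z)
      have a2 := S.ρ_T ζ z
      nlinarith
    have k2 : S.ρ (S.T (ζ + ξ) z) < b := by
      have a1 := S.ρ_T (ζ + ξ) z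
      have a2 : ‖ζ + ξ‖ ≤ ε + ε := (norm_add_le _ _).trans (add_le_add hζ hξ)
      nlinarith
    rw [h3 k1, h4 k2]

lemma U_zero (f : Lp ℂ 2 μ) : S.U 0 f = f := by
  refine Lp.ext ?_
  filter_upwards [S.U_coe 0 f] with z hz
  rw [hz, S.T_zero]

/-- small translates of a `SuppGe` vector depend continuously on the displacement. -/
theorem U_continuousAt {b ε : ℝ} (hU0 : ∀ f : Lp ℂ 2 μ, Tendsto (fun ζ : ℂ => S.U ζ f) (𝓝 0) (𝓝 f))
    (hε : 0 < ε) (hb : (S.C₀ + 2) * ε ≤ b) {ψ : Lp ℂ 2 μ}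
    (hψ : S.SuppGe b ψ) {ξ : ℂ} (hξ : ‖ξ‖ ≤ ε) : ContinuousAt (fun ζ => S.U ζ ψ) ξ := by
  have h1 : Tendsto (fun ζ : ℂ => S.U ζ (S.U ξ ψ)) (𝓝 0) (𝓝 (S.U ξ ψ)) := hU0 _
  have h2 : ∀ᶠ ζ : ℂ in 𝓝 0, S.U ζ (S.U ξ ψ) = S.U (ζ + ξ) ψ := by
    filter_upwards [Metric.closedBall_mem_nhds (0 : ℂ) hε] with ζ hζ
    exact S.U_U_of_suppGe hε hb hψ (by simpa using hζ) hξ
  have h3 : Tendsto (fun ζ : ℂ => S.U (ζ + ξ) ψ) (𝓝 0) (𝓝 (S.U ξ ψ)) := h1.congr' h2
  have h4 : Tendsto (fun ζ : ℂ => ζ - ξ) (𝓝 ξ) (𝓝 0) := by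
    have : Tendsto (fun ζ : ℂ => ζ - ξ) (𝓝 ξ) (𝓝 (ξ - ξ)) := tendsto_id.sub_const ξ
    simpa using this
  have h5 := h3.comp h4
  simpa [ContinuousAt, Function.comp_def] using h5

/-- **Step (5).** Weak form: pairing with test vectors supported in `{b ≤ ρ}` is invariant under
small translations, for every weight component of `u`. -/
theorem wk [BorelSpace Ω] [SecondCountableTopology Ω] [TopologicalSpace.PseudoMetrizableSpace Ω]
    [IsFiniteMeasure μ] (hCont : StCont) (hE : StE) (hP : StP) (u : Lp ℂ 2 μ)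
    (hmain : ∀ ε : ℝ, 0 < ε → ∀ δ₀ : ℝ, 0 < δ₀ → ∃ δ : ℝ, 0 < δ ∧ δ < δ₀ ∧ ∃ h : Lp ℂ 2 μ,
      ‖h - u‖ ≤ ε ∧ ∀ n : ℤ, ‖S.Ep δ (S.P n h)‖ ≤ ε * δ ∧ ‖S.Em δ (S.P n h)‖ ≤ ε * δ)
    {b : ℝ} (hb : 0 < b) {ψ : Lp ℂ 2 μ} (hψ : S.SuppGe b ψ) (n : ℤ) {ζ : ℂ}
    (hζ : ‖ζ‖ < b / (4 * (S.C₀ + 2))) :
    ⟪S.P n u, S.U ζ ψ⟫_ℂ = ⟪S.P n u, ψ⟫_ℂ := by
  have hC : 0 < S.C₀ + 2 := by linarith [S.one_le_C₀]
  obtain ⟨hU0, -, -, hUc⟩ := hCont Ω μ S
  obtain ⟨hPlin, hPn, -, -, -⟩ := hP Ω μ S
  set e : ℝ := b / (S.C₀ + 2) with he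
  have he0 : 0 < e := by positivity
  have hbe : (S.C₀ + 2) * e ≤ b := by rw [he]; field_simp; exact le_rfl
  -- the continuous family of translates
  set V : ℂ → Lp ℂ 2 μ := fun z => S.U (Wk.ret e z) ψ with hV
  have hVc : Continuous V := by
    rw [continuous_iff_continuousAt]
    intro z
    have h1 : ContinuousAt (fun ζ => S.U ζ ψ) (Wk.ret e z) :=
      S.U_continuousAt hU0 he0 hbe hψ (Wk.norm_ret_le he0 z)
    exact ContinuousAt.comp (f := Wk.ret e) h1 (Wk.ret_cont he0).continuousAt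
  have hVn : ∀ z, ‖V z‖ = ‖ψ‖ := fun z => (S.U _).norm_map ψ
  have hGc : ∀ v : Lp ℂ 2 μ, Continuous fun z => ⟪v, V z⟫_ℂ := fun v =>
    continuous_const.inner hVc
  -- identification of the harmonics
  have hcirc : ∀ (k : ℤ) (v : Lp ℂ 2 μ) (δ : ℝ) (z : ℂ), 0 < δ → δ < e / 2 → ‖z‖ < e / 2 →
      Wk.circ k (fun z => ⟪v, V z⟫_ℂ) δ z
        = (2 * Real.pi : ℝ) * ⟪v, harm k fun α => S.U (δ * Complex.exp (α * Complex.I))
            (S.U z ψ)⟫_ℂ := by
    intro k v δ z hδ hδe hz
    have hz' : ‖z‖ ≤ e := by linarith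
    have hd : ∀ a : ℝ, ‖(δ : ℂ) * Complex.exp (a * Complex.I)‖ = δ := by
      intro a
      rw [norm_mul, Complex.norm_exp_ofReal_mul_I]; simp [abs_of_pos hδ]
    have h1 : ∀ a : ℝ, V (z + δ * Complex.exp (a * Complex.I))
        = S.U (δ * Complex.exp (a * Complex.I)) (S.U z ψ) := by
      intro a
      have hle : ‖z + δ * Complex.exp (a * Complex.I)‖ ≤ e := by
        refine (norm_add_le _ _).trans ?_
        rw [hd]; linarith
      rw [S.U_U_of_suppGe he0 hbe hψ (by rw [hd]; linarith) hz']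
      simp only [hV]
      rw [Wk.ret_of_le he0 hle, add_comm]
    unfold Wk.circ
    simp_rw [h1]
    exact Wk.inner_harm k (hUc δ (S.U z ψ) hδ.le) v
  have key := Wk.scalar (G := fun z => ⟪S.P n u, V z⟫_ℂ) (hGc _) (e := e / 2) (by positivity)
    (ζ := ζ) ?_ ?_
  · have e0 : V 0 = ψ := by
      simp only [hV]
      rw [Wk.ret_of_le he0 (by simpa using he0.le), S.U_zero]
    have e1 : V ζ = S.U ζ ψ := by
      simp only [hV]
      rw [Wk.ret_of_le he0]
      have : b / (4 * (S.C₀ + 2)) = e / 4 := by rw [he]; field_simp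
      rw [this] at hζ
      linarith
    simpa only [e0, e1] using key
  · intro ε hε δ₀ hδ₀
    set ε' : ℝ := ε / (2 * Real.pi * (‖ψ‖ + 1)) with hε'
    have hε'0 : 0 < ε' := by positivity
    have hε'le : ε' * ‖ψ‖ * (2 * Real.pi) ≤ ε := by
      rw [hε', div_mul_eq_mul_div, div_mul_eq_mul_div, div_le_iff₀ (by positivity)]
      have : 0 ≤ ‖ψ‖ := norm_nonneg _
      nlinarith [Real.pi_pos, mul_pos hε Real.pi_pos]
    have hε'le2 : ε' * ‖ψ‖ ≤ ε := by
      refine le_trans ?_ hε'le
      have h1 : 1 ≤ 2 * Real.pi := by linarith [Real.pi_gt_three]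
      exact le_mul_of_one_le_right (by positivity) h1
    obtain ⟨δ, hδ, hδ', h, hh, hn⟩ := hmain ε' hε'0 (min δ₀ (e / 2)) (lt_min hδ₀ (by positivity))
    refine ⟨δ, hδ, hδ'.trans_le (min_le_left _ _), fun z => ⟪S.P n h, V z⟫_ℂ, hGc _, ?_, ?_⟩
    · intro z
      rw [← inner_sub_left]
      refine (norm_inner_le_norm _ _).trans ?_
      rw [hVn]
      obtain ⟨P', hP'⟩ := hPlin n
      have e1 : S.P n h - S.P n u = S.P n (h - u) := by
        rw [← hP', ← hP', ← hP', map_sub]
      rw [e1]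
      refine le_trans ?_ hε'le2
      exact mul_le_mul_of_nonneg_right ((hPn n _).trans hh) (norm_nonneg _)
    · intro z hz
      have hδe : δ < e / 2 := hδ'.trans_le (min_le_right _ _)
      obtain ⟨-, -, -, -, -, -, -, -, hadj1, hadj2⟩ := hE Ω μ S δ hδ.le
      have hp : (0 : ℝ) ≤ 2 * Real.pi := by positivity
      constructor
      · rw [hcirc 1 _ δ z hδ hδe hz]
        have e1 : (harm 1 fun α => S.U (δ * Complex.exp (α * Complex.I)) (S.U z ψ))
            = S.Em δ (S.U z ψ) := rfl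
        have e2 : ⟪S.P n h, S.Em δ (S.U z ψ)⟫_ℂ = - ⟪S.Ep δ (S.P n h), S.U z ψ⟫_ℂ := by
          rw [hadj1, neg_neg]
        rw [e1, e2, norm_mul, norm_neg, Complex.norm_real, Real.norm_of_nonneg hp]
        have h3 := norm_inner_le_norm (𝕜 := ℂ) (S.Ep δ (S.P n h)) (S.U z ψ)
        rw [(S.U z).norm_map] at h3
        have h4 : ‖S.Ep δ (S.P n h)‖ * ‖ψ‖ ≤ ε' * δ * ‖ψ‖ :=
          mul_le_mul_of_nonneg_right (hn n).1 (norm_nonneg _)
        calc 2 * Real.pi * ‖⟪S.Ep δ (S.P n h), S.U z ψ⟫_ℂ‖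
            ≤ 2 * Real.pi * (ε' * δ * ‖ψ‖) := mul_le_mul_of_nonneg_left (h3.trans h4) hp
          _ = (ε' * ‖ψ‖ * (2 * Real.pi)) * δ := by ring
          _ ≤ ε * δ := mul_le_mul_of_nonneg_right hε'le hδ.le
      · rw [hcirc (-1) _ δ z hδ hδe hz]
        have e1 : (harm (-1) fun α => S.U (δ * Complex.exp (α * Complex.I)) (S.U z ψ))
            = S.Ep δ (S.U z ψ) := rfl
        have e2 : ⟪S.P n h, S.Ep δ (S.U z ψ)⟫_ℂ = - ⟪S.Em δ (S.P n h), S.U z ψ⟫_ℂ := by
          rw [hadj2, neg_neg]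
        rw [e1, e2, norm_mul, norm_neg, Complex.norm_real, Real.norm_of_nonneg hp]
        have h3 := norm_inner_le_norm (𝕜 := ℂ) (S.Em δ (S.P n h)) (S.U z ψ)
        rw [(S.U z).norm_map] at h3
        have h4 : ‖S.Em δ (S.P n h)‖ * ‖ψ‖ ≤ ε' * δ * ‖ψ‖ :=
          mul_le_mul_of_nonneg_right (hn n).2 (norm_nonneg _)
        calc 2 * Real.pi * ‖⟪S.Em δ (S.P n h), S.U z ψ⟫_ℂ‖
            ≤ 2 * Real.pi * (ε' * δ * ‖ψ‖) := mul_le_mul_of_nonneg_left (h3.trans h4) hp
          _ = (ε' * ‖ψ‖ * (2 * Real.pi)) * δ := by ring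
          _ ≤ ε * δ := mul_le_mul_of_nonneg_right hε'le hδ.le
  · have : b / (4 * (S.C₀ + 2)) = e / 2 / 2 := by rw [he]; field_simp; norm_num
    rwa [this] at hζ

end Crest.Agent.R103.PlaneSys
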