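import Crest.Agent.R103.Iface
import Crest.Agent.R103.ThmBop
import Crest.Agent.R103.Wk_Mg
import Crest.Agent.R103.IfaceG
import Crest.Agent.R103.Br1
import Mathlib
import Crest.Prelude.Def_Billiard
import Crest.Agent.R103.Geo

-- ▼ part R103/Ker
section

set_option autoImplicit false
open MeasureTheory Filter Topology Set
open scoped ENNReal InnerProductSpace ComplexConjugate

noncomputable section

namespace Crest.Agent.R103.PlaneSys

open Crest.Agent.R103.ThmB in
/-- B1: the integral operator with kernel the indicator of a measurable set is compact. -/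
theorem ker : StKer := by
  intro Ω _ μ _ s hs
  have hsw : MeasurableSet (Prod.swap ⁻¹' s) := measurable_swap hs
  refine ⟨ThmB.K μ (Prod.swap ⁻¹' s), ThmB.K_compact μ _ hsw, fun f g => ?_⟩
  rw [← inner_conj_symm, ThmB.K_inner, ← integral_conj, ← integral_indicator hsw]
  have h := (Measure.measurePreserving_swap (μ := μ) (ν := μ)).integral_comp
    (MeasurableEquiv.prodComm.measurableEmbedding)
    (s.indicator (fun z : Ω × Ω => (starRingEnd ℂ) (g z.1) * f z.2))
  rw [← h]
  apply integral_congr_ae
  filter_upwards with z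
  by_cases hz : z.swap ∈ s
  · rw [indicator_of_mem hz, indicator_of_mem (by exact hz)]
    simp [mul_comm]
  · rw [indicator_of_notMem hz, indicator_of_notMem (by exact hz)]

end Crest.Agent.R103.PlaneSys
end
end

-- ▼ part R103/WkEnd
section

/-!
# R103: Theorem A from `StMain` (task A8)
-/

open MeasureTheory Filter Topology Metric Set
open scoped InnerProductSpace

noncomputable section

namespace Crest.Agent.R103.PlaneSys

variable {Ω : Type} [TopologicalSpace Ω] [MeasurableSpace Ω] {μ : Measure Ω}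
variable (S : PlaneSys Ω μ)

/-- if `⟪v, ψ⟫ = 0` for all `ψ` supported in `{b ≤ ρ}` then `v = 0` a.e. on `{b ≤ ρ}` -/
lemma ae_zero_of_inner_suppGe {b : ℝ} {v : Lp ℂ 2 μ}
    (h : ∀ ψ : Lp ℂ 2 μ, S.SuppGe b ψ → ⟪v, ψ⟫_ℂ = 0) : ∀ᵐ z ∂μ, b ≤ S.ρ z → v z = 0 := by
  have hs : MeasurableSet {z | b ≤ S.ρ z} := measurableSet_le measurable_const S.ρ_meas
  have hm : MemLp ({z | b ≤ S.ρ z}.indicator v) 2 μ := (Lp.memLp v).indicator hs
  set ψ : Lp ℂ 2 μ := hm.toLp _ with hψ
  have hψc : ψ =ᵐ[μ] {z | b ≤ S.ρ z}.indicator v := hm.coeFn_toLp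
  have hsupp : S.SuppGe b ψ := by
    filter_upwards [hψc] with z hz hlt
    rw [hz, indicator_of_notMem]
    exact not_le.2 hlt
  have h1 := h ψ hsupp
  rw [L2.inner_def] at h1
  have h2 : (fun z => ⟪v z, ψ z⟫_ℂ) =ᵐ[μ] fun z =>
      (({z | b ≤ S.ρ z}.indicator (fun z => ‖v z‖ ^ 2) z : ℝ) : ℂ) := by
    filter_upwards [hψc] with z hz
    rw [hz]
    by_cases hz' : b ≤ S.ρ z
    · rw [indicator_of_mem (show z ∈ {z | b ≤ S.ρ z} from hz'),
        indicator_of_mem (show z ∈ {z | b ≤ S.ρ z} from hz'), inner_self_eq_norm_sq_to_K]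
      simp
    · rw [indicator_of_notMem (show z ∉ {z | b ≤ S.ρ z} from hz'),
        indicator_of_notMem (show z ∉ {z | b ≤ S.ρ z} from hz')]
      simp
  rw [integral_congr_ae h2, integral_complex_ofReal] at h1
  have h3 : ∫ z, {z | b ≤ S.ρ z}.indicator (fun z => ‖v z‖ ^ 2) z ∂μ = 0 := by exact_mod_cast h1
  have hint : Integrable (fun z => ‖v z‖ ^ 2) μ := (Lp.memLp v).integrable_norm_pow (by norm_num)
  rw [integral_eq_zero_iff_of_nonneg (fun z => indicator_nonneg (fun _ _ => by positivity) z)
    (hint.indicator hs)] at h3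
  filter_upwards [h3] with z hz hle
  rw [indicator_of_mem (show z ∈ {z | b ≤ S.ρ z} from hle)] at hz
  simpa using hz

/-- local invariance implies global invariance -/
theorem U_eq_of_local [IsFiniteMeasure μ] (u : Lp ℂ 2 μ) {c : ℝ} (hc : 0 < c)
    (h : ∀ b : ℝ, 0 < b → ∀ ζ : ℂ, ‖ζ‖ < b / c → ∀ᵐ z ∂μ, b ≤ S.ρ z → u (S.T ζ z) = u z)
    (ζ : ℂ) : S.U ζ u = u := by
  obtain ⟨t, α, ht, -, rfl⟩ := exists_polar ζ
  rcases ht.eq_or_lt with rfl | ht
  · simp [S.U_zero]
  -- notation for the partial translations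
  have hT : ∀ (N : ℕ) (k : ℕ) (z : Ω), S.T (((k + 1 : ℕ) * (t / N) : ℝ) * Complex.exp (α * Complex.I)) z
      = S.T ((t / N : ℝ) * Complex.exp (α * Complex.I))
        (S.T ((k * (t / N) : ℝ) * Complex.exp (α * Complex.I)) z) := by
    intro N k z
    have h1 := S.T_ray (s := t / N) (t := k * (t / N)) (by positivity) (by positivity) α z
    rw [← h1]
    congr 2
    push_cast; ring
  refine Lp.ext ?_
  have hgood : ∀ᵐ z ∂μ, ∀ N : ℕ, 0 < N → ∀ k : ℕ,
      2 * c * (t / N) ≤ S.ρ (S.T ((k * (t / N) : ℝ) * Complex.exp (α * Complex.I)) z) →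
      u (S.T (((k + 1 : ℕ) * (t / N) : ℝ) * Complex.exp (α * Complex.I)) z)
        = u (S.T ((k * (t / N) : ℝ) * Complex.exp (α * Complex.I)) z) := by
    rw [ae_all_iff]; intro N
    by_cases hN : 0 < N
    swap
    · exact Eventually.of_forall fun z h => absurd h hN
    have hN' : (0 : ℝ) < N := by exact_mod_cast hN
    have : ∀ᵐ z ∂μ, ∀ k : ℕ,
        2 * c * (t / N) ≤ S.ρ (S.T ((k * (t / N) : ℝ) * Complex.exp (α * Complex.I)) z) →
        u (S.T (((k + 1 : ℕ) * (t / N) : ℝ) * Complex.exp (α * Complex.I)) z)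
          = u (S.T ((k * (t / N) : ℝ) * Complex.exp (α * Complex.I)) z) := by
      rw [ae_all_iff]; intro k
      have hb : 0 < 2 * c * (t / N) := by positivity
      have h1 := h (2 * c * (t / N)) hb ((t / N : ℝ) * Complex.exp (α * Complex.I)) (by
        rw [norm_mul, Complex.norm_exp_ofReal_mul_I, Complex.norm_real,
          Real.norm_of_nonneg (by positivity), mul_one]
        rw [mul_assoc, mul_comm c, ← mul_assoc, mul_div_assoc, div_self hc.ne', mul_one]
        have : 0 < t / N := by positivity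
        linarith)
      have h2 := (S.T_mp ((k * (t / N) : ℝ) * Complex.exp (α * Complex.I))).quasiMeasurePreserving.ae h1
      filter_upwards [h2] with z hz hle
      rw [hT N k z]
      exact hz hle
    filter_upwards [this] with z hz _ using hz
  -- the bad set has measure zero
  have hbad : μ {z | u (S.T ((t : ℂ) * Complex.exp (α * Complex.I)) z) ≠ u z} = 0 := by
    have hle : ∀ N : ℕ, 0 < N →
        μ {z | u (S.T ((t : ℂ) * Complex.exp (α * Complex.I)) z) ≠ u z}
          ≤ ENNReal.ofReal (S.Cv * (2 * c * t) ^ 2 / N) := by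
      intro N hN
      have hN' : (0 : ℝ) < N := by exact_mod_cast hN
      have hsub : ∀ᵐ z ∂μ, z ∈ {z | u (S.T ((t : ℂ) * Complex.exp (α * Complex.I)) z) ≠ u z} →
          z ∈ ⋃ k ∈ Finset.range N,
            (S.T ((k * (t / N) : ℝ) * Complex.exp (α * Complex.I))) ⁻¹'
              {z | S.ρ z < 2 * c * (t / N)} := by
        filter_upwards [hgood] with z hz hne
        by_contra hcon
        simp only [mem_iUnion, Finset.mem_range, mem_preimage, mem_ofPred_eq, exists_prop, not_exists,
          not_and, not_lt] at hcon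
        have hall : ∀ k : ℕ, k ≤ N →
            u (S.T ((k * (t / N) : ℝ) * Complex.exp (α * Complex.I)) z) = u z := by
          intro k
          induction k with
          | zero => intro _; simp [S.T_zero]
          | succ k ih =>
            intro hk
            rw [hz N hN k (hcon k (by omega)), ih (by omega)]
        have h1 := hall N le_rfl
        have h2 : ((N * (t / N) : ℝ) : ℂ) = (t : ℂ) := by
          rw [mul_div_cancel₀ t hN'.ne']
        rw [h2] at h1
        exact hne h1
      refine (measure_mono_ae hsub).trans ?_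
      refine (measure_biUnion_finset_le _ _).trans ?_
      have h3 : ∀ k ∈ Finset.range N, μ ((S.T ((k * (t / N) : ℝ) * Complex.exp (α * Complex.I))) ⁻¹'
              {z | S.ρ z < 2 * c * (t / N)}) ≤ ENNReal.ofReal (S.Cv * (2 * c * (t / N)) ^ 2) := by
        intro k _
        rw [(S.T_mp _).measure_preimage
          (measurableSet_lt S.ρ_meas measurable_const).nullMeasurableSet]
        exact S.vol _ (by positivity)
      refine (Finset.sum_le_sum h3).trans ?_
      rw [Finset.sum_const, Finset.card_range, nsmul_eq_mul, ← ENNReal.ofReal_natCast,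
        ← ENNReal.ofReal_mul (by positivity)]
      refine ENNReal.ofReal_le_ofReal (le_of_eq ?_)
      field_simp
    have hlim : Tendsto (fun N : ℕ => ENNReal.ofReal (S.Cv * (2 * c * t) ^ 2 / N)) atTop (𝓝 0) := by
      have h1 : Tendsto (fun N : ℕ => S.Cv * (2 * c * t) ^ 2 / (N : ℝ)) atTop (𝓝 0) :=
        tendsto_const_div_atTop_nhds_zero_nat _
      have h2 := ENNReal.tendsto_ofReal h1
      simpa using h2
    refine le_antisymm (ge_of_tendsto hlim ?_) bot_le
    filter_upwards [eventually_gt_atTop 0] with N hN using hle N hN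
  have h1 : ∀ᵐ z ∂μ, u (S.T ((t : ℂ) * Complex.exp (α * Complex.I)) z) = u z := hbad
  filter_upwards [S.U_coe ((t : ℂ) * Complex.exp (α * Complex.I)) u, h1] with z hz hz'
  rw [hz, hz']

/-- **Theorem A** from the main estimate. -/
theorem thmA_wk (hMain : StMain) (hCont : StCont) (hE : StE) (hP : StP) : StThmA := by
  intro Ω _ _ _ _ _ μ _ S u B hB hinv ζ
  have hmain := hMain Ω μ S u B hB hinv
  have hC : 0 < S.C₀ + 2 := by linarith [S.one_le_C₀]
  refine S.U_eq_of_local u (c := 4 * (S.C₀ + 2)) (by positivity) ?_ ζ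
  intro b hb ξ hξ
  -- `⟪u, U (-ξ) ψ - ψ⟫ = 0`
  have h1 : ∀ ψ : Lp ℂ 2 μ, S.SuppGe b ψ → ⟪S.U ξ u - u, ψ⟫_ℂ = 0 := by
    intro ψ hψ
    have h2 : ⟪u, S.U (-ξ) ψ - ψ⟫_ℂ = 0 := by
      refine (hP Ω μ S).2.2.2.1 u _ fun n => ?_
      rw [inner_sub_right, S.wk hCont hE hP u hmain hb hψ n (ζ := -ξ) (by rwa [norm_neg]), sub_self]
    rw [inner_sub_left, S.inner_U_left, ← inner_sub_right, h2]
  have h3 := S.ae_zero_of_inner_suppGe h1
  filter_upwards [h3, S.U_coe ξ u, Lp.coeFn_sub (S.U ξ u) u] with z hz h4 h5 hle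
  have h6 := hz hle
  rw [h5, Pi.sub_apply, h4, sub_eq_zero] at h6
  exact h6

end Crest.Agent.R103.PlaneSys
end
end

-- ▼ part R103/GeoVert
section

/-!
# R103, G3: near a point far from the vertices only one side is near; volume near the vertices
-/

open MeasureTheory Filter Topology
open Crest.AnalysisR.Billiard

noncomputable section

namespace Crest.Agent.R103

namespace GV

lemma abs_cr_le (u v : Plane) : |cr u v| ≤ ‖u‖ * ‖v‖ := by
  have hu : ‖u‖ ^ 2 = u 0 ^ 2 + u 1 ^ 2 := by
    rw [EuclideanSpace.norm_sq_eq]; simp [Fin.sum_univ_two]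
  have hv : ‖v‖ ^ 2 = v 0 ^ 2 + v 1 ^ 2 := by
    rw [EuclideanSpace.norm_sq_eq]; simp [Fin.sum_univ_two]
  apply abs_le_of_sq_le_sq _ (by positivity)
  unfold cr
  rw [mul_pow, hu, hv]
  nlinarith [sq_nonneg (u 0 * v 0 + u 1 * v 1)]

lemma abs_ld_le (A : Fin 3 → Plane) (i : Fin 3) (v : Plane) :
    |ld A i v| ≤ (‖sideVec A i‖ / |Dt A|) * ‖v‖ := by
  unfold ld
  rw [abs_div, div_mul_eq_mul_div]
  exact div_le_div_of_nonneg_right (abs_cr_le _ _) (abs_nonneg _)

lemma ld_add (A : Fin 3 → Plane) (i : Fin 3) (u v : Plane) :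
    ld A i (u + v) = ld A i u + ld A i v := by
  simp only [ld, cr, PiLp.add_apply]; ring

lemma ld_smul (A : Fin 3 → Plane) (i : Fin 3) (s : ℝ) (v : Plane) :
    ld A i (s • v) = s * ld A i v := by
  simp only [ld, cr, PiLp.smul_apply, smul_eq_mul]; ring

lemma f31 (i : Fin 3) : i + 1 ≠ i := by revert i; decide
lemma f32 (i : Fin 3) : i + 2 ≠ i := by revert i; decide
lemma f312 (i : Fin 3) : i + 1 ≠ i + 2 := by revert i; decide
lemma f322 (i : Fin 3) : i + 2 + 2 = i + 1 := by revert i; decide
lemma f321 (i : Fin 3) : i + 2 + 1 = i := by revert i; decide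
lemma f312' (i : Fin 3) : i + 1 + 2 = i := by revert i; decide
lemma f311 (i : Fin 3) : i + 1 + 1 = i + 2 := by revert i; decide
lemma f3third {i j : Fin 3} (h : j ≠ i) : ∃ k : Fin 3, i ≠ k ∧ j ≠ k := by
  revert h; revert i j; decide

lemma fin3_cases {i j : Fin 3} (h : j ≠ i) : j = i + 1 ∨ j = i + 2 := by
  revert h; revert i j; decide

section
variable {A : Fin 3 → Plane} (h1 : StG1) (h2 : StG2) (hA : AffineIndependent ℝ A)
include h1 hA

lemma cd_sub (i : Fin 3) (x y : Plane) : cd A i y - cd A i x = ld A i (y - x) := by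
  have h := (h1 A hA).2.2.2.1 i x 1 (y - x)
  rw [one_smul, add_sub_cancel, one_mul] at h
  rw [h]; ring

lemma ld_vert (i j k : Fin 3) :
    ld A i (A j - A k) = (if i = j then 1 else 0) - (if i = k then 1 else 0) := by
  rw [← cd_sub h1 hA, (h1 A hA).2.2.2.2.1, (h1 A hA).2.2.2.2.1]

/-- barycentric expansion -/
lemma bary (x : Plane) (k : Fin 3) :
    x - A k = cd A 0 x • (A 0 - A k) + cd A 1 x • (A 1 - A k) + cd A 2 x • (A 2 - A k) := by
  have hz := (h1 A hA).2.2.2.2.2.1
    ((x - A k) + (-1 : ℝ) • (cd A 0 x • (A 0 - A k) + cd A 1 x • (A 1 - A k)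
      + cd A 2 x • (A 2 - A k))) (by
    intro j
    have hs := (h1 A hA).2.1 x
    have hv := fun a b => ld_vert h1 hA j a b
    rw [ld_add, ld_smul, ld_add, ld_add, ld_smul, ld_smul, ld_smul, hv, hv, hv,
      ← cd_sub h1 hA, (h1 A hA).2.2.2.2.1]
    fin_cases j <;> fin_cases k <;> simp <;> linarith)
  rw [neg_one_smul] at hz
  exact sub_eq_zero.1 (by rw [sub_eq_add_neg]; exact hz)

lemma dist_le (x : Plane) (hx : ∀ i, 0 ≤ cd A i x) (i j k : Fin 3) (hij : i ≠ j) (hik : i ≠ k)
    (hjk : j ≠ k) (D : ℝ) (hD : ∀ a b, ‖A a - A b‖ ≤ D) :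
    dist x (A k) ≤ (cd A i x + cd A j x) * D := by
  have key : ∀ a b : Fin 3, cd A a x • (A a - A k) + cd A b x • (A b - A k) = x - A k →
      dist x (A k) ≤ (cd A a x + cd A b x) * D := by
    intro a b hab
    rw [dist_eq_norm, ← hab]
    calc ‖cd A a x • (A a - A k) + cd A b x • (A b - A k)‖
        ≤ ‖cd A a x • (A a - A k)‖ + ‖cd A b x • (A b - A k)‖ := norm_add_le _ _
      _ = cd A a x * ‖A a - A k‖ + cd A b x * ‖A b - A k‖ := by
          rw [norm_smul, norm_smul, Real.norm_eq_abs, Real.norm_eq_abs, abs_of_nonneg (hx a),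
            abs_of_nonneg (hx b)]
      _ ≤ cd A a x * D + cd A b x * D :=
          add_le_add (mul_le_mul_of_nonneg_left (hD _ _) (hx a))
            (mul_le_mul_of_nonneg_left (hD _ _) (hx b))
      _ = _ := by ring
  apply key
  have hb := bary h1 hA x k
  rw [hb]
  clear hb key
  fin_cases i <;> fin_cases j <;> fin_cases k <;> simp_all <;> exact add_comm _ _

include h2

/-- reflection in barycentric coordinates -/
lemma cd_refl (i j : Fin 3) (x : Plane) :
    cd A j (refl A i x) = cd A j x + cd A i x * (cd A j (refl A i (A i)) - cd A j (A i)) := by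
  -- the affine function `F y = cd j (refl i y) - cd j y`
  have hF : ∀ y z : Plane, (cd A j (refl A i y) - cd A j y) - (cd A j (refl A i z) - cd A j z)
      = ld A j (mirror (sideVec A i) (y - z)) - ld A j (y - z) := by
    intro y z
    have e1 := (h2 A hA i).2.2.2.2.2.1 z 1 (y - z)
    rw [one_smul, add_sub_cancel, one_smul] at e1
    have e2 := (h1 A hA).2.2.2.1 j (refl A i z) 1 (mirror (sideVec A i) (y - z))
    rw [one_smul, ← e1, one_mul] at e2
    have e3 := cd_sub h1 hA j z y
    rw [e2, ← e3]; ring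
  have hm0 : ∀ (a b : ℝ) (u v : Plane), ld A j (mirror (sideVec A i) (a • u + b • v))
      = a * ld A j (mirror (sideVec A i) u) + b * ld A j (mirror (sideVec A i) v) := by
    intro a b u v
    rw [(h2 A hA i).2.2.2.2.1, ld_add, ld_smul, ld_smul]
  have hfix : ∀ k, k ≠ i → refl A i (A k) = A k := by
    intro k hk
    apply (h2 A hA i).2.2.2.2.2.2.2.2.1
    rw [(h1 A hA).2.2.2.2.1, if_neg (Ne.symm hk)]
  -- expansion around the vertex `A (i+1)`
  have hb := bary h1 hA x (i + 1)
  have hne1 : i + 1 ≠ i := f31 i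
  have hne2 : i + 2 ≠ i := f32 i
  have hx' : x - A (i + 1) = cd A i x • (A i - A (i + 1)) + cd A (i + 2) x • (A (i + 2) - A (i + 1)) := by
    rw [hb]
    clear hb hF hm0 hfix
    fin_cases i
    · simp
    · simp
      exact add_comm _ _
    · simp [add_comm]
  have H1 := hF x (A (i + 1))
  have H2 := hF (A i) (A (i + 1))
  have H3 := hF (A (i + 2)) (A (i + 1))
  rw [hfix _ hne1, sub_self, sub_zero] at H1 H2 H3
  rw [hfix _ hne2, sub_self] at H3
  rw [hx', hm0, ld_add, ld_smul, ld_smul] at H1
  have : cd A j (refl A i x) - cd A j x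
      = cd A i x * (ld A j (mirror (sideVec A i) (A i - A (i + 1))) - ld A j (A i - A (i + 1)))
        + cd A (i + 2) x * (ld A j (mirror (sideVec A i) (A (i + 2) - A (i + 1)))
          - ld A j (A (i + 2) - A (i + 1))) := by rw [H1]; ring
  rw [← H3, ← H2] at this
  linarith

/-- Lipschitz bound for the coordinates of the reflected point -/
lemma cd_refl_lip (i j : Fin 3) (x y : Plane) :
    cd A j (refl A i y) = cd A j (refl A i x) + ld A j (mirror (sideVec A i) (y - x)) := by
  have e1 := (h2 A hA i).2.2.2.2.2.1 x 1 (y - x)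
  rw [one_smul, add_sub_cancel, one_smul] at e1
  have e2 := (h1 A hA).2.2.2.1 j (refl A i x) 1 (mirror (sideVec A i) (y - x))
  rw [one_smul, ← e1, one_mul] at e2
  exact e2

/-- for the longest side the foot of the altitude lies in the side. -/
lemma foot_nonneg (i : Fin 3) (hmax1 : ‖A i - A (i + 1)‖ ≤ ‖sideVec A i‖)
    (hmax2 : ‖A i - A (i + 2)‖ ≤ ‖sideVec A i‖) (j : Fin 3) (hj : j ≠ i) :
    0 ≤ cd A j (refl A i (A i)) := by
  set e := sideVec A i with he
  set u := A i - A (i + 1) with hu
  set lam := inner ℝ u e / inner ℝ e e with hlam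
  have hue : A i - A (i + 2) = u - e := by rw [hu, he, sideVec]; abel
  have hee : inner ℝ e e = ‖e‖ ^ 2 := real_inner_self_eq_norm_sq e
  have hl0 : 0 ≤ lam := by
    apply div_nonneg _ (by rw [hee]; positivity)
    have h3 := norm_sub_sq_real u e
    rw [hue] at hmax2
    nlinarith [norm_nonneg (u - e), norm_nonneg e, sq_nonneg ‖u‖]
  have hl1 : lam ≤ 1 := by
    apply div_le_one_of_le₀ _ (by rw [hee]; positivity)
    rw [hee]
    calc inner ℝ u e ≤ ‖u‖ * ‖e‖ := real_inner_le_norm u e
      _ ≤ ‖e‖ * ‖e‖ := mul_le_mul_of_nonneg_right hmax1 (norm_nonneg _)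
      _ = ‖e‖ ^ 2 := by ring
  have hr : refl A i (A i) = A (i + 1) + (2 * lam) • e + (-1 : ℝ) • u := by
    rw [refl, mirror, ← he, ← hu, hlam, ← mul_div_assoc, neg_one_smul]; abel
  have hcd : cd A j (refl A i (A i))
      = cd A j (A (i + 1)) + 2 * lam * ld A j e + (-1) * ld A j u := by
    rw [hr, (h1 A hA).2.2.2.1, (h1 A hA).2.2.2.1]
  rw [hcd, he, sideVec, hu, ld_vert h1 hA, ld_vert h1 hA, (h1 A hA).2.2.2.2.1]
  rcases fin3_cases hj with rfl | rfl
  · have e1 : ¬ (i + 1 = i + 2) := f312 i
    have e2 : ¬ (i + 1 = i) := f31 i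
    simp only [e1, e2, if_false, if_true]
    linarith
  · have e1 : ¬ (i + 2 = i + 1) := (f312 i).symm
    have e2 : ¬ (i + 2 = i) := f32 i
    simp only [e1, e2, if_false, if_true]
    linarith

end

end GV

theorem g3 : StG1 → StG2 → StG3 := by
  intro h1 h2 A hA
  refine ⟨?_, ?_⟩
  · -- constants
    obtain ⟨Lam, hLam0, hLam⟩ : ∃ L : ℝ, 0 ≤ L ∧ ∀ i v, |ld A i v| ≤ L * ‖v‖ := by
      refine ⟨∑ i, ‖sideVec A i‖ / |Dt A|, by positivity, fun i v => ?_⟩
      refine (GV.abs_ld_le A i v).trans (mul_le_mul_of_nonneg_right ?_ (norm_nonneg _))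
      exact Finset.single_le_sum (f := fun i => ‖sideVec A i‖ / |Dt A|)
        (fun i _ => by positivity) (Finset.mem_univ i)
    obtain ⟨M, hM0, hM⟩ : ∃ M : ℝ, 0 ≤ M ∧ ∀ i j : Fin 3,
        |cd A j (refl A i (A i)) - cd A j (A i)| ≤ M := by
      refine ⟨∑ i : Fin 3, ∑ j : Fin 3, |cd A j (refl A i (A i)) - cd A j (A i)|, by positivity,
        fun i j => ?_⟩
      refine le_trans ?_ (Finset.single_le_sum
        (f := fun i => ∑ j : Fin 3, |cd A j (refl A i (A i)) - cd A j (A i)|)
        (fun i _ => by positivity) (Finset.mem_univ i))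
      exact Finset.single_le_sum (f := fun j => |cd A j (refl A i (A i)) - cd A j (A i)|)
        (fun i _ => by positivity) (Finset.mem_univ j)
    obtain ⟨D, hD0, hD⟩ : ∃ D : ℝ, 0 ≤ D ∧ ∀ a b, ‖A a - A b‖ ≤ D := by
      refine ⟨∑ i : Fin 3, ∑ j : Fin 3, ‖A i - A j‖, by positivity, fun i j => ?_⟩
      refine le_trans ?_ (Finset.single_le_sum (f := fun i => ∑ j : Fin 3, ‖A i - A j‖)
        (fun i _ => by positivity) (Finset.mem_univ i))
      exact Finset.single_le_sum (f := fun j => ‖A i - A j‖)
        (fun i _ => by positivity) (Finset.mem_univ j)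
    set c1 : ℝ := 2 * Lam + 1 with hc1
    set c2 : ℝ := c1 * M + 2 * Lam + 1 with hc2
    have hc1p : 0 < c1 := by positivity
    have hc2p : 0 < c2 := by positivity
    refine ⟨(c1 + c2) * D + 1, by nlinarith [mul_nonneg (add_nonneg hc1p.le hc2p.le) hD0], ?_⟩
    intro x ε hε hvd hx
    have hlip : ∀ j y, dist x y ≤ 2 * ε → cd A j x - 2 * Lam * ε ≤ cd A j y := by
      intro j y hy
      have e1 := GV.cd_sub h1 hA j x y
      have e2 := hLam j (y - x)
      rw [← dist_eq_norm, dist_comm] at e2
      have e3 : Lam * dist x y ≤ Lam * (2 * ε) := mul_le_mul_of_nonneg_left hy hLam0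
      have e4 := (abs_le.1 e2).1
      linarith
    have hlip2 : ∀ i j y, dist x y ≤ 2 * ε →
        cd A j x + cd A i x * (cd A j (refl A i (A i)) - cd A j (A i)) - 2 * Lam * ε
          ≤ cd A j (refl A i y) := by
      intro i j y hy
      have e1 := GV.cd_refl_lip h1 h2 hA i j x y
      have e2 := hLam j (mirror (sideVec A i) (y - x))
      rw [(h2 A hA i).2.2.2.1, ← dist_eq_norm, dist_comm] at e2
      have e3 : Lam * dist x y ≤ Lam * (2 * ε) := mul_le_mul_of_nonneg_left hy hLam0
      have e4 := (abs_le.1 e2).1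
      have e5 := GV.cd_refl h1 h2 hA i j x
      linarith
    by_cases hs : ∃ i, cd A i x < c1 * ε
    · obtain ⟨i, hi⟩ := hs
      refine ⟨i, fun j hj => ?_⟩
      have hj2 : c2 * ε ≤ cd A j x := by
        by_contra hcon
        push Not at hcon
        obtain ⟨k, hki, hkj⟩ := GV.f3third hj
        have e1 := GV.dist_le h1 hA x hx i j k (Ne.symm hj) hki hkj D hD
        have e2 : vd A x ≤ dist x (A k) := by
          unfold vd
          fin_cases k
          · exact min_le_left _ _
          · exact (min_le_right _ _).trans (min_le_left _ _)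
          · exact (min_le_right _ _).trans (min_le_right _ _)
        have e3 : (cd A i x + cd A j x) * D ≤ (c1 * ε + c2 * ε) * D :=
          mul_le_mul_of_nonneg_right (by linarith) hD0
        nlinarith
      intro y hy
      constructor
      · have := hlip j y hy
        have h3 : 0 ≤ c1 * M * ε := by positivity
        nlinarith
      · have := hlip2 i j y hy
        have h3 : -(c1 * ε * M) ≤ cd A i x * (cd A j (refl A i (A i)) - cd A j (A i)) := by
          have h4 := hM i j
          have h5 : |cd A i x * (cd A j (refl A i (A i)) - cd A j (A i))| ≤ c1 * ε * M := by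
            rw [abs_mul, abs_of_nonneg (hx i)]
            exact mul_le_mul hi.le h4 (abs_nonneg _) (by positivity)
          exact (abs_le.1 h5).1
        nlinarith
    · push Not at hs
      -- longest side
      obtain ⟨i, -, hi⟩ := Finset.exists_max_image (Finset.univ : Finset (Fin 3))
        (fun i => ‖sideVec A i‖) ⟨0, Finset.mem_univ _⟩
      have hm1 : ‖A i - A (i + 1)‖ ≤ ‖sideVec A i‖ := by
        have := hi (i + 2) (Finset.mem_univ _)
        have e : sideVec A (i + 2) = -(A i - A (i + 1)) := by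
          unfold sideVec
          rw [GV.f322, GV.f321]; abel
        rw [e, norm_neg] at this
        exact this
      have hm2 : ‖A i - A (i + 2)‖ ≤ ‖sideVec A i‖ := by
        have := hi (i + 1) (Finset.mem_univ _)
        have e : sideVec A (i + 1) = (A i - A (i + 2)) := by
          unfold sideVec
          rw [GV.f312', GV.f311]
        rw [e] at this
        exact this
      refine ⟨i, fun j hj y hy => ⟨?_, ?_⟩⟩
      · have := hlip j y hy
        have := hs j
        nlinarith
      · have e1 := hlip2 i j y hy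
        have e2 := hs j
        have e3 := GV.foot_nonneg h1 h2 hA i hm1 hm2 j hj
        have e4 : cd A j (A i) = 0 := by
          rw [(h1 A hA).2.2.2.2.1, if_neg hj]
        rw [e4, sub_zero] at e1
        have e5 := mul_nonneg (hx i) e3
        nlinarith
  · -- volume
    have hvol : ∀ b : ℝ, 0 < b → (volume : Measure Plane) {x | vd A x < b}
        ≤ ENNReal.ofReal (3 * Real.pi * b ^ 2) := by
      intro b hb
      have hsub : {x : Plane | vd A x < b} ⊆ ⋃ k ∈ (Finset.univ : Finset (Fin 3)),
          Metric.ball (A k) b := by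
        intro x hx
        simp only [vd, Set.mem_ofPred_eq, min_lt_iff] at hx
        simp only [Set.mem_iUnion, Metric.mem_ball, Finset.mem_univ, exists_prop, true_and]
        rcases hx with h | h | h
        exacts [⟨0, h⟩, ⟨1, h⟩, ⟨2, h⟩]
      refine (measure_mono hsub).trans ((measure_biUnion_finset_le _ _).trans ?_)
      have hball : ∀ k : Fin 3, (volume : Measure Plane) (Metric.ball (A k) b)
          = ENNReal.ofReal (Real.pi * b ^ 2) := by
        intro k
        rw [EuclideanSpace.volume_ball_fin_two, ← ENNReal.ofReal_pow hb.le,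
          mul_comm Real.pi, ENNReal.ofReal_mul (by positivity)]
      simp only [hball, Finset.sum_const, Finset.card_univ, Fintype.card_fin]
      rw [nsmul_eq_mul, ← ENNReal.ofReal_natCast, ← ENNReal.ofReal_mul (by positivity)]
      exact ENNReal.ofReal_le_ofReal (by push_cast; linarith)
    set S : ENNReal := (volume : Measure Plane).toSphere Set.univ with hS
    have hSfin : S ≠ ⊤ := measure_ne_top _ _
    refine ⟨3 * Real.pi * (S.toReal * 2), by positivity, fun b hb => ?_⟩
    have hset : {z : Phase × Bool | vd A z.1.1 < b}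
        = ({x : Plane | vd A x < b} ×ˢ Set.univ) ×ˢ Set.univ := by
      ext z; simp
    rw [hset, μM, phaseMeasure, Measure.prod_prod, Measure.prod_prod]
    have h4 : ((volume : Measure Plane).restrict (interior (convexHull ℝ (Set.range A))))
        {x | vd A x < b} ≤ ENNReal.ofReal (3 * Real.pi * b ^ 2) :=
      (Measure.restrict_apply_le _ _).trans (hvol b hb)
    have h5 : (Measure.count : Measure Bool) Set.univ = 2 := by
      rw [Measure.count_apply_finite _ (Set.toFinite _)]; simp
    rw [h5]
    calc _ ≤ ENNReal.ofReal (3 * Real.pi * b ^ 2) * S * 2 := by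
          gcongr
      _ = ENNReal.ofReal (3 * Real.pi * (S.toReal * 2) * b ^ 2) := by
          have e1 : S = ENNReal.ofReal S.toReal := (ENNReal.ofReal_toReal hSfin).symm
          have e2 : (2 : ENNReal) = ENNReal.ofReal 2 := by simp
          rw [e1, e2, ENNReal.toReal_ofReal (by positivity), ← ENNReal.ofReal_mul (by positivity),
            ← ENNReal.ofReal_mul (by positivity)]
          congr 1; ring

end Crest.Agent.R103
end
end

-- ▼ part R103/ChainExist
section

/-!
# R103 / H4: existence of chains through good states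
-/

open MeasureTheory Filter Topology
open Crest.AnalysisR.Billiard

noncomputable section

namespace Crest.Agent.R103

namespace Ex

/-- collision states: a side, a point on it, an outgoing unit velocity, with good line -/
structure CS (A : Fin 3 → Plane) where
  /-- side -/
  i : Fin 3
  /-- collision point -/
  q : Plane
  /-- outgoing velocity -/
  u : Plane
  hq : cd A i q = 0
  hq' : ∀ j, j ≠ i → 0 < cd A j q
  hu : 0 < ld A i u
  hn : ‖u‖ = 1
  hL : ∀ (w : List (Fin 3)) (s : ℝ) (j : Fin 3), reflW A w (q + s • u) ≠ A j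

variable {A : Fin 3 → Plane}

lemma vertex_of_two (h1 : StG1) (hA : AffineIndependent ℝ A) {y : Plane} {i j : Fin 3}
    (hij : i ≠ j) (hi : cd A i y = 0) (hj : cd A j y = 0) : ∃ k, y = A k := by
  obtain ⟨-, sum1, -, -, vert, -, ext, -⟩ := h1 A hA
  have hk : ∃ k : Fin 3, k ≠ i ∧ k ≠ j ∧ ∀ l : Fin 3, l = i ∨ l = j ∨ l = k := by
    revert hij
    clear hi hj
    revert i j
    decide
  obtain ⟨k, hki, hkj, hl⟩ := hk
  refine ⟨k, ext _ _ fun l => ?_⟩
  have h3 : cd A k y = 1 := by
    have hs := sum1 y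
    have hsum : cd A i y + cd A j y + cd A k y = cd A 0 y + cd A 1 y + cd A 2 y := by
      clear hi hj hs
      revert hij hki hkj
      generalize cd A = f
      clear hl
      fin_cases i <;> fin_cases j <;> fin_cases k <;> simp <;> ring
    rw [hs, hi, hj] at hsum
    linarith
  rcases hl l with rfl | rfl | rfl
  · rw [hi, vert, if_neg (Ne.symm hki)]
  · rw [hj, vert, if_neg (Ne.symm hkj)]
  · rw [h3, vert, if_pos rfl]

lemma fwd (h1 : StG1) (h2 : StG2) (hA : AffineIndependent ℝ A) (x v : Plane) (hv : ‖v‖ = 1)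
    (hadm : ∀ i, 0 < cd A i x ∨ (cd A i x = 0 ∧ 0 < ld A i v))
    (hL : ∀ (w : List (Fin 3)) (s : ℝ) (j : Fin 3), reflW A w (x + s • v) ≠ A j) :
    ∃ (s : CS A) (τ : ℝ), 0 < τ ∧ s.q = x + τ • v ∧ s.u = mirror (sideVec A s.i) v := by
  obtain ⟨-, sum1, sum0, lin, vert, sep, ext, -⟩ := h1 A hA
  have hex : ∃ i, ld A i v < 0 := by
    by_contra hcon
    push Not at hcon
    have hz : ∀ i, ld A i v = 0 := by
      have := sum0 v
      have a := hcon 0
      have b := hcon 1
      have c := hcon 2
      intro i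
      fin_cases i
      · show ld A 0 v = 0; linarith
      · show ld A 1 v = 0; linarith
      · show ld A 2 v = 0; linarith
    have := sep v hz
    rw [this, norm_zero] at hv
    exact zero_ne_one hv
  obtain ⟨i0, hi0⟩ := hex
  obtain ⟨i, hiI, hmin⟩ := Finset.exists_min_image
    (Finset.univ.filter fun i => ld A i v < 0) (fun i => cd A i x / (-ld A i v))
    ⟨i0, by simp [hi0]⟩
  have hi : ld A i v < 0 := by simpa using hiI
  set τ : ℝ := cd A i x / (-ld A i v) with hτ
  have hτpos : 0 < τ := by
    refine div_pos ?_ (by linarith)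
    rcases hadm i with h | h
    · exact h
    · linarith [h.2]
  have hcdi : cd A i (x + τ • v) = 0 := by
    rw [lin]
    have h5 : -ld A i v ≠ 0 := by linarith
    have h6 : τ * -ld A i v = cd A i x := div_mul_cancel₀ _ h5
    linarith
  have hnn : ∀ j, 0 ≤ cd A j (x + τ • v) := by
    intro j
    rw [lin]
    by_cases hj : ld A j v < 0
    · have := hmin j (by simp [hj])
      rw [le_div_iff₀ (by linarith)] at this
      linarith
    · push Not at hj
      have h3 : 0 ≤ cd A j x := by
        rcases hadm j with h | h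
        · exact h.le
        · exact h.1.ge
      have := mul_nonneg hτpos.le hj
      linarith
  have hpos : ∀ j, j ≠ i → 0 < cd A j (x + τ • v) := by
    intro j hj
    rcases (hnn j).lt_or_eq with h | h
    · exact h
    · exfalso
      obtain ⟨k, hk⟩ := vertex_of_two h1 hA hj h.symm hcdi
      exact hL [] τ k hk
  obtain ⟨hinv, minv, -, mnorm, mlin, raff, rcd, mld, rfix, -⟩ := h2 A hA i
  refine ⟨⟨i, x + τ • v, mirror (sideVec A i) v, hcdi, hpos, ?_, ?_, ?_⟩, τ, hτpos, rfl, rfl⟩
  · rw [mld]; linarith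
  · rw [mnorm, hv]
  · intro w s j
    have h3 : x + τ • v + s • mirror (sideVec A i) v = refl A i (x + (τ + s) • v) := by
      rw [add_smul, ← add_assoc, raff (x + τ • v), rfix _ hcdi]
    rw [h3]
    exact hL (i :: w) (τ + s) j

/-- the one flight relation -/
def Step (s s' : CS A) (τ : ℝ) : Prop :=
  0 < τ ∧ s'.q = s.q + τ • s.u ∧ s'.u = mirror (sideVec A s'.i) s.u

lemma exists_fwd (h1 : StG1) (h2 : StG2) (hA : AffineIndependent ℝ A) (s : CS A) :
    ∃ s' τ, Step s s' τ := by
  obtain ⟨s', τ, h, h', h''⟩ := fwd h1 h2 hA s.q s.u s.hn (fun j => by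
    by_cases hj : j = s.i
    · exact Or.inr ⟨hj ▸ s.hq, hj ▸ s.hu⟩
    · exact Or.inl (s.hq' j hj)) s.hL
  exact ⟨s', τ, h, h', h''⟩

lemma reflW_neg_line {s : CS A} (h2 : StG2) (hA : AffineIndependent ℝ A) :
    ∀ (w : List (Fin 3)) (r : ℝ) (j : Fin 3),
      reflW A w (s.q + r • (-mirror (sideVec A s.i) s.u)) ≠ A j := by
  intro w r j
  obtain ⟨hinv, minv, -, mnorm, mlin, raff, rcd, mld, rfix, -⟩ := h2 A hA s.i
  have h3 : s.q + r • (-mirror (sideVec A s.i) s.u) = refl A s.i (s.q + (-r) • s.u) := by
    rw [raff, rfix _ s.hq, smul_neg, neg_smul]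
  rw [h3]
  exact s.hL (s.i :: w) (-r) j

lemma mirror_neg' (h2 : StG2) (hA : AffineIndependent ℝ A) (i : Fin 3) (v : Plane) :
    mirror (sideVec A i) (-v) = -mirror (sideVec A i) v := by
  obtain ⟨-, -, -, -, mlin, -⟩ := h2 A hA i
  have := mlin (-1) 0 v 0
  simpa using this

lemma ld_neg' (h1 : StG1) (hA : AffineIndependent ℝ A) (i : Fin 3) (v : Plane) :
    ld A i (-v) = -ld A i v := by
  obtain ⟨-, -, -, lin, -⟩ := h1 A hA
  have a := lin i 0 1 (-v)
  have b := lin i 0 (-1) v
  rw [neg_one_smul] at b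
  rw [one_smul] at a
  linarith

/-- the reversed collision state -/
def rev (h1 : StG1) (h2 : StG2) (hA : AffineIndependent ℝ A) (s : CS A) : CS A where
  i := s.i
  q := s.q
  u := -mirror (sideVec A s.i) s.u
  hq := s.hq
  hq' := s.hq'
  hu := by
    obtain ⟨-, -, -, -, -, -, -, mld, -⟩ := h2 A hA s.i
    rw [ld_neg' h1 hA, mld, neg_neg]; exact s.hu
  hn := by
    obtain ⟨-, -, -, mnorm, -⟩ := h2 A hA s.i
    rw [norm_neg, mnorm, s.hn]
  hL := reflW_neg_line h2 hA

lemma step_rev (h1 : StG1) (h2 : StG2) (hA : AffineIndependent ℝ A) {s s' : CS A} {τ : ℝ}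
    (h : Step s s' τ) : Step (rev h1 h2 hA s') (rev h1 h2 hA s) τ := by
  obtain ⟨h3, h4, h5⟩ := h
  obtain ⟨-, minv', -⟩ := h2 A hA s'.i
  have hu : (rev h1 h2 hA s').u = -s.u := by
    show -mirror (sideVec A s'.i) s'.u = -s.u
    rw [h5, minv']
  refine ⟨h3, ?_, ?_⟩
  · rw [hu]
    show s.q = s'.q + τ • (-s.u)
    rw [h4, smul_neg]; abel
  · rw [hu]
    show -mirror (sideVec A s.i) s.u = mirror (sideVec A s.i) (-s.u)
    rw [mirror_neg' h2 hA]

lemma exists_bwd (h1 : StG1) (h2 : StG2) (hA : AffineIndependent ℝ A) (s' : CS A) :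
    ∃ s τ, Step s s' τ := by
  obtain ⟨s, τ, h3, h4, h5⟩ := exists_fwd h1 h2 hA (rev h1 h2 hA s')
  have h6 := step_rev h1 h2 hA ⟨h3, h4, h5⟩
  refine ⟨rev h1 h2 hA s, τ, h6.1, ?_, ?_⟩
  · exact h6.2.1
  · have := h6.2.2
    have h7 : (rev h1 h2 hA (rev h1 h2 hA s')).u = s'.u := by
      obtain ⟨-, minv', -⟩ := h2 A hA s'.i
      show -mirror (sideVec A s'.i) (-mirror (sideVec A s'.i) s'.u) = s'.u
      rw [mirror_neg' h2 hA, minv', neg_neg]
    rw [h7] at this
    exact this

lemma step_side_ne (h1 : StG1) (hA : AffineIndependent ℝ A) {s s' : CS A} {τ : ℝ}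
    (h : Step s s' τ) : s'.i ≠ s.i := by
  intro hi
  obtain ⟨-, -, -, lin, -⟩ := h1 A hA
  obtain ⟨h3, h4, h5⟩ := h
  have a := s'.hq
  rw [hi, h4, lin, s.hq, zero_add] at a
  have b := mul_pos h3 s.hu
  linarith

/-- two-sided sequences from a relation that is total in both directions -/
lemma exists_zseq {α : Type*} (r : α → α → Prop) (hf : ∀ a, ∃ b, r a b) (hb : ∀ b, ∃ a, r a b)
    (a₀ : α) : ∃ s : ℤ → α, s 0 = a₀ ∧ ∀ k, r (s k) (s (k + 1)) := by
  choose f hf using hf
  choose g hg using hb
  refine ⟨fun k => match k with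
    | Int.ofNat n => f^[n] a₀
    | Int.negSucc n => g^[n + 1] a₀, rfl, ?_⟩
  intro k
  rcases k with n | n
  · show r (f^[n] a₀) (f^[n + 1] a₀)
    rw [Function.iterate_succ_apply']
    exact hf _
  · rcases n with _ | n
    · show r (g a₀) a₀
      exact hg _
    · have hk : (Int.negSucc (n + 1) + 1 : ℤ) = Int.negSucc n := by omega
      rw [hk]
      show r (g^[n + 1 + 1] a₀) (g^[n + 1] a₀)
      rw [Function.iterate_succ_apply' g (n + 1)]
      exact hg _

/-- a two-sided sequence with prescribed increments -/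
lemma exists_zsum (f : ℤ → ℝ) (a : ℝ) : ∃ t : ℤ → ℝ, t 0 = a ∧ ∀ k, t (k + 1) = t k + f k := by
  refine ⟨fun k => a + ∑ m ∈ Finset.Ico 0 k, f m - ∑ m ∈ Finset.Ico k 0, f m, by simp, ?_⟩
  intro k
  rcases le_or_gt 0 k with hk | hk
  · have e1 : Finset.Ico (k + 1) 0 = ∅ := Finset.Ico_eq_empty (by omega)
    have e2 : Finset.Ico k 0 = ∅ := Finset.Ico_eq_empty (by omega)
    have e3 : Finset.Ico 0 (k + 1) = insert k (Finset.Ico 0 k) := by
      ext m; simp only [Finset.mem_Ico, Finset.mem_insert]; omega
    simp only [e1, e2, e3]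
    rw [Finset.sum_insert (by simp)]
    simp; ring
  · have e1 : Finset.Ico 0 (k + 1) = ∅ := Finset.Ico_eq_empty (by omega)
    have e2 : Finset.Ico 0 k = ∅ := Finset.Ico_eq_empty (by omega)
    have e3 : Finset.Ico k 0 = insert k (Finset.Ico (k + 1) 0) := by
      ext m; simp only [Finset.mem_Ico, Finset.mem_insert]; omega
    simp only [e1, e2, e3]
    rw [Finset.sum_insert (by simp)]
    simp
    ring

/-- dist to a vertex along a chain of collisions at sides adjacent to it -/
lemma dist_vertex (h1 : StG1) (h2 : StG2) (hA : AffineIndependent ℝ A) {s s' : CS A} {τ : ℝ}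
    (h : Step s s' τ) {k : Fin 3} (hk : s'.i ≠ k) (r : ℝ) :
    dist (s'.q + r • s'.u) (A k) = dist (s.q + (τ + r) • s.u) (A k) := by
  obtain ⟨-, -, -, lin, vert, -⟩ := h1 A hA
  obtain ⟨hinv, minv, rdist, mnorm, mlin, raff, rcd, mld, rfix, -⟩ := h2 A hA s'.i
  obtain ⟨h3, h4, h5⟩ := h
  have e1 : refl A s'.i (A k) = A k := rfix _ (by rw [vert, if_neg hk])
  have e2 : s'.q + r • s'.u = refl A s'.i (s.q + (τ + r) • s.u) := by
    rw [add_smul, ← add_assoc, raff (s.q + τ • s.u), ← h4, rfix _ s'.hq, h5]
  rw [e2]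
  nth_rewrite 1 [← e1]
  rw [rdist]

/-- no accumulation of collisions -/
lemma no_acc (h1 : StG1) (h2 : StG2) (hA : AffineIndependent ℝ A) (s : ℕ → CS A) (τ T : ℕ → ℝ)
    (hs : ∀ n, Step (s n) (s (n + 1)) (τ n)) (hT : ∀ n, T (n + 1) = T n + τ n) :
    Tendsto T atTop atTop := by
  obtain ⟨-, sum1, -, lin, vert, -, -, ccont, -⟩ := h1 A hA
  have hmono : Monotone T := monotone_nat_of_le_succ fun n => by
    rw [hT]; linarith [(hs n).1]
  rcases tendsto_atTop_of_monotone hmono with h | ⟨l, hl⟩
  · exact h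
  exfalso
  have hle : ∀ n, T n ≤ l := fun n => hmono.ge_of_tendsto hl n
  -- the collision points form a Cauchy sequence
  have hdist : ∀ n, dist (s n).q (s (n + 1)).q = T (n + 1) - T n := by
    intro n
    rw [(hs n).2.1, dist_self_add_right, norm_smul, (s n).hn, mul_one, Real.norm_eq_abs,
      abs_of_pos (hs n).1, hT]
    ring
  have hsum : ∀ n, ∑ k ∈ Finset.range n, dist (s k).q (s (k + 1)).q = T n - T 0 := by
    intro n
    simp only [hdist]
    rw [Finset.sum_range_sub]
  have hsumm : Summable fun n => dist (s n).q (s (n + 1)).q := by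
    refine summable_of_sum_range_le (c := l - T 0) (fun n => dist_nonneg) fun n => ?_
    rw [hsum]; linarith [hle n]
  obtain ⟨q, hq⟩ := cauchySeq_tendsto_of_complete (cauchySeq_of_summable_dist hsumm)
  have hcd : ∀ j, Tendsto (fun n => cd A j (s n).q) atTop (𝓝 (cd A j q)) := fun j =>
    ((ccont j).tendsto q).comp hq
  have hside : ∀ j, 0 < cd A j q → ∀ᶠ n in atTop, (s n).i ≠ j := by
    intro j hj
    filter_upwards [(hcd j).eventually (lt_mem_nhds hj)] with n hn hi
    have := (s n).hq
    rw [hi] at this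
    linarith
  have hnn : ∀ j, 0 ≤ cd A j q := fun j => by
    refine ge_of_tendsto' (hcd j) fun n => ?_
    by_cases hj : j = (s n).i
    · rw [hj, (s n).hq]
    · exact ((s n).hq' j hj).le
  by_cases hvert : ∃ k, q = A k
  · -- the limit is a vertex
    obtain ⟨k, rfl⟩ := hvert
    obtain ⟨N, hN⟩ := eventually_atTop.1 (hside k (by rw [vert, if_pos rfl]; exact one_pos))
    have key : ∀ n, ∀ r : ℝ, dist ((s (N + n)).q + r • (s (N + n)).u) (A k)
        = dist ((s N).q + (T (N + n) - T N + r) • (s N).u) (A k) := by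
      intro n
      induction n with
      | zero => intro r; simp
      | succ n ih =>
        intro r
        rw [← add_assoc, dist_vertex h1 h2 hA (hs (N + n)) (hN _ (by omega)), ih, hT]
        congr 3
        ring
    have lim1 : Tendsto (fun n => dist ((s (N + n)).q + (0 : ℝ) • (s (N + n)).u) (A k)) atTop
        (𝓝 (dist (A k) (A k))) := by
      have h3 : Tendsto (fun n => (s (N + n)).q) atTop (𝓝 (A k)) := by
        have := (tendsto_add_atTop_iff_nat N).2 hq
        simpa [add_comm] using this
      simpa using h3.dist (tendsto_const_nhds (x := A k))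
    have lim2 : Tendsto (fun n => dist ((s N).q + (T (N + n) - T N + 0) • (s N).u) (A k)) atTop
        (𝓝 (dist ((s N).q + (l - T N + 0) • (s N).u) (A k))) := by
      have h3 : Tendsto (fun n => T (N + n)) atTop (𝓝 l) := by
        have := (tendsto_add_atTop_iff_nat N).2 hl
        simpa [add_comm] using this
      have h4 : Tendsto (fun n => (s N).q + (T (N + n) - T N + 0) • (s N).u) atTop
          (𝓝 ((s N).q + (l - T N + 0) • (s N).u)) :=
        (((h3.sub_const _).add_const _).smul_const _).const_add _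
      exact h4.dist tendsto_const_nhds
    have heq : dist (A k) (A k) = dist ((s N).q + (l - T N + 0) • (s N).u) (A k) := by
      refine tendsto_nhds_unique lim1 ?_
      simp only [key _ 0]
      exact lim2
    rw [dist_self] at heq
    exact (s N).hL [] (l - T N + 0) k (dist_eq_zero.1 heq.symm)
  · -- the limit is not a vertex
    push Not at hvert
    have hone : ∃ i, ∀ j, j ≠ i → 0 < cd A j q := by
      by_cases h : ∃ i, cd A i q = 0
      · obtain ⟨i, hi⟩ := h
        refine ⟨i, fun j hj => (hnn j).lt_of_ne fun h0 => ?_⟩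
        obtain ⟨k, hk⟩ := vertex_of_two h1 hA hj h0.symm hi
        exact hvert k hk
      · push Not at h
        exact ⟨0, fun j _ => (hnn j).lt_of_ne (h j).symm⟩
    obtain ⟨i, hi⟩ := hone
    have hall : ∀ᶠ n in atTop, (s n).i = i := by
      have : ∀ᶠ n in atTop, ∀ j, j ≠ i → (s n).i ≠ j := by
        rw [eventually_all]
        intro j
        by_cases hj : j = i
        · exact Eventually.of_forall fun n h => absurd hj h
        · filter_upwards [hside j (hi j hj)] with n hn _
          exact hn
      filter_upwards [this] with n hn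
      by_contra h
      exact hn _ h rfl
    obtain ⟨N, hN⟩ := eventually_atTop.1 hall
    have := step_side_ne h1 hA (hs N)
    rw [hN N le_rfl, hN (N + 1) (by omega)] at this
    exact this rfl

end Ex

open Ex in
theorem exist (h1 : StG1) (h2 : StG2) : StExist := by
  intro A hA p hp
  obtain ⟨hadm, hline⟩ := hp
  have hv : ‖(p.2 : Plane)‖ = 1 := by simp
  obtain ⟨s₁, τ, hτ, hq, hu⟩ := fwd h1 h2 hA p.1 p.2 hv hadm hline
  obtain ⟨s', hs'0, hs'⟩ := exists_zseq (fun a b : CS A => ∃ τ, Step a b τ)
    (fun a => exists_fwd h1 h2 hA a) (fun b => exists_bwd h1 h2 hA b) s₁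
  choose σ hσ using hs'
  obtain ⟨t', ht'0, ht'⟩ := exists_zsum σ τ
  have hmono' : StrictMono t' := by
    refine strictMono_int_of_lt_succ fun k => ?_
    rw [ht']; linarith [(hσ k).1]
  -- velocities
  have hvel : ∀ k, (t' (k + 1) - t' k)⁻¹ • ((s' (k + 1)).q - (s' k).q) = (s' k).u := by
    intro k
    rw [ht', (hσ k).2.1, add_sub_cancel_left, add_sub_cancel_left, smul_smul,
      inv_mul_cancel₀ (hσ k).1.ne', one_smul]
  have htop : Tendsto t' atTop atTop := by
    have h3 := no_acc h1 h2 hA (fun n : ℕ => s' n) (fun n : ℕ => σ n) (fun n : ℕ => t' n)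
      (fun n => by have := hσ n; push_cast; exact this)
      (fun n => by have := ht' n; push_cast; exact this)
    refine tendsto_atTop_atTop_of_monotone hmono'.monotone fun b => ?_
    obtain ⟨n, hn⟩ := (h3.eventually (eventually_ge_atTop b)).exists
    exact ⟨n, hn⟩
  have hbot : Tendsto t' atBot atBot := by
    have h3 := no_acc h1 h2 hA (fun n : ℕ => rev h1 h2 hA (s' (-(n : ℤ))))
      (fun n : ℕ => σ (-(n : ℤ) - 1)) (fun n : ℕ => -t' (-(n : ℤ)))
      (fun n => by
        have := step_rev h1 h2 hA (hσ (-(n : ℤ) - 1))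
        have e : (-(n : ℤ) - 1 + 1) = -(n : ℤ) := by ring
        rw [e] at this
        have e2 : (-((n + 1 : ℕ) : ℤ)) = -(n : ℤ) - 1 := by push_cast; ring
        simp only [e2]
        exact this)
      (fun n => by
        have := ht' (-(n : ℤ) - 1)
        have e : (-(n : ℤ) - 1 + 1) = -(n : ℤ) := by ring
        rw [e] at this
        have e2 : (-((n + 1 : ℕ) : ℤ)) = -(n : ℤ) - 1 := by push_cast; ring
        simp only [e2]
        linarith)
    refine tendsto_atBot_atBot_of_monotone hmono'.monotone fun b => ?_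
    obtain ⟨n, hn⟩ := (h3.eventually (eventually_ge_atTop (-b))).exists
    exact ⟨-(n : ℤ), by linarith⟩
  obtain ⟨-, -, -, lin, -, -, -, -, -, -, hopen⟩ := h1 A hA
  -- the flight before `s₁`
  have hst := hσ (-1)
  rw [show (-1 + 1 : ℤ) = 0 by norm_num, hs'0] at hst
  have hu0 : (s' (-1)).u = p.2 := by
    obtain ⟨-, minv, -⟩ := h2 A hA s₁.i
    have h4 := hst.2.2
    rw [hu] at h4
    have h5 := congrArg (mirror (sideVec A s₁.i)) h4
    rw [minv, minv] at h5
    exact h5.symm
  have hq0 : (s' (-1)).q = p.1 + (τ - σ (-1)) • (p.2 : Plane) := by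
    have h4 := hst.2.1
    rw [hq, hu0] at h4
    rw [sub_smul, add_sub, ← sub_eq_iff_eq_add.2 h4]
  have ht0 : t' (-1) = τ - σ (-1) := by
    have := ht' (-1)
    rw [show (-1 + 1 : ℤ) = 0 by norm_num, ht'0] at this
    linarith
  have hle : τ ≤ σ (-1) := by
    by_contra hcon
    push Not at hcon
    have a := (s' (-1)).hq
    have b := (s' (-1)).hu
    rw [hu0] at b
    rw [hq0, lin] at a
    have c : 0 ≤ cd A (s' (-1)).i p.1 := by
      rcases hadm (s' (-1)).i with h | h
      · exact h.le
      · exact h.1.ge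
    have d := mul_pos (sub_pos.2 hcon) b
    linarith
  refine ⟨{
    t := fun k => t' (k - 1)
    q := fun k => (s' (k - 1)).q
    side := fun k => (s' (k - 1)).i
    strictMono_t := fun a b hab => hmono' (by omega)
    t_zero_le := by simp only [zero_sub]; rw [ht0]; linarith
    t_one_pos := by simp only [sub_self]; rw [ht'0]; exact hτ
    tendsto_atTop := htop.comp (tendsto_atTop_add_const_right _ (-1) tendsto_id)
    tendsto_atBot := hbot.comp (tendsto_atBot_add_const_right _ (-1) tendsto_id)
    mem_side := fun k => by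
      rw [hopen]
      exact ⟨(s' (k - 1)).hq, (s' (k - 1)).hq'⟩
    side_ne := fun k => by
      have := step_side_ne h1 hA (hσ (k - 1))
      rw [sub_add_cancel] at this
      simp only [add_sub_cancel_right]
      exact this
    unit_speed := fun k => by
      have h3 := hσ (k - 1)
      have h4 := ht' (k - 1)
      rw [sub_add_cancel] at h3 h4
      simp only [add_sub_cancel_right]
      rw [h4, h3.2.1, dist_self_add_right, norm_smul, (s' (k - 1)).hn, mul_one,
        Real.norm_eq_abs, abs_of_pos h3.1]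
      ring
    reflect := fun k => by
      have h3 := hvel k
      have h4 := hvel (k - 1)
      have h5 := hσ (k - 1)
      rw [sub_add_cancel] at h4 h5
      have e1 : k + 2 - 1 = k + 1 := by ring
      have e2 : k + 1 - 1 = k := by ring
      simp only [e1, e2]
      rw [h3, h4]
      exact h5.2.2 }, ?_⟩
  refine ⟨0, ?_, ?_, ?_, ?_⟩
  · simp only [zero_sub]; rw [ht0]; linarith
  · simp only [zero_add, sub_self]; rw [ht'0]; exact hτ
  · simp only [Chain.vel, zero_add, sub_self, zero_sub]
    have h3 := hvel (-1)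
    rw [show (-1 + 1 : ℤ) = 0 by norm_num] at h3
    rw [h3, hu0, hq0, ht0]
    module
  · simp only [Chain.vel, zero_add, sub_self, zero_sub]
    have h3 := hvel (-1)
    rw [show (-1 + 1 : ℤ) = 0 by norm_num] at h3
    rw [h3, hu0]

end Crest.Agent.R103
end
end

-- ▼ part R103/FlowBase
section

/-!
# R103: base for H7 / H8: reflections of frames, straight translation
-/

open MeasureTheory Filter Topology
open Crest.AnalysisR.Billiard

noncomputable section

namespace Crest.Agent.R103

namespace FB

lemma mirror_zero_left (v : Plane) : mirror 0 v = -v := by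
  simp [mirror]

lemma mirror_mirror {e : Plane} (he : e ≠ 0) (v : Plane) : mirror e (mirror e v) = v := by
  have h0 : inner ℝ e e ≠ (0 : ℝ) := by
    simpa using he
  unfold mirror
  rw [inner_sub_left, inner_smul_left]
  simp only [conj_trivial]
  have : (2 * (2 * inner ℝ v e / inner ℝ e e * inner ℝ e e - inner ℝ v e) / inner ℝ e e : ℝ)
      = 2 * inner ℝ v e / inner ℝ e e := by
    field_simp
    ring
  rw [this]; abel

/-- `mirror e` as a linear isometry equivalence (also for `e = 0`, where it is `-id`) -/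
def mirL (e : Plane) : Plane →ₗ[ℝ] Plane where
  toFun := mirror e
  map_add' v w := by
    unfold mirror; rw [inner_add_left, mul_add, add_div, add_smul]; abel
  map_smul' c v := by
    unfold mirror
    rw [inner_smul_left]
    simp only [conj_trivial, RingHom.id_apply]
    rw [smul_sub, smul_smul]
    congr 2
    ring

lemma norm_mirror (e v : Plane) : ‖mirror e v‖ = ‖v‖ := by
  by_cases he : e = 0
  · subst he; rw [mirror_zero_left, norm_neg]
  have h0 : inner ℝ e e ≠ (0 : ℝ) := by simpa using he
  have h1 : ‖mirror e v‖ ^ 2 = ‖v‖ ^ 2 := by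
    rw [← real_inner_self_eq_norm_sq, ← real_inner_self_eq_norm_sq]
    unfold mirror
    rw [inner_sub_left, inner_sub_right, inner_sub_right, inner_smul_left, inner_smul_right,
      inner_smul_left, inner_smul_right]
    simp only [conj_trivial]
    rw [real_inner_comm v e]
    field_simp
    ring
  exact (sq_eq_sq₀ (norm_nonneg _) (norm_nonneg _)).1 h1

lemma mir_invol (e v : Plane) : mirror e (mirror e v) = v := by
  by_cases he : e = 0
  · subst he; simp [mirror_zero_left]
  · exact mirror_mirror he v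

def mirE (e : Plane) : Plane ≃ₗᵢ[ℝ] Plane where
  toLinearEquiv := LinearEquiv.ofInvolutive (mirL e) (fun v => mir_invol e v)
  norm_map' v := norm_mirror e v

@[simp] lemma mirE_apply (e v : Plane) : mirE e v = mirror e v := rfl

/-- mirror image on the unit sphere -/
def mirS (e : Plane) (v : ↥(Metric.sphere (0 : Plane) 1)) : ↥(Metric.sphere (0 : Plane) 1) :=
  Br.sphMap (mirE e) v

@[simp] lemma coe_mirS (e : Plane) (v : ↥(Metric.sphere (0 : Plane) 1)) :
    ((mirS e v : ↥(Metric.sphere (0 : Plane) 1)) : Plane) = mirror e v := rfl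

lemma mirS_mirS (e : Plane) (v : ↥(Metric.sphere (0 : Plane) 1)) : mirS e (mirS e v) = v := by
  ext1; exact mir_invol e v

lemma mirS_continuous (e : Plane) : Continuous (mirS e) := Br.sphMap_continuous _

lemma mirS_mp (e : Plane) :
    MeasurePreserving (mirS e) (volume : Measure Plane).toSphere
      (volume : Measure Plane).toSphere := Br.sphMap_mp _

/-- straight translation of a frame -/
def Str (t : ℝ) (z : Phase × Bool) : Phase × Bool :=
  ((z.1.1 + t • (z.1.2 : Plane), z.1.2), z.2)

/-- reflection of a frame in side `i` -/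
def Rf (A : Fin 3 → Plane) (i : Fin 3) (z : Phase × Bool) : Phase × Bool :=
  ((refl A i z.1.1, mirS (sideVec A i) z.1.2), !z.2)

/-- reflections along a word -/
def RW (A : Fin 3 → Plane) : List (Fin 3) → Phase × Bool → Phase × Bool
  | [], z => z
  | i :: w, z => RW A w (Rf A i z)

lemma RW_pos (A : Fin 3 → Plane) (w : List (Fin 3)) (z : Phase × Bool) :
    (RW A w z).1.1 = reflW A w z.1.1 := by
  induction w generalizing z with
  | nil => rfl
  | cons i w ih => rw [RW, ih]; rfl

lemma RW_vel (A : Fin 3 → Plane) (w : List (Fin 3)) (z : Phase × Bool) :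
    ((RW A w z).1.2 : Plane) = mirW A w (z.1.2 : Plane) := by
  induction w generalizing z with
  | nil => rfl
  | cons i w ih => rw [RW, ih]; rfl

lemma RW_par (A : Fin 3 → Plane) (w : List (Fin 3)) (z : Phase × Bool) :
    (RW A w z).2 = xor z.2 (decide (Odd (w.length : ℤ))) := by
  induction w generalizing z with
  | nil => simp [RW]
  | cons i w ih =>
    rw [RW, ih]
    simp only [Rf, List.length_cons, Nat.cast_add, Nat.cast_one]
    have : decide (Odd ((w.length : ℤ) + 1)) = !decide (Odd (w.length : ℤ)) := by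
      by_cases h : Odd (w.length : ℤ)
      · have h' : ¬ Odd ((w.length : ℤ) + 1) := by
          rw [Int.not_odd_iff_even]; exact h.add_one
        simp only [h, h', decide_true, decide_false, Bool.not_true]
      · have h' : Odd ((w.length : ℤ) + 1) := (Int.not_odd_iff_even.1 h).add_one
        simp only [h, h', decide_true, decide_false, Bool.not_false]
    rw [this]
    cases z.2 <;> cases decide (Odd (w.length : ℤ)) <;> rfl

/-! ### measures -/

instance sfp : SigmaFinite ((volume : Measure Plane).prod (volume : Measure Plane).toSphere) :=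
  Measure.prod.instSigmaFinite

/-- Lebesgue × arc length × counting on all frames of the plane -/
def lam : Measure (Phase × Bool) :=
  ((volume : Measure Plane).prod (volume : Measure Plane).toSphere).prod Measure.count

instance : SFinite lam := by unfold lam; infer_instance

lemma not_mp : MeasurePreserving (fun b : Bool => !b) Measure.count Measure.count := by
  refine ⟨measurable_of_countable _, ?_⟩
  ext s hs
  rw [Measure.map_apply (measurable_of_countable _) hs]
  have : (fun b : Bool => !b) ⁻¹' s = (fun b : Bool => !b) '' s := by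
    ext b
    constructor
    · intro h; exact ⟨!b, h, by simp⟩
    · rintro ⟨c, hc, rfl⟩; simpa using hc
  rw [this, Measure.count_apply (MeasurableSet.of_discrete), Measure.count_apply hs]
  congr 1
  have hi : Function.Injective (fun b : Bool => !b) := fun a b h => by simpa using h
  exact hi.encard_image s

lemma Rf_mp (hG : StG2) {A : Fin 3 → Plane} (hA : AffineIndependent ℝ A) (i : Fin 3) :
    MeasurePreserving (Rf A i) lam lam := by
  obtain ⟨-, -, -, -, -, -, -, -, -, -, -, -, h⟩ := hG A hA i
  exact (h.prod (mirS_mp (sideVec A i))).prod not_mp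

lemma RW_mp (hG : StG2) {A : Fin 3 → Plane} (hA : AffineIndependent ℝ A) (w : List (Fin 3)) :
    MeasurePreserving (RW A w) lam lam := by
  induction w with
  | nil => exact MeasurePreserving.id _
  | cons i w ih => exact ih.comp (Rf_mp hG hA i)


lemma Str_mp (t : ℝ) : MeasurePreserving (Str t) lam lam := by
  have h1 : MeasurePreserving
      (fun p : Phase => ((p.1 + t • (p.2 : Plane), p.2) : Phase))
      ((volume : Measure Plane).prod (volume : Measure Plane).toSphere)
      ((volume : Measure Plane).prod (volume : Measure Plane).toSphere) := by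
    have h2 : MeasurePreserving
        (fun p : ↥(Metric.sphere (0 : Plane) 1) × Plane => (p.1, p.2 + t • (p.1 : Plane)))
        ((volume : Measure Plane).toSphere.prod (volume : Measure Plane))
        ((volume : Measure Plane).toSphere.prod (volume : Measure Plane)) := by
      refine MeasurePreserving.skew_product (μa := (volume : Measure Plane).toSphere)
        (μb := (volume : Measure Plane).toSphere) (μc := (volume : Measure Plane))
        (μd := (volume : Measure Plane)) (f := id)
        (g := fun v x => x + t • (v : Plane)) (MeasurePreserving.id _) ?_ ?_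
      · fun_prop
      · exact Eventually.of_forall fun v =>
          (measurePreserving_add_right (volume : Measure Plane) (t • (v : Plane))).map_eq
    have s1 : MeasurePreserving
        (Prod.swap : Plane × ↥(Metric.sphere (0 : Plane) 1) → ↥(Metric.sphere (0 : Plane) 1) × Plane)
        ((volume : Measure Plane).prod (volume : Measure Plane).toSphere)
        ((volume : Measure Plane).toSphere.prod (volume : Measure Plane)) :=
      Measure.measurePreserving_swap
    have s2 : MeasurePreserving
        (Prod.swap : ↥(Metric.sphere (0 : Plane) 1) × Plane → Plane × ↥(Metric.sphere (0 : Plane) 1))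
        ((volume : Measure Plane).toSphere.prod (volume : Measure Plane))
        ((volume : Measure Plane).prod (volume : Measure Plane).toSphere) :=
      Measure.measurePreserving_swap
    exact (s2.comp h2).comp s1
  exact h1.prod (MeasurePreserving.id _)

lemma Str_Str (s t : ℝ) (z : Phase × Bool) : Str s (Str t z) = Str (s + t) z := by
  simp only [Str]
  rw [add_smul, add_assoc, add_comm (t • _)]

lemma Str_zero (z : Phase × Bool) : Str 0 z = z := by
  simp [Str]

lemma Rf_Rf (hG : StG2) {A : Fin 3 → Plane} (hA : AffineIndependent ℝ A) (i : Fin 3)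
    (z : Phase × Bool) : Rf A i (Rf A i z) = z := by
  have h := (hG A hA i).1
  simp only [Rf, h, mirS_mirS, Bool.not_not]

lemma RW_inj (hG : StG2) {A : Fin 3 → Plane} (hA : AffineIndependent ℝ A) (w : List (Fin 3)) :
    Function.Injective (RW A w) := by
  induction w with
  | nil => exact Function.injective_id
  | cons i w ih =>
    intro z z' h
    have h1 := ih h
    have h2 := congrArg (Rf A i) h1
    rwa [Rf_Rf hG hA, Rf_Rf hG hA] at h2

lemma Str_inj (t : ℝ) : Function.Injective (Str t) := by
  intro z z' h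
  have := congrArg (Str (-t)) h
  rwa [Str_Str, Str_Str, neg_add_cancel, Str_zero, Str_zero] at this

/-- `μM A` is the restriction of `lam` to the open triangle -/
lemma muM_eq (A : Fin 3 → Plane) :
    μM A = lam.restrict {z : Phase × Bool | z.1.1 ∈ interior (convexHull ℝ (Set.range A))} := by
  unfold μM phaseMeasure lam
  have h1 : ((volume : Measure Plane).restrict
      (interior (convexHull ℝ (Set.range A)))).prod (volume : Measure Plane).toSphere
      = ((volume : Measure Plane).prod (volume : Measure Plane).toSphere).restrict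
        ((interior (convexHull ℝ (Set.range A))) ×ˢ Set.univ) := by
    rw [← Measure.prod_restrict, Measure.restrict_univ]
  rw [h1]
  conv_lhs => rw [← Measure.restrict_univ (μ := (Measure.count : Measure Bool))]
  rw [Measure.prod_restrict]
  congr 1
  ext z
  simp

end FB

end Crest.Agent.R103
end
private theorem rz_d73b136e8a : type_of% @_root_.Crest.Agent.R103.FB.RW.eq_def := @_root_.Crest.Agent.R103.FB.RW.eq_def -- L96
private theorem rz_7300923aec : type_of% @_root_.Crest.Agent.R103.FB.RW.eq_1 := @_root_.Crest.Agent.R103.FB.RW.eq_1 -- L96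
end

-- ▼ part R103/FlowMeas
section

/-!
# R103, H7: joint measurability of the flow
-/

open MeasureTheory Filter Topology
open Crest.AnalysisR.Billiard

noncomputable section

namespace Crest.Agent.R103

namespace FM

open FB

variable (A : Fin 3 → Plane)

/-- time at which the line of `p` meets the line of side `i` -/
def tm (i : Fin 3) (p : Phase) : ℝ := cd A i p.1 / (-ld A i p.2)

/-- `i` is the exit side of `p` (strict argmin) -/
def Ex (i : Fin 3) (p : Phase) : Prop :=
  ld A i p.2 < 0 ∧ ∀ j, j ≠ i → ld A j p.2 < 0 → tm A i p < tm A j p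

lemma Ex_unique {i j : Fin 3} {p : Phase} (hi : Ex A i p) (hj : Ex A j p) : i = j := by
  by_contra h
  have h1 := hi.2 j (Ne.symm h) hj.1
  have h2 := hj.2 i h hi.1
  exact lt_asymm h1 h2

/-- move to side `i` and reflect -/
def Hit (i : Fin 3) (p : Phase) : Phase :=
  (p.1 + tm A i p • (p.2 : Plane), mirS (sideVec A i) p.2)

open Classical in
/-- exit time -/
def ET (p : Phase) : ℝ :=
  if Ex A 0 p then tm A 0 p else if Ex A 1 p then tm A 1 p else if Ex A 2 p then tm A 2 p else 0

open Classical in
/-- collision map -/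
def CF (p : Phase) : Phase :=
  if Ex A 0 p then Hit A 0 p else if Ex A 1 p then Hit A 1 p else if Ex A 2 p then Hit A 2 p
    else p

variable {A}

lemma ET_eq {i : Fin 3} {p : Phase} (h : Ex A i p) : ET A p = tm A i p := by
  unfold ET
  by_cases h0 : Ex A 0 p
  · rw [if_pos h0, Ex_unique A h h0]
  rw [if_neg h0]
  by_cases h1 : Ex A 1 p
  · rw [if_pos h1, Ex_unique A h h1]
  rw [if_neg h1]
  by_cases h2 : Ex A 2 p
  · rw [if_pos h2, Ex_unique A h h2]
  exfalso
  fin_cases i
  · exact h0 h
  · exact h1 h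
  · exact h2 h

lemma CF_eq {i : Fin 3} {p : Phase} (h : Ex A i p) : CF A p = Hit A i p := by
  unfold CF
  by_cases h0 : Ex A 0 p
  · rw [if_pos h0, Ex_unique A h h0]
  rw [if_neg h0]
  by_cases h1 : Ex A 1 p
  · rw [if_pos h1, Ex_unique A h h1]
  rw [if_neg h1]
  by_cases h2 : Ex A 2 p
  · rw [if_pos h2, Ex_unique A h h2]
  exfalso
  fin_cases i
  · exact h0 h
  · exact h1 h
  · exact h2 h

section measurability

variable (hc : ∀ i, Continuous (cd A i)) (hl : ∀ i, Continuous (ld A i))
include hc hl

lemma tm_meas (i : Fin 3) : Measurable (tm A i) := by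
  have h1 : Measurable fun p : Phase => cd A i p.1 := (hc i).measurable.comp measurable_fst
  have h2 : Measurable fun p : Phase => ld A i (p.2 : Plane) :=
    (hl i).measurable.comp (measurable_subtype_coe.comp measurable_snd)
  exact h1.div h2.neg

omit hc in
lemma ld_meas (i : Fin 3) : Measurable fun p : Phase => ld A i (p.2 : Plane) :=
  (hl i).measurable.comp (measurable_subtype_coe.comp measurable_snd)

lemma Ex_meas (i : Fin 3) : MeasurableSet {p | Ex A i p} := by
  have h1 : MeasurableSet {p : Phase | ld A i (p.2 : Plane) < 0} :=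
    measurableSet_lt (ld_meas hl i) measurable_const
  have h2 : ∀ j, MeasurableSet {p : Phase | j ≠ i → ld A j (p.2 : Plane) < 0 →
      tm A i p < tm A j p} := by
    intro j
    by_cases hj : j ≠ i
    · have e : {p : Phase | j ≠ i → ld A j (p.2 : Plane) < 0 → tm A i p < tm A j p}
          = {p : Phase | ld A j (p.2 : Plane) < 0}ᶜ ∪ {p | tm A i p < tm A j p} := by
        ext p
        simp only [Set.mem_setOf_eq, Set.mem_union, Set.mem_compl_iff]
        tauto
      rw [e]
      exact (measurableSet_lt (ld_meas hl j) measurable_const).compl.union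
        (measurableSet_lt (tm_meas hc hl i) (tm_meas hc hl j))
    · have e : {p : Phase | j ≠ i → ld A j (p.2 : Plane) < 0 → tm A i p < tm A j p}
          = Set.univ := by
        ext p; simp only [Set.mem_setOf_eq, Set.mem_univ, iff_true]
        intro h; exact absurd h hj
      rw [e]; exact MeasurableSet.univ
  have e : {p | Ex A i p} = {p : Phase | ld A i (p.2 : Plane) < 0} ∩
      ⋂ j, {p : Phase | j ≠ i → ld A j (p.2 : Plane) < 0 → tm A i p < tm A j p} := by
    ext p; simp [Ex]
  rw [e]
  exact h1.inter (MeasurableSet.iInter h2)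

lemma ET_meas : Measurable (ET A) := by
  classical
  unfold ET
  refine Measurable.ite (Ex_meas hc hl 0) (tm_meas hc hl 0) ?_
  refine Measurable.ite (Ex_meas hc hl 1) (tm_meas hc hl 1) ?_
  exact Measurable.ite (Ex_meas hc hl 2) (tm_meas hc hl 2) measurable_const

lemma Hit_meas (i : Fin 3) : Measurable (Hit A i) := by
  unfold Hit
  refine Measurable.prodMk ?_ ?_
  · exact measurable_fst.add ((tm_meas hc hl i).smul
      (measurable_subtype_coe.comp measurable_snd))
  · exact (mirS_continuous _).measurable.comp measurable_snd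

lemma CF_meas : Measurable (CF A) := by
  classical
  unfold CF
  refine Measurable.ite (Ex_meas hc hl 0) (Hit_meas hc hl 0) ?_
  refine Measurable.ite (Ex_meas hc hl 1) (Hit_meas hc hl 1) ?_
  exact Measurable.ite (Ex_meas hc hl 2) (Hit_meas hc hl 2) measurable_id

end measurability

/-! ### chains -/

lemma stateAt_of {c : Chain A} {s : ℝ} {k : ℤ} (h1 : c.t k ≤ s) (h2 : s < c.t (k + 1)) :
    (stateAt c s).1 = c.q k + (s - c.t k) • c.vel k ∧
      ((stateAt c s).2 : Plane) = c.vel k := by
  have h := idx_unique c h1 h2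
  refine ⟨?_, ?_⟩
  · simp only [stateAt, h]
  · simp only [stateAt, h]

lemma t_lt (c : Chain A) (k : ℤ) : c.t k < c.t (k + 1) := c.strictMono_t (by omega)

lemma vel_smul (c : Chain A) (k : ℤ) :
    (c.t (k + 1) - c.t k) • c.vel k = c.q (k + 1) - c.q k := by
  have h : c.t (k + 1) - c.t k ≠ 0 := (sub_pos.2 (t_lt c k)).ne'
  rw [Chain.vel, smul_smul, mul_inv_cancel₀ h, one_smul]

lemma vel_succ (c : Chain A) (k : ℤ) :
    c.vel (k + 1) = mirror (sideVec A (c.side (k + 1))) (c.vel k) := by
  have h := c.reflect k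
  rw [Chain.vel, Chain.vel]
  have e : k + 1 + 1 = k + 2 := by ring
  rw [e]; exact h

/-- the exit side, time and collision state of a state of a chain -/
lemma chain_exit (h1 : StG1) (hS : StState) (hA : AffineIndependent ℝ A) (c : Chain A)
    {s : ℝ} {k : ℤ} (hk : c.t k ≤ s) (hk' : s < c.t (k + 1)) :
    ET A (stateAt c s) = c.t (k + 1) - s ∧
      CF A (stateAt c s) = stateAt c (c.t (k + 1)) := by
  obtain ⟨-, -, -, g4, -, -, -, -, -, -, g11⟩ := h1 A hA
  have hadm := (hS A hA c).1 s
  obtain ⟨e1, e2⟩ := stateAt_of hk hk'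
  set p := stateAt c s with hp
  set i := c.side (k + 1) with hi
  set T := c.t (k + 1) - s with hT
  have hTpos : 0 < T := sub_pos.2 hk'
  -- position of the next collision
  have hq : p.1 + T • (p.2 : Plane) = c.q (k + 1) := by
    rw [e1, e2, add_assoc, ← add_smul]
    have : s - c.t k + T = c.t (k + 1) - c.t k := by rw [hT]; ring
    rw [this, vel_smul]; abel
  have hmem := c.mem_side (k + 1)
  rw [g11, ← hq, ← hi] at hmem
  obtain ⟨m1, m2⟩ := hmem
  rw [g4] at m1
  have hpos : 0 < cd A i p.1 := by
    rcases hadm i with h | ⟨h, h'⟩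
    · exact h
    · exfalso
      rw [h, zero_add] at m1
      have := mul_pos hTpos h'
      linarith
  have hneg : ld A i (p.2 : Plane) < 0 := by
    by_contra h
    push Not at h
    have := mul_nonneg hTpos.le h
    linarith
  have htm : tm A i p = T := by
    unfold tm
    rw [div_eq_iff (by linarith)]
    linarith
  have hex : Ex A i p := by
    refine ⟨hneg, fun j hj hj' => ?_⟩
    have h := m2 j hj
    rw [g4] at h
    rw [htm]
    unfold tm
    rw [lt_div_iff₀ (by linarith)]
    linarith
  refine ⟨by rw [ET_eq hex, htm], ?_⟩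
  rw [CF_eq hex]
  obtain ⟨f1, f2⟩ := stateAt_of (c := c) (s := c.t (k + 1)) (k := k + 1) le_rfl (t_lt c (k + 1))
  refine Prod.ext ?_ (Subtype.ext ?_)
  · rw [f1, sub_self, zero_smul, add_zero, Hit, htm]; exact hq
  · rw [f2, vel_succ]
    show mirror (sideVec A i) (p.2 : Plane) = _
    rw [e2]

/-- `n`-th collision time -/
def Sn (A : Fin 3 → Plane) (n : ℕ) (p : Phase) : ℝ :=
  ∑ m ∈ Finset.range n, ET A ((CF A)^[m] p)

lemma Sn_meas (hc : ∀ i, Continuous (cd A i)) (hl : ∀ i, Continuous (ld A i)) (n : ℕ) :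
    Measurable (Sn A n) := by
  unfold Sn
  refine Finset.measurable_sum _ fun m _ => ?_
  exact (ET_meas hc hl).comp ((CF_meas hc hl).iterate m)

/-- iterates of the collision map along a chain -/
lemma chain_iter (h1 : StG1) (hS : StState) (hA : AffineIndependent ℝ A) (c : Chain A) (n : ℕ) :
    Sn A (n + 1) (stateAt c 0) = c.t (n + 1) ∧
      (CF A)^[n + 1] (stateAt c 0) = stateAt c (c.t (n + 1)) := by
  induction n with
  | zero =>
    have h := chain_exit h1 hS hA c (s := 0) (k := 0) c.t_zero_le (by simpa using c.t_one_pos)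
    simp only [Sn, zero_add, Finset.sum_range_one, Function.iterate_zero, id_eq,
      Function.iterate_one, Nat.cast_zero]
    simpa using h
  | succ n ih =>
    have h := chain_exit h1 hS hA c (s := c.t ((n : ℤ) + 1)) (k := (n : ℤ) + 1) le_rfl
      (t_lt c _)
    obtain ⟨ih1, ih2⟩ := ih
    have e : ((n + 1 : ℕ) : ℤ) + 1 = (n : ℤ) + 1 + 1 := by push_cast; ring
    refine ⟨?_, ?_⟩
    · have : Sn A (n + 1 + 1) (stateAt c 0)
          = Sn A (n + 1) (stateAt c 0) + ET A ((CF A)^[n + 1] (stateAt c 0)) := by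
        simp only [Sn]; rw [Finset.sum_range_succ]
      rw [this, ih1, ih2, h.1, e]; ring
    · rw [Function.iterate_succ_apply', ih2, h.2, e]

/-- the position formula after `n` collisions -/
def fml (A : Fin 3 → Plane) (n : ℕ) (x : ℝ × (Phase × Bool)) : Phase × Bool :=
  ((((CF A)^[n] x.2.1).1 + (x.1 - Sn A n x.2.1) • (((CF A)^[n] x.2.1).2 : Plane),
    ((CF A)^[n] x.2.1).2), xor x.2.2 (decide (Odd (n : ℤ))))

lemma fml_meas (hc : ∀ i, Continuous (cd A i)) (hl : ∀ i, Continuous (ld A i)) (n : ℕ) :
    Measurable (fml A n) := by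
  have h1 : Measurable fun x : ℝ × (Phase × Bool) => (CF A)^[n] x.2.1 :=
    ((CF_meas hc hl).iterate n).comp (measurable_fst.comp measurable_snd)
  have h2 : Measurable fun x : ℝ × (Phase × Bool) => Sn A n x.2.1 :=
    (Sn_meas hc hl n).comp (measurable_fst.comp measurable_snd)
  have h3 : Measurable fun x : ℝ × (Phase × Bool) => x.2.2 := measurable_snd.comp measurable_snd
  unfold fml
  refine Measurable.prodMk (Measurable.prodMk ?_ ?_) ?_
  · exact (measurable_fst.comp h1).add ((measurable_fst.sub h2).smul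
      (measurable_subtype_coe.comp (measurable_snd.comp h1)))
  · exact measurable_snd.comp h1
  · exact (measurable_of_countable fun b : Bool => xor b (decide (Odd (n : ℤ)))).comp h3

lemma flow_formula (h1 : StG1) (hS : StState) (hE : StExist) (hA : AffineIndependent ℝ A)
    {z : Phase × Bool} (hz : OK A z.1) {t : ℝ} (ht : 0 ≤ t) {n : ℕ}
    (hn : Sn A n z.1 ≤ t) (hn' : t < Sn A (n + 1) z.1) :
    flowM A t z = fml A n (t, z) := by
  have hg : OK A z.1 ∧ Good A z.1 := ⟨hz, hE A hA _ hz⟩
  set c := chainOf A z.1 hg.2 with hc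
  have hthr : z.1 = stateAt c 0 := (through_iff c z.1).1 hg.2.choose_spec
  have hF : flowP A t z.1 = stateAt c t := by rw [flowP, dif_pos hg]
  have hP : par A t z.1 = decide (Odd (idx c t)) := by rw [par, dif_pos hg]
  rw [flowM, hF, hP]
  -- the index is `n`
  have hidx : idx c t = n := by
    rcases n with _ | n
    · apply idx_unique c (by simpa using c.t_zero_le.trans ht)
      have := (chain_iter h1 hS hA c 0).1
      rw [← hthr] at this
      rw [this] at hn'
      simpa using hn'
    · have a := (chain_iter h1 hS hA c n).1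
      have b := (chain_iter h1 hS hA c (n + 1)).1
      rw [← hthr] at a b
      rw [a] at hn
      rw [b] at hn'
      apply idx_unique c
      · push_cast; exact hn
      · push_cast at hn' ⊢; exact hn'
  have hstate : stateAt c t = (fml A n (t, z)).1 := by
    rcases n with _ | n
    · have hk : c.t 0 ≤ t := c.t_zero_le.trans ht
      have hk' : t < c.t (0 + 1) := by
        have := lt_idx c t
        rw [hidx] at this; simpa using this
      obtain ⟨e1, e2⟩ := stateAt_of hk hk'
      obtain ⟨f1, f2⟩ := stateAt_of (c := c) (s := 0) (k := 0) c.t_zero_le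
        (by simpa using c.t_one_pos)
      rw [← hthr] at f1 f2
      refine Prod.ext ?_ (Subtype.ext ?_)
      · simp only [fml, Function.iterate_zero, id_eq, Sn, Finset.range_zero, Finset.sum_empty]
        rw [e1, f2, f1, add_assoc, ← add_smul]
        congr 2; ring
      · simp only [fml, Function.iterate_zero, id_eq]
        rw [e2, f2]
    · obtain ⟨a, b⟩ := chain_iter h1 hS hA c n
      rw [← hthr] at a b
      have hk : c.t ((n : ℤ) + 1) ≤ t := by
        have := idx_le c t
        rw [hidx] at this; push_cast at this; exact this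
      have hk' : t < c.t ((n : ℤ) + 1 + 1) := by
        have := lt_idx c t
        rw [hidx] at this; push_cast at this; exact this
      obtain ⟨e1, e2⟩ := stateAt_of hk hk'
      obtain ⟨f1, f2⟩ := stateAt_of (c := c) (s := c.t ((n : ℤ) + 1)) (k := (n : ℤ) + 1) le_rfl
        (t_lt c _)
      refine Prod.ext ?_ (Subtype.ext ?_)
      · simp only [fml]
        rw [a, b, e1, f2, f1, sub_self, zero_smul, add_zero]
      · simp only [fml]
        rw [b, e2, f2]
  refine Prod.ext hstate ?_
  rw [hidx]; rfl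

lemma exists_n (h1 : StG1) (hS : StState) (hE : StExist) (hA : AffineIndependent ℝ A)
    {p : Phase} (hz : OK A p) {t : ℝ} (ht : 0 ≤ t) :
    ∃ n : ℕ, Sn A n p ≤ t ∧ t < Sn A (n + 1) p := by
  obtain ⟨c, hc⟩ := hE A hA _ hz
  have hthr : p = stateAt c 0 := (through_iff c p).1 hc
  have hi0 : 0 ≤ idx c t := by
    by_contra h
    push Not at h
    have h2 := lt_idx c t
    have h3 : c.t (idx c t + 1) ≤ c.t 0 := c.strictMono_t.monotone (by omega)
    have := c.t_zero_le
    linarith
  obtain ⟨n, hn⟩ := Int.eq_ofNat_of_zero_le hi0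
  refine ⟨n, ?_, ?_⟩
  · rcases n with _ | n
    · simpa [Sn] using ht
    · rw [hthr, (chain_iter h1 hS hA c n).1]
      have := idx_le c t
      rw [hn] at this; push_cast at this; exact this
  · rw [hthr, (chain_iter h1 hS hA c n).1]
    have := lt_idx c t
    rw [hn] at this; exact this

/-- measurability for non-negative times -/
lemma meas_pos (h1 : StG1) (hS : StState) (hE : StExist) (hAe : StAe)
    (hA : AffineIndependent ℝ A) :
    Measurable (fun x : ℝ × (Phase × Bool) => flowM A |x.1| x.2) := by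
  obtain ⟨-, -, -, -, -, -, -, hc, hl, -, -⟩ := h1 A hA
  have hOK : MeasurableSet {p | OK A p} := (hAe A hA).2
  intro B hB
  have hOK' : MeasurableSet {x : ℝ × (Phase × Bool) | OK A x.2.1} :=
    (measurable_fst.comp measurable_snd) hOK
  let ab : ℝ × (Phase × Bool) → ℝ × (Phase × Bool) := fun x => (|x.1|, x.2)
  have hab : Measurable ab := (measurable_fst.abs).prodMk measurable_snd
  have e : (fun x : ℝ × (Phase × Bool) => flowM A |x.1| x.2) ⁻¹' B
      = ({x : ℝ × (Phase × Bool) | OK A x.2.1}ᶜ ∩ Prod.snd ⁻¹' B) ∪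
        ⋃ n : ℕ, ({x : ℝ × (Phase × Bool) | OK A x.2.1} ∩
          ({x | Sn A n x.2.1 ≤ |x.1|} ∩ {x | |x.1| < Sn A (n + 1) x.2.1}) ∩
          (ab ⁻¹' (fml A n ⁻¹' B))) := by
    ext x
    simp only [Set.mem_preimage, Set.mem_union, Set.mem_inter_iff, Set.mem_compl_iff,
      Set.mem_setOf_eq, Set.mem_iUnion]
    by_cases hx : OK A x.2.1
    · constructor
      · intro hB'
        right
        obtain ⟨n, hn, hn'⟩ := exists_n h1 hS hE hA hx (abs_nonneg x.1)
        refine ⟨n, ⟨hx, hn, hn'⟩, ?_⟩
        rw [flow_formula h1 hS hE hA hx (abs_nonneg x.1) hn hn'] at hB'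
        exact hB'
      · rintro (⟨h, -⟩ | ⟨n, ⟨-, hn, hn'⟩, hB'⟩)
        · exact absurd hx h
        · rw [flow_formula h1 hS hE hA hx (abs_nonneg x.1) hn hn']
          exact hB'
    · have hfl : flowM A |x.1| x.2 = x.2 := by
        have hn : ¬ (OK A x.2.1 ∧ Good A x.2.1) := fun h => hx h.1
        unfold flowM flowP par
        rw [dif_neg hn, dif_neg hn]
        simp
      rw [hfl]
      constructor
      · intro h; exact Or.inl ⟨hx, h⟩
      · rintro (⟨-, h⟩ | ⟨n, ⟨h, -⟩, -⟩)
        · exact h
        · exact absurd h hx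
  rw [e]
  refine (hOK'.compl.inter (measurable_snd hB)).union (MeasurableSet.iUnion fun n => ?_)
  refine (hOK'.inter (MeasurableSet.inter ?_ ?_)).inter (hab (fml_meas hc hl n hB))
  · exact measurableSet_le ((Sn_meas hc hl n).comp (measurable_fst.comp measurable_snd))
      measurable_fst.abs
  · exact measurableSet_lt measurable_fst.abs
      ((Sn_meas hc hl (n + 1)).comp (measurable_fst.comp measurable_snd))

end FM

/-- H7 -/
theorem meas (h1 : StG1) (hS : StState) (hE : StExist) (hAe : StAe) (hF : StFlow) : StMeas := by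
  intro A hA
  obtain ⟨f0, fadd, -, -⟩ := hF A hA
  have hpos := FM.meas_pos h1 hS hE hAe hA
  haveI : PolishSpace ↥(Metric.sphere (0 : Plane) 1) :=
    Metric.isClosed_sphere.polishSpace
  haveI : StandardBorelSpace (ℝ × (Phase × Bool)) := inferInstance
  let Θ : ℝ × (Phase × Bool) → ℝ × (Phase × Bool) := fun x => (x.1, flowM A |x.1| x.2)
  let Θ' : ℝ × (Phase × Bool) → ℝ × (Phase × Bool) := fun x => (x.1, flowM A (-|x.1|) x.2)
  have hΘ : Measurable Θ := measurable_fst.prodMk hpos
  have hl : ∀ x, Θ' (Θ x) = x := by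
    intro x
    show (x.1, flowM A (-|x.1|) (flowM A |x.1| x.2)) = x
    rw [← fadd, neg_add_cancel, f0]
  have hr : ∀ x, Θ (Θ' x) = x := by
    intro x
    show (x.1, flowM A |x.1| (flowM A (-|x.1|) x.2)) = x
    rw [← fadd, add_neg_cancel, f0]
  have hemb : MeasurableEmbedding Θ :=
    hΘ.measurableEmbedding (Function.LeftInverse.injective hl)
  have hΘ' : Measurable Θ' := by
    intro B hB
    have : Θ' ⁻¹' B = Θ '' B := by
      ext x
      constructor
      · intro hx; exact ⟨Θ' x, hx, hr x⟩
      · rintro ⟨y, hy, rfl⟩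
        show Θ' (Θ y) ∈ B
        rw [hl]; exact hy
    rw [this]
    exact hemb.measurableSet_image.2 hB
  have hneg : Measurable (fun x : ℝ × (Phase × Bool) => flowM A (-|x.1|) x.2) :=
    measurable_snd.comp hΘ'
  have e : (fun p : ℝ × (Phase × Bool) => flowM A p.1 p.2)
      = fun p => if 0 ≤ p.1 then flowM A |p.1| p.2 else flowM A (-|p.1|) p.2 := by
    funext p
    by_cases h : 0 ≤ p.1
    · rw [if_pos h, abs_of_nonneg h]
    · rw [if_neg h, abs_of_neg (not_le.1 h), neg_neg]
  rw [e]
  exact Measurable.ite (measurableSet_le measurable_const measurable_fst) hpos hneg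

end Crest.Agent.R103
end
end

-- ▼ part R103/FlowMP
section

/-!
# R103, H8: the flow preserves the measure
-/

open MeasureTheory Filter Topology
open Crest.AnalysisR.Billiard

noncomputable section

namespace Crest.Agent.R103

namespace FMP

open FB

variable {A : Fin 3 → Plane}

/-- the flow is given by unfolding along a word -/
lemma flow_word (hS : StState) (hA : AffineIndependent ℝ A) {z : Phase × Bool}
    (hz : OK A z.1 ∧ Good A z.1) (t : ℝ) :
    ∃ w : List (Fin 3), flowM A t z = RW A w (Str t z) := by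
  set c := chainOf A z.1 hz.2 with hc
  have hthr : z.1 = stateAt c 0 := (through_iff c z.1).1 hz.2.choose_spec
  obtain ⟨w, h1, h2, h3⟩ := (hS A hA c).2.2 0 t
  refine ⟨w, ?_⟩
  have hF : flowP A t z.1 = stateAt c t := by rw [flowP, dif_pos hz]
  have hP : par A t z.1 = decide (Odd (idx c t)) := by rw [par, dif_pos hz]
  rw [flowM, hF, hP]
  have h1' := h1 0
  rw [zero_smul, add_zero, sub_zero, add_zero, ← hthr] at h1'
  rw [← hthr] at h2
  rw [idx_zero, sub_zero] at h3
  refine Prod.ext (Prod.ext ?_ (Subtype.ext ?_)) ?_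
  · rw [RW_pos, h1']; rfl
  · rw [RW_vel, h2]; rfl
  · rw [RW_par]
    show xor z.2 (decide (Odd (idx c t))) = xor z.2 (decide (Odd (w.length : ℤ)))
    rw [decide_eq_decide.2 h3]

lemma line_null (h1 : StG1) (hA : AffineIndependent ℝ A) (i : Fin 3) :
    volume {x : Plane | cd A i x = 0} = 0 := by
  obtain ⟨-, -, -, g4, g5, -, -, -, -, -, -⟩ := h1 A hA
  have hld : ∀ x y, ld A i (x - y) = cd A i x - cd A i y := by
    intro x y
    have := g4 i y 1 (x - y)
    rw [one_smul, one_mul] at this
    have e : y + (x - y) = x := by abel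
    rw [e] at this
    linarith
  let S : AffineSubspace ℝ Plane :=
    { carrier := {x : Plane | cd A i x = 0}
      smul_vsub_vadd_mem' := by
        intro c p1 p2 p3 hp1 hp2 hp3
        show cd A i (c • (p1 - p2) + p3) = 0
        rw [add_comm, g4, hld]
        have a : cd A i p1 = 0 := hp1
        have b : cd A i p2 = 0 := hp2
        have d : cd A i p3 = 0 := hp3
        rw [a, b, d]; ring }
  have hS : S ≠ ⊤ := by
    intro h
    have h2 : A i ∈ S := by rw [h]; exact AffineSubspace.mem_top _ _ _
    have h3 : cd A i (A i) = 0 := h2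
    rw [g5] at h3
    simp at h3
  exact Measure.addHaar_affineSubspace volume S hS

/-- frames over a null set of positions -/
lemma lam_pos_null {N : Set Plane} (hN : volume N = 0) : lam {z | z.1.1 ∈ N} = 0 := by
  have h1 : Measure.QuasiMeasurePreserving (fun z : Phase × Bool => z.1)
      lam ((volume : Measure Plane).prod (volume : Measure Plane).toSphere) :=
    Measure.quasiMeasurePreserving_fst
  have h2 : Measure.QuasiMeasurePreserving (fun p : Phase => p.1)
      ((volume : Measure Plane).prod (volume : Measure Plane).toSphere)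
      (volume : Measure Plane) :=
    Measure.quasiMeasurePreserving_fst
  exact (h2.comp h1).preimage_null hN

/-- countable patchwork of measure preserving injections -/
lemma patch {X : Type*} [MeasurableSpace X] [StandardBorelSpace X] (ν : Measure X)
    {g : X → X} (hg : Function.Injective g) (Ψ : ℕ → X → X)
    (hΨ : ∀ n, MeasurePreserving (Ψ n) ν ν) (hΨi : ∀ n, Function.Injective (Ψ n))
    {S : Set X} (hS : MeasurableSet S) (hE : ∀ n, MeasurableSet {z | g z = Ψ n z})
    (hcov : ∀ z ∈ S, ∃ n, g z = Ψ n z) : ν S = ν (g '' S) := by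
  let E : ℕ → Set X := fun n => S ∩ {z | g z = Ψ n z}
  have hEm : ∀ n, MeasurableSet (E n) := fun n => hS.inter (hE n)
  have hSE : S = ⋃ n, E n := by
    ext z
    constructor
    · intro hz
      obtain ⟨n, hn⟩ := hcov z hz
      exact Set.mem_iUnion.2 ⟨n, hz, hn⟩
    · intro hz
      obtain ⟨n, hn⟩ := Set.mem_iUnion.1 hz
      exact hn.1
  have hFm : ∀ n, MeasurableSet (disjointed E n) := fun n => MeasurableSet.disjointed hEm n
  have himg : ∀ n, Ψ n '' disjointed E n = g '' disjointed E n := by
    intro n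
    apply Set.image_congr
    intro z hz
    exact ((disjointed_subset E n hz).2).symm
  have himm : ∀ n, MeasurableSet (Ψ n '' disjointed E n) := fun n =>
    ((hΨ n).measurable.measurableEmbedding (hΨi n)).measurableSet_image.2 (hFm n)
  have hmeq : ∀ n, ν (disjointed E n) = ν (g '' disjointed E n) := by
    intro n
    rw [← himg n]
    have h := (hΨ n).measure_preimage (himm n).nullMeasurableSet
    rw [Set.preimage_image_eq _ (hΨi n)] at h
    exact h
  have hdisj : Pairwise (Function.onFun Disjoint fun n => g '' disjointed E n) := by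
    intro m n hmn
    exact (Set.disjoint_image_iff hg).2 (disjoint_disjointed E hmn)
  have e1 : ν S = ∑' n, ν (disjointed E n) := by
    rw [← measure_iUnion (disjoint_disjointed E) hFm, iUnion_disjointed, ← hSE]
  have e2 : g '' S = ⋃ n, g '' disjointed E n := by
    rw [← Set.image_iUnion, iUnion_disjointed, ← hSE]
  rw [e1, e2, measure_iUnion hdisj (fun n => by rw [← himg n]; exact himm n)]
  exact tsum_congr hmeq

instance sbs : StandardBorelSpace (Phase × Bool) := by
  have : PolishSpace ↥(Metric.sphere (0 : Plane) 1) := Metric.isClosed_sphere.polishSpace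
  infer_instance

lemma gen {X Y : Type*} [MeasurableSpace X] [MeasurableSpace Y] (f : ℝ → X → Y)
    (h : Measurable (fun p : ℝ × X => f p.1 p.2)) (t : ℝ) : Measurable (f t) :=
  h.comp (measurable_const.prodMk measurable_id)

lemma flowM_meas (hM : StMeas) (hA : AffineIndependent ℝ A) (t : ℝ) :
    Measurable (flowM A t) := gen (flowM A) (hM A hA) t

lemma flow_inj (hF : StFlow) (hA : AffineIndependent ℝ A) (t : ℝ) :
    Function.Injective (flowM A t) := by
  obtain ⟨f0, fadd, -, -⟩ := hF A hA
  intro z z' h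
  have := congrArg (flowM A (-t)) h
  rwa [← fadd, ← fadd, neg_add_cancel, f0, f0] at this

lemma image_le (h1 : StG1) (h2 : StG2) (hS : StState) (hE : StExist) (hF : StFlow)
    (hM : StMeas) (hA : AffineIndependent ℝ A) (t : ℝ) {S : Set (Phase × Bool)}
    (hSm : MeasurableSet S) (hSO : ∀ z ∈ S, OK A z.1) : lam S = lam (flowM A t '' S) := by
  have hft : Measurable (flowM A t) := flowM_meas hM hA t
  obtain ⟨f, hf⟩ := exists_surjective_nat (List (Fin 3))
  have hΨ : ∀ n, MeasurePreserving (fun z => RW A (f n) (Str t z)) lam lam :=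
    fun n => (RW_mp h2 hA (f n)).comp (Str_mp t)
  refine patch lam (flow_inj hF hA t) (fun n z => RW A (f n) (Str t z)) hΨ
    (fun n => (RW_inj h2 hA (f n)).comp (Str_inj t)) hSm ?_ ?_
  · intro n
    exact measurableSet_eq_fun hft (hΨ n).measurable
  · intro z hz
    obtain ⟨w, hw⟩ := flow_word hS hA ⟨hSO z hz, hE A hA _ (hSO z hz)⟩ t
    obtain ⟨n, hn⟩ := hf w
    exact ⟨n, by rw [hn]; exact hw⟩

lemma step1 (hAe : StAe) (hA : AffineIndependent ℝ A)
    {X D : Set (Phase × Bool)} (hmu : μM A = lam.restrict D)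
    (hX : MeasurableSet X) : μM A X = lam (({z | OK A z.1} ∩ X) ∩ D) := by
  obtain ⟨hae, hOK⟩ := hAe A hA
  have hOKm : MeasurableSet {z : Phase × Bool | OK A z.1} := measurable_fst hOK
  have hOKae : ∀ᵐ z ∂(μM A), OK A z.1 := by
    have hq : Measure.QuasiMeasurePreserving (fun z : Phase × Bool => z.1) (μM A)
        (phaseMeasure A) := Measure.quasiMeasurePreserving_fst
    exact hq.ae (hae.mono fun p hp => hp.1)
  have e1 : μM A X = μM A ({z | OK A z.1} ∩ X) := by
    apply measure_congr
    filter_upwards [hOKae] with z hz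
    have : (z ∈ X) = (z ∈ {z : Phase × Bool | OK A z.1} ∩ X) := by
      simp only [Set.mem_inter_iff, Set.mem_setOf_eq, hz, true_and]
    exact this
  rw [e1, hmu, Measure.restrict_apply (hOKm.inter hX)]

lemma le_of (h1 : StG1) (h2 : StG2) (hS : StState) (hE : StExist) (hAe : StAe) (hF : StFlow)
    (hM : StMeas) (hA : AffineIndependent ℝ A) (t : ℝ) {B : Set (Phase × Bool)}
    (hB : MeasurableSet B) : μM A (flowM A t ⁻¹' B) ≤ μM A B := by
  obtain ⟨-, -, -, -, -, -, -, hc, hl, hint, -⟩ := h1 A hA
  have hft : Measurable (flowM A t) := flowM_meas hM hA t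
  have hmu : μM A = lam.restrict {z : Phase × Bool | ∀ i, 0 < cd A i z.1.1} := by
    rw [muM_eq, hint]; rfl
  have hcdm : ∀ i, Measurable fun z : Phase × Bool => cd A i z.1.1 := fun i =>
    (hc i).measurable.comp (measurable_fst.comp measurable_fst)
  have hDm : MeasurableSet {z : Phase × Bool | ∀ i, 0 < cd A i z.1.1} := by
    have : {z : Phase × Bool | ∀ i, 0 < cd A i z.1.1}
        = ⋂ i, {z : Phase × Bool | 0 < cd A i z.1.1} := by ext z; simp
    rw [this]
    exact MeasurableSet.iInter fun i => measurableSet_lt measurable_const (hcdm i)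
  have hOKm : MeasurableSet {z : Phase × Bool | OK A z.1} := measurable_fst (hAe A hA).2
  rw [step1 hAe hA hmu (hft hB)]
  rw [image_le h1 h2 hS hE hF hM hA t ((hOKm.inter (hft hB)).inter hDm)
    (fun z hz => hz.1.1)]
  rw [hmu, Measure.restrict_apply hB]
  have hsub : flowM A t '' (({z | OK A z.1} ∩ flowM A t ⁻¹' B) ∩
      {z : Phase × Bool | ∀ i, 0 < cd A i z.1.1}) ⊆
      (B ∩ {z : Phase × Bool | ∀ i, 0 < cd A i z.1.1}) ∪
        ⋃ i, {z : Phase × Bool | z.1.1 ∈ {x | cd A i x = 0}} := by
    rintro _ ⟨z, hz, rfl⟩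
    have hB' : flowM A t z ∈ B := hz.1.2
    have hadm : Adm A (flowP A t z.1) := ((hF A hA).2.2.1 t z.1 hz.1.1).1
    by_cases h : ∃ i, cd A i (flowM A t z).1.1 = 0
    · obtain ⟨i, hi⟩ := h
      exact Or.inr (Set.mem_iUnion.2 ⟨i, hi⟩)
    · push Not at h
      left
      refine ⟨hB', fun i => ?_⟩
      rcases hadm i with h' | ⟨h', -⟩
      · exact h'
      · exact absurd h' (h i)
  refine (measure_mono hsub).trans ((measure_union_le _ _).trans ?_)
  rw [measure_iUnion_null fun i => lam_pos_null (line_null h1 hA i), add_zero]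

end FMP

/-- H8 -/
theorem mp (h1 : StG1) (h2 : StG2) (hS : StState) (hE : StExist) (hAe : StAe) (hF : StFlow)
    (hM : StMeas) : StMP := by
  intro A hA t
  obtain ⟨f0, fadd, -, -⟩ := hF A hA
  have hft : ∀ t, Measurable (flowM A t) := fun t => FMP.flowM_meas hM hA t
  refine ⟨hft t, ?_⟩
  ext B hB
  rw [Measure.map_apply (hft t) hB]
  refine le_antisymm (FMP.le_of h1 h2 hS hE hAe hF hM hA t hB) ?_
  have h := FMP.le_of h1 h2 hS hE hAe hF hM hA (-t) (hft t hB)
  have e : flowM A (-t) ⁻¹' (flowM A t ⁻¹' B) = B := by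
    ext z
    simp only [Set.mem_preimage]
    rw [← fadd, add_neg_cancel, f0]
  rwa [e] at h

end Crest.Agent.R103
end
end

-- ▼ part R103/ThC1
section

set_option autoImplicit false

/-!
# Row 103, Theorem C (helper876), part 1: invariance of the measure on the unit sphere,
ergodicity of irrational rotations on the unit sphere of the plane
-/

namespace Crest.Agent.R103.ThC

open MeasureTheory Metric Set Module
open scoped Pointwise

section sphere

variable {E : Type*} [NormedAddCommGroup E] [InnerProductSpace ℝ E] [FiniteDimensional ℝ E]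
  [MeasurableSpace E] [BorelSpace E]

/-- a linear isometry acting on the unit sphere -/
def sphMap {E : Type*} [NormedAddCommGroup E] [InnerProductSpace ℝ E]
    (L : E ≃ₗᵢ[ℝ] E) (v : sphere (0 : E) 1) : sphere (0 : E) 1 :=
  ⟨L v, by
    have := v.2
    simp only [mem_sphere_iff_norm, sub_zero] at this ⊢
    rw [L.norm_map, this]⟩

omit [FiniteDimensional ℝ E] [MeasurableSpace E] [BorelSpace E] in
theorem continuous_sphMap (L : E ≃ₗᵢ[ℝ] E) : Continuous (sphMap L) :=
  (L.continuous.comp continuous_subtype_val).subtype_mk _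

/-- **`toSphere` is invariant under linear isometries** -/
theorem measurePreserving_sphMap (L : E ≃ₗᵢ[ℝ] E) :
    MeasurePreserving (sphMap L) (volume : Measure E).toSphere (volume : Measure E).toSphere := by
  refine ⟨(continuous_sphMap L).measurable, ?_⟩
  ext s hs
  rw [Measure.map_apply (continuous_sphMap L).measurable hs,
    Measure.toSphere_apply' _ hs, Measure.toSphere_apply' _ ((continuous_sphMap L).measurable hs)]
  congr 1
  have h1 : (Ioo (0 : ℝ) 1 • ((↑) '' (sphMap L ⁻¹' s)) : Set E) =
      L ⁻¹' (Ioo (0 : ℝ) 1 • ((↑) '' s)) := by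
    ext x
    simp only [Set.mem_smul, Set.mem_image, Set.mem_preimage]
    constructor
    · rintro ⟨r, hr, y, ⟨v, hv, rfl⟩, rfl⟩
      exact ⟨r, hr, _, ⟨_, hv, rfl⟩, by simp [sphMap]⟩
    · rintro ⟨r, hr, y, ⟨v, hv, rfl⟩, hx⟩
      refine ⟨r, hr, L.symm v, ⟨⟨L.symm v, ?_⟩, ?_, rfl⟩, ?_⟩
      · have := v.2
        simp only [mem_sphere_iff_norm, sub_zero] at this ⊢
        rw [L.symm.norm_map, this]
      · have : sphMap L ⟨L.symm v, by
            have := v.2
            simp only [mem_sphere_iff_norm, sub_zero] at this ⊢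
            rw [L.symm.norm_map, this]⟩ = v := by
          apply Subtype.ext
          simp [sphMap]
        rw [this]
        exact hv
      · apply L.injective
        rw [← hx, map_smul, L.apply_symm_apply]
  rw [h1]
  exact (L.measurePreserving.measure_preimage_equiv (f := L.toMeasurableEquiv) _)

end sphere

/-! ### the unit sphere of the plane and the unit circle of `ℂ` -/

/-- the plane as `ℂ` -/
noncomputable abbrev cE : EuclideanSpace ℝ (Fin 2) ≃ₗᵢ[ℝ] ℂ :=
  Complex.orthonormalBasisOneI.repr.symm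

theorem norm_cE_sphere (v : sphere (0 : EuclideanSpace ℝ (Fin 2)) 1) :
    ‖cE (v : EuclideanSpace ℝ (Fin 2))‖ = 1 := by
  have := v.2
  simp only [mem_sphere_iff_norm, sub_zero] at this
  rw [LinearIsometryEquiv.norm_map, this]

/-- the unit sphere of the plane as `Circle` -/
noncomputable def toCirc : sphere (0 : EuclideanSpace ℝ (Fin 2)) 1 ≃ₜ Circle where
  toFun v := ⟨cE (v : EuclideanSpace ℝ (Fin 2)), mem_sphere_zero_iff_norm.2 (norm_cE_sphere v)⟩
  invFun w := ⟨cE.symm (w : ℂ), by
    rw [mem_sphere_zero_iff_norm, LinearIsometryEquiv.norm_map, Circle.norm_coe]⟩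
  left_inv v := by
    apply Subtype.ext
    exact cE.symm_apply_apply _
  right_inv w := by
    apply Circle.ext
    exact cE.apply_symm_apply _
  continuous_toFun := Continuous.subtype_mk (cE.continuous.comp continuous_subtype_val) _
  continuous_invFun := by
    refine Continuous.subtype_mk (f := fun w : Circle => cE.symm (w : ℂ)) ?_ _
    exact cE.symm.continuous.comp continuous_subtype_val

theorem coe_toCirc (v : sphere (0 : EuclideanSpace ℝ (Fin 2)) 1) :
    ((toCirc v : Circle) : ℂ) = cE (v : EuclideanSpace ℝ (Fin 2)) := rfl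

/-- rotation of the plane by a unit complex number -/
noncomputable def rotE (g : Circle) :
    EuclideanSpace ℝ (Fin 2) ≃ₗᵢ[ℝ] EuclideanSpace ℝ (Fin 2) :=
  (cE.trans (rotation g)).trans cE.symm

theorem cE_rotE (g : Circle) (x : EuclideanSpace ℝ (Fin 2)) : cE (rotE g x) = g * cE x := by
  simp [rotE, rotation_apply]

theorem toCirc_rotE (g : Circle) (v : sphere (0 : EuclideanSpace ℝ (Fin 2)) 1) :
    toCirc (sphMap (rotE g) v) = g * toCirc v := by
  apply Circle.ext
  rw [coe_toCirc, Circle.coe_mul, coe_toCirc]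
  exact cE_rotE g v

/-- powers of an irrational rotation number are dense -/
theorem denseRange_zpow_exp {a : ℝ} (ha : Irrational (a / (2 * Real.pi))) :
    DenseRange (fun n : ℤ => (Circle.exp a) ^ n) := by
  have : Fact (0 < 2 * Real.pi) := ⟨by positivity⟩
  have h1 : DenseRange (fun n : ℤ => n • (a : AddCircle (2 * Real.pi))) :=
    AddCircle.denseRange_zsmul_coe_iff.2 ha
  have h2 := (AddCircle.homeomorphCircle'.surjective.denseRange).comp h1
    AddCircle.homeomorphCircle'.continuous
  convert h2 using 1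
  funext n
  simp only [Function.comp]
  rw [← AddCircle.coe_zsmul, AddCircle.homeomorphCircle'_apply_mk, Circle.exp_zsmul]

/-- **irrational rotations are ergodic on the unit sphere of the plane** -/
theorem const_of_rot {a : ℝ} (ha : Irrational (a / (2 * Real.pi)))
    (F : sphere (0 : EuclideanSpace ℝ (Fin 2)) 1 → ℂ)
    (hF : AEStronglyMeasurable F (volume : Measure (EuclideanSpace ℝ (Fin 2))).toSphere)
    (hrot : ∀ᵐ v ∂(volume : Measure (EuclideanSpace ℝ (Fin 2))).toSphere,
      F (sphMap (rotE (Circle.exp a)) v) = F v) :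
    ∃ c, F =ᵐ[(volume : Measure (EuclideanSpace ℝ (Fin 2))).toSphere] fun _ => c := by
  set σ := (volume : Measure (EuclideanSpace ℝ (Fin 2))).toSphere with hσ
  borelize Circle
  have hmp : MeasurePreserving toCirc σ (σ.map toCirc) :=
    toCirc.measurable.measurePreserving σ
  set ν := σ.map toCirc with hν
  have hfin : IsFiniteMeasure ν := by rw [hν]; infer_instance
  have hinv : ν.IsMulLeftInvariant := by
    refine ⟨fun g => ?_⟩
    have h1 : (fun w => g * w) ∘ toCirc = toCirc ∘ sphMap (rotE g) := by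
      funext v
      exact (toCirc_rotE g v).symm
    rw [hν, Measure.map_map (measurable_const_mul g) toCirc.measurable, h1,
      ← Measure.map_map toCirc.measurable (continuous_sphMap _).measurable,
      (measurePreserving_sphMap (rotE g)).map_eq]
  have herg : Ergodic (fun w => Circle.exp a * w) ν :=
    ergodic_mul_left_of_denseRange_zpow (denseRange_zpow_exp ha) ν
  set G : Circle → ℂ := F ∘ toCirc.symm with hG
  have hmps : MeasurePreserving toCirc.symm ν σ := by
    have h := hmp.symm toCirc.toMeasurableEquiv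
    exact h
  have hGm : AEStronglyMeasurable G ν := hF.comp_measurePreserving hmps
  have hGinv : G ∘ (fun w => Circle.exp a * w) =ᵐ[ν] G := by
    have h1 := hmps.quasiMeasurePreserving.ae hrot
    filter_upwards [h1] with w hw
    simp only [Function.comp, hG]
    rw [← hw]
    congr 1
    apply toCirc.injective
    rw [toCirc_rotE, toCirc.apply_symm_apply, toCirc.apply_symm_apply]
  obtain ⟨c, hc⟩ := herg.ae_eq_const_of_ae_eq_comp_ae hGm hGinv
  refine ⟨c, ?_⟩
  have h2 := hmp.quasiMeasurePreserving.ae hc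
  filter_upwards [h2] with v hv
  simpa [hG] using hv

end Crest.Agent.R103.ThC
end

-- ▼ part R103/ThC2
section

set_option autoImplicit false

/-!
# Row 103, Theorem C (helper876), part 2: the composition of two side reflections is an irrational
rotation
-/

namespace Crest.Agent.R103.ThC

open MeasureTheory Metric Set Module Crest.AnalysisR.Billiard
open scoped ComplexConjugate

theorem cE_ne_zero {x : Plane} (hx : x ≠ 0) : cE x ≠ 0 := by
  intro h
  exact hx (cE.injective (by rw [h, map_zero]))

/-- the mirror in complex notation -/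
theorem cE_mirror (e v : Plane) (he : e ≠ 0) :
    cE (mirror e v) = (cE e) ^ 2 / ((‖cE e‖ : ℂ) ^ 2) * conj (cE v) := by
  have he' : cE e ≠ 0 := cE_ne_zero he
  have h1 : inner ℝ v e = ((cE v) * conj (cE e)).re := by
    rw [← cE.inner_map_map v e, Complex.inner]
    simp [mul_comm]
  have h2 : inner ℝ e e = ‖cE e‖ ^ 2 := by
    rw [real_inner_self_eq_norm_sq, LinearIsometryEquiv.norm_map]
  have hn : (‖cE e‖ : ℂ) ^ 2 = cE e * conj (cE e) := by
    rw [Complex.mul_conj, Complex.normSq_eq_norm_sq]; push_cast; ring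
  have hn0 : (‖cE e‖ : ℂ) ≠ 0 := by
    rw [Complex.ofReal_ne_zero, norm_ne_zero_iff]
    exact he'
  unfold mirror
  rw [map_sub, map_smul, h1, h2, Complex.real_smul]
  push_cast
  have h3 : (((cE v * conj (cE e)).re : ℝ) : ℂ) * 2 = cE v * conj (cE e) + conj (cE v) * cE e := by
    rw [Complex.re_eq_add_conj]
    simp only [map_mul, Complex.conj_conj]
    ring
  field_simp
  rw [hn]
  linear_combination (cE e) * h3

/-- the composition of two mirrors in complex notation -/
theorem cE_mirror_mirror (x y v : Plane) (hx : x ≠ 0) (hy : y ≠ 0) :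
    cE (mirror x (mirror y v)) =
      ((cE x * conj (cE y)) / (‖cE x‖ * ‖cE y‖ : ℂ)) ^ 2 * cE v := by
  rw [cE_mirror _ _ hx, cE_mirror _ _ hy]
  simp only [map_mul, map_div₀, map_pow, Complex.conj_conj, Complex.conj_ofReal]
  ring

theorem mirror_neg (e v : Plane) : mirror (-e) v = mirror e v := by
  unfold mirror
  rw [inner_neg_right, inner_neg_neg, smul_neg, ← neg_smul]
  congr 2
  ring

/-- unit complex numbers with given real part -/
theorem eq_exp_of_re (u : ℂ) (hu : ‖u‖ = 1) (α : ℝ) (h : u.re = Real.cos α) :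
    ∃ s : ℝ, (s = 1 ∨ s = -1) ∧ u = Complex.exp ((s * α : ℝ) * Complex.I) := by
  have h1 : u.re ^ 2 + u.im ^ 2 = 1 := by
    have h2 := Complex.sq_norm u
    rw [Complex.normSq_apply, hu] at h2
    linarith
  have h3 : u.im ^ 2 = Real.sin α ^ 2 := by
    rw [h] at h1
    have := Real.sin_sq_add_cos_sq α
    linarith
  rcases sq_eq_sq_iff_eq_or_eq_neg.1 h3 with h4 | h4
  · refine ⟨1, Or.inl rfl, ?_⟩
    rw [one_mul, Complex.exp_mul_I, ← Complex.ofReal_cos, ← Complex.ofReal_sin]
    apply Complex.ext
    · rw [Complex.add_re, Complex.ofReal_re, Complex.re_ofReal_mul, Complex.I_re, mul_zero,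
        add_zero, h]
    · rw [Complex.add_im, Complex.ofReal_im, Complex.im_ofReal_mul, Complex.I_im, mul_one,
        zero_add, h4]
  · refine ⟨-1, Or.inr rfl, ?_⟩
    rw [neg_one_mul, Complex.exp_mul_I, ← Complex.ofReal_cos, ← Complex.ofReal_sin, Real.cos_neg,
      Real.sin_neg]
    apply Complex.ext
    · rw [Complex.add_re, Complex.ofReal_re, Complex.re_ofReal_mul, Complex.I_re, mul_zero,
        add_zero, h]
    · rw [Complex.add_im, Complex.ofReal_im, Complex.im_ofReal_mul, Complex.I_im, mul_one,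
        zero_add, h4]

/-- the composition of two mirrors is a rotation by twice the angle -/
theorem exists_rot (x y : Plane) (hx : x ≠ 0) (hy : y ≠ 0) :
    ∃ s : ℝ, (s = 1 ∨ s = -1) ∧ ∀ v : Plane,
      mirror x (mirror y v) =
        rotE (Circle.exp (2 * (s * InnerProductGeometry.angle x y))) v := by
  have hx' : ‖cE x‖ ≠ 0 := norm_ne_zero_iff.2 (cE_ne_zero hx)
  have hy' : ‖cE y‖ ≠ 0 := norm_ne_zero_iff.2 (cE_ne_zero hy)
  set u : ℂ := (cE x * conj (cE y)) / (‖cE x‖ * ‖cE y‖ : ℂ) with hu
  have hu1 : ‖u‖ = 1 := by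
    rw [hu, norm_div, norm_mul, norm_mul, RCLike.norm_conj]
    simp only [Complex.norm_real, norm_norm]
    field_simp
  have hre : u.re = Real.cos (InnerProductGeometry.angle x y) := by
    rw [InnerProductGeometry.cos_angle]
    have h1 : inner ℝ x y = ((cE x) * conj (cE y)).re := by
      rw [← cE.inner_map_map x y, Complex.inner]
      simp [mul_comm]
    have h2 : (‖cE x‖ * ‖cE y‖ : ℂ) = ((‖cE x‖ * ‖cE y‖ : ℝ) : ℂ) := by push_cast; rfl
    rw [hu, h2, Complex.div_ofReal_re, h1, LinearIsometryEquiv.norm_map,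
      LinearIsometryEquiv.norm_map]
  obtain ⟨s, hs, h⟩ := eq_exp_of_re u hu1 _ hre
  refine ⟨s, hs, fun v => ?_⟩
  apply cE.injective
  rw [cE_mirror_mirror x y v hx hy, cE_rotE, ← hu, h, ← Complex.exp_nat_mul, Circle.coe_exp]
  congr 2
  push_cast
  ring

variable {A : Fin 3 → Plane}

theorem sideVec_ne_zero (hA : AffineIndependent ℝ A) (i : Fin 3) : sideVec A i ≠ 0 := by
  unfold sideVec
  rw [sub_ne_zero]
  intro h
  have := hA.injective h
  fin_cases i <;> simp at this

/-- **two side reflections compose to an irrational rotation** -/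
theorem exists_irrational_rot (hA : AffineIndependent ℝ A) (i : Fin 3)
    (hirr : Irrational (EuclideanGeometry.angle (A (i + 1)) (A i) (A (i + 2)) / Real.pi)) :
    ∃ a : ℝ, Irrational (a / (2 * Real.pi)) ∧ ∀ v : Plane,
      mirror (sideVec A (i + 2)) (mirror (sideVec A (i + 1)) v) = rotE (Circle.exp a) v := by
  have e1 : sideVec A (i + 2) = A (i + 1) - A i := by
    unfold sideVec
    have h1 : i + 2 + 2 = i + 1 := by rw [add_assoc]; rfl
    have h2 : i + 2 + 1 = i := by rw [add_assoc]; simp
    rw [h1, h2]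
  have e2 : sideVec A (i + 1) = -(A (i + 2) - A i) := by
    unfold sideVec
    have h1 : i + 1 + 2 = i := by rw [add_assoc]; simp
    have h2 : i + 1 + 1 = i + 2 := by rw [add_assoc]; rfl
    rw [h1, h2, neg_sub]
  have hx : A (i + 1) - A i ≠ 0 := by rw [← e1]; exact sideVec_ne_zero hA _
  have hy : A (i + 2) - A i ≠ 0 := by
    have := sideVec_ne_zero hA (i + 1)
    rw [e2] at this
    exact fun h => this (by rw [h, neg_zero])
  obtain ⟨s, hs, h⟩ := exists_rot _ _ hx hy
  refine ⟨2 * (s * InnerProductGeometry.angle (A (i + 1) - A i) (A (i + 2) - A i)), ?_, ?_⟩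
  · have h1 : EuclideanGeometry.angle (A (i + 1)) (A i) (A (i + 2)) =
        InnerProductGeometry.angle (A (i + 1) - A i) (A (i + 2) - A i) := rfl
    rw [← h1]
    set α := EuclideanGeometry.angle (A (i + 1)) (A i) (A (i + 2))
    have h2 : 2 * (s * α) / (2 * Real.pi) = s * (α / Real.pi) := by
      field_simp
    rw [h2]
    rcases hs with hs | hs
    · rw [hs, one_mul]; exact hirr
    · rw [hs, neg_one_mul]; exact hirr.neg
  · intro v
    rw [e1, e2, mirror_neg]
    exact h v

end Crest.Agent.R103.ThC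
end

-- ▼ part R103/ThC3
section

set_option autoImplicit false

/-!
# Row 103, Theorem C (helper876), part 3: the Fubini part
-/

namespace Crest.Agent.R103.ThC

open MeasureTheory Metric Set Module Crest.AnalysisR.Billiard Crest.Agent.R103
open scoped ComplexConjugate

/-! ### the mirror as a linear isometry -/

/-- unit complex number giving the mirror -/
noncomputable def mirU (e : Plane) (he : e ≠ 0) : Circle :=
  ⟨(cE e) ^ 2 / ((‖cE e‖ : ℂ) ^ 2), by
    have h : ‖cE e‖ ≠ 0 := norm_ne_zero_iff.2 (cE_ne_zero he)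
    rw [Submonoid.unitSphere, Submonoid.mem_mk, Subsemigroup.mem_mk, mem_sphere_zero_iff_norm,
      norm_div, norm_pow, norm_pow, Complex.norm_real, norm_norm]
    field_simp⟩

/-- the mirror as a linear isometry equivalence -/
noncomputable def mirE (e : Plane) (he : e ≠ 0) : Plane ≃ₗᵢ[ℝ] Plane :=
  (cE.trans (Complex.conjLIE.trans (rotation (mirU e he)))).trans cE.symm

theorem mirE_apply (e : Plane) (he : e ≠ 0) (v : Plane) : mirE e he v = mirror e v := by
  apply cE.injective
  rw [cE_mirror e v he, mirE]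
  simp only [LinearIsometryEquiv.trans_apply, LinearIsometryEquiv.apply_symm_apply,
    rotation_apply, Complex.conjLIE_apply]
  rfl

/-! ### the frame map is an isometry -/

theorem cE_J (v : Plane) : cE (J v) = Complex.I * cE v := by
  have h : ∀ w : Plane, cE w = (w 0 : ℂ) + (w 1 : ℂ) * Complex.I := by
    intro w
    simp
  rw [h, h, J_zero, J_one]
  push_cast
  linear_combination (-(v 1) : ℂ) * Complex.I_sq

/-- the frame map as a linear isometry equivalence -/
noncomputable def frE (v : sphere (0 : Plane) 1) (b : Bool) : ℂ ≃ₗᵢ[ℝ] Plane :=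
  ((if b then LinearIsometryEquiv.refl ℝ ℂ else Complex.conjLIE).trans
    (rotation (toCirc v))).trans cE.symm

theorem frE_apply (v : sphere (0 : Plane) 1) (b : Bool) (x : Plane) (ζ : ℂ) :
    frE v b ζ = frm ((x, v), b) ζ := by
  apply cE.injective
  have h1 : ζ = ζ.re + ζ.im * Complex.I := (Complex.re_add_im ζ).symm
  cases b
  · simp only [frE, Bool.false_eq_true, if_false, LinearIsometryEquiv.trans_apply,
      rotation_apply, LinearIsometryEquiv.apply_symm_apply, coe_toCirc, frm, map_add, map_smul,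
      cE_J, sgn, Complex.real_smul, Complex.conjLIE_apply]
    conv_lhs => rw [h1]
    simp only [map_add, map_mul, Complex.conj_ofReal, Complex.conj_I]
    push_cast
    ring
  · simp only [frE, if_true, LinearIsometryEquiv.trans_apply, LinearIsometryEquiv.coe_refl, id,
      rotation_apply, LinearIsometryEquiv.apply_symm_apply, coe_toCirc, frm, map_add, map_smul,
      cE_J, sgn, Complex.real_smul]
    conv_lhs => rw [h1]
    push_cast
    ring

/-- the frame map, as a function of velocity and orientation -/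
noncomputable def fr (b : Bool) (v : sphere (0 : Plane) 1) (ζ : ℂ) : Plane :=
  frm ((0, v), b) ζ


theorem fr_mp (b : Bool) (v : sphere (0 : Plane) 1) :
    MeasurePreserving (fr b v) volume volume := by
  have h : fr b v = frE v b := by
    funext ζ
    exact (frE_apply v b 0 ζ).symm
  rw [h]
  exact (frE v b).measurePreserving

theorem continuous_J : Continuous J := by
  unfold J
  fun_prop

theorem fr_continuous (b : Bool) :
    Continuous (fun q : ℂ × sphere (0 : Plane) 1 => fr b q.2 q.1) := by
  unfold fr frm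
  have h1 : Continuous (fun q : ℂ × sphere (0 : Plane) 1 => (q.2 : Plane)) :=
    continuous_subtype_val.comp continuous_snd
  have h2 : Continuous (fun q : ℂ × sphere (0 : Plane) 1 => J (q.2 : Plane)) :=
    continuous_J.comp h1
  have h3 : Continuous (fun q : ℂ × sphere (0 : Plane) 1 => q.1.re) :=
    Complex.continuous_re.comp continuous_fst
  have h4 : Continuous (fun q : ℂ × sphere (0 : Plane) 1 => q.1.im) :=
    Complex.continuous_im.comp continuous_fst
  have h5 : Continuous (fun q : ℂ × sphere (0 : Plane) 1 => sgn b * q.1.im) :=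
    continuous_const.mul h4
  exact (h3.smul h1).add (h5.smul h2)

/-! ### Fubini tools -/

theorem ae_bool {α : Type*} [MeasurableSpace α] {μ : Measure α} [SFinite μ]
    {P : α × Bool → Prop} (h : ∀ᵐ z ∂(μ.prod Measure.count), P z) (b : Bool) :
    ∀ᵐ p ∂μ, P (p, b) := by
  have h1 := Measure.ae_ae_of_ae_prod h
  filter_upwards [h1] with p hp
  exact (Measure.ae_count_iff.1 hp) b

/-- from `∀ ζ, ∀ᵐ (x, v)` to `∀ᵐ v, ∀ᵐ x, ∀ᵐ ζ` -/
theorem ae_swap3 {X V Z : Type*} [MeasurableSpace X] [MeasurableSpace V] [MeasurableSpace Z]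
    {μX : Measure X} {μV : Measure V} {μZ : Measure Z} [SFinite μX] [SFinite μV] [SFinite μZ]
    {P : Z → X → V → Prop} (hm : MeasurableSet {q : Z × (X × V) | P q.1 q.2.1 q.2.2})
    (h : ∀ ζ, ∀ᵐ p ∂(μX.prod μV), P ζ p.1 p.2) :
    ∀ᵐ v ∂μV, ∀ᵐ x ∂μX, ∀ᵐ ζ ∂μZ, P ζ x v := by
  have h1 : ∀ᵐ ζ ∂μZ, ∀ᵐ p ∂(μX.prod μV), P ζ p.1 p.2 := Filter.Eventually.of_forall h
  have h2 : ∀ᵐ p ∂(μX.prod μV), ∀ᵐ ζ ∂μZ, P ζ p.1 p.2 :=
    (Measure.ae_ae_comm (p := fun ζ (p : X × V) => P ζ p.1 p.2) hm).1 h1
  have h3 : ∀ᵐ q ∂(μV.prod μX), ∀ᵐ ζ ∂μZ, P ζ q.2 q.1 := by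
    have h4 := (Measure.measurePreserving_swap (μ := μV) (ν := μX)).quasiMeasurePreserving.ae h2
    exact h4
  exact Measure.ae_ae_of_ae_prod h3

end Crest.Agent.R103.ThC
end

-- ▼ part R103/ThC4
section

set_option autoImplicit false

/-!
# Row 103, Theorem C (helper876), part 4: the core
-/

namespace Crest.Agent.R103.ThC

open MeasureTheory Metric Set Module Crest.AnalysisR.Billiard Crest.Agent.R103
open scoped ComplexConjugate

/-- arc length on the unit sphere -/
noncomputable abbrev sg1 : Measure (sphere (0 : Plane) 1) := (volume : Measure Plane).toSphere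

instance sfinite_prod (D : Set Plane) :
    SFinite ((volume.restrict D : Measure Plane).prod sg1) := Measure.prod.instSFinite

theorem meas_fr (b : Bool) :
    Measurable (fun q : ℂ × (Plane × sphere (0 : Plane) 1) => fr b q.2.2 q.1) := by
  have h : Continuous (fun q : ℂ × (Plane × sphere (0 : Plane) 1) => fr b q.2.2 q.1) :=
    (fr_continuous b).comp (continuous_fst.prodMk (continuous_snd.comp continuous_snd))
  exact h.measurable

/-- step 1: translation invariance gives independence of the position -/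
theorem step1 {D : Set Plane} (hD : MeasurableSet D) {f : Phase × Bool → ℂ} (hf : Measurable f)
    (b : Bool)
    (H1 : ∀ ζ, ∀ᵐ p ∂((volume.restrict D).prod sg1),
      p.1 + fr b p.2 ζ ∈ D → f ((p.1 + fr b p.2 ζ, p.2), b) = f (p, b)) :
    ∀ᵐ v ∂sg1, ∀ᵐ x ∂(volume.restrict D), ∀ᵐ y ∂(volume.restrict D),
      f ((y, v), b) = f ((x, v), b) := by
  have hm1 : Measurable (fun q : ℂ × (Plane × sphere (0 : Plane) 1) =>
      q.2.1 + fr b q.2.2 q.1) := (measurable_fst.comp measurable_snd).add (meas_fr b)
  have hm2 : Measurable (fun q : ℂ × (Plane × sphere (0 : Plane) 1) =>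
      f ((q.2.1 + fr b q.2.2 q.1, q.2.2), b)) :=
    hf.comp ((hm1.prodMk (measurable_snd.comp measurable_snd)).prodMk measurable_const)
  have hm3 : Measurable (fun q : ℂ × (Plane × sphere (0 : Plane) 1) => f (q.2, b)) :=
    hf.comp (measurable_snd.prodMk measurable_const)
  have hms : MeasurableSet {q : ℂ × (Plane × sphere (0 : Plane) 1) |
      q.2.1 + fr b q.2.2 q.1 ∈ D → f ((q.2.1 + fr b q.2.2 q.1, q.2.2), b) = f ((q.2.1, q.2.2), b)} := by
    have e : {q : ℂ × (Plane × sphere (0 : Plane) 1) |
      q.2.1 + fr b q.2.2 q.1 ∈ D → f ((q.2.1 + fr b q.2.2 q.1, q.2.2), b) = f ((q.2.1, q.2.2), b)} =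
      ({q | q.2.1 + fr b q.2.2 q.1 ∈ D})ᶜ ∪
        {q | f ((q.2.1 + fr b q.2.2 q.1, q.2.2), b) = f (q.2, b)} := by
      ext q
      simp only [Set.mem_ofPred_eq, Set.mem_union, Set.mem_compl_iff, Prod.mk.eta]
      tauto
    rw [e]
    exact (hm1 hD).compl.union (measurableSet_eq_fun hm2 hm3)
  have h1 := ae_swap3 (μX := volume.restrict D) (μV := sg1) (μZ := (volume : Measure ℂ))
    (P := fun ζ x v => x + fr b v ζ ∈ D → f ((x + fr b v ζ, v), b) = f ((x, v), b)) hms H1
  filter_upwards [h1] with v hv
  filter_upwards [hv] with x hx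
  have hmp : MeasurePreserving (fun ζ : ℂ => x + fr b v ζ) volume volume :=
    (measurePreserving_add_left volume x).comp (fr_mp b v)
  have hE : MeasurableSet {y : Plane | y ∈ D ∧ f ((y, v), b) ≠ f ((x, v), b)} := by
    have h2 : Measurable (fun y : Plane => f ((y, v), b)) :=
      hf.comp ((measurable_id.prodMk measurable_const).prodMk measurable_const)
    exact hD.inter (measurableSet_eq_fun h2 measurable_const).compl
  rw [ae_restrict_iff' hD, ae_iff]
  have h3 : {y : Plane | ¬(y ∈ D → f ((y, v), b) = f ((x, v), b))} =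
      {y : Plane | y ∈ D ∧ f ((y, v), b) ≠ f ((x, v), b)} := by
    ext y; simp
  rw [h3, ← hmp.measure_preimage hE.nullMeasurableSet]
  rw [ae_iff] at hx
  refine measure_mono_null ?_ hx
  intro ζ hζ
  simp only [Set.mem_preimage, Set.mem_ofPred_eq] at hζ ⊢
  push Not
  exact hζ

/-- the average over the positions -/
noncomputable def avg (D : Set Plane) (f : Phase × Bool → ℂ) (b : Bool)
    (v : sphere (0 : Plane) 1) : ℂ :=
  ((volume.real D)⁻¹ : ℝ) • ∫ y in D, f ((y, v), b)

theorem avg_meas {D : Set Plane} {f : Phase × Bool → ℂ} (hf : Measurable f) (b : Bool) :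
    AEStronglyMeasurable (avg D f b) sg1 := by
  have h1 : StronglyMeasurable (fun q : sphere (0 : Plane) 1 × Plane => f ((q.2, q.1), b)) :=
    (hf.comp ((measurable_snd.prodMk measurable_fst).prodMk measurable_const)).stronglyMeasurable
  have h2 : StronglyMeasurable (fun v : sphere (0 : Plane) 1 =>
      ∫ y, f ((y, v), b) ∂(volume.restrict D)) := h1.integral_prod_right'
  exact (h2.const_smul ((volume.real D)⁻¹ : ℝ)).aestronglyMeasurable

theorem step1' {D : Set Plane} (hD : MeasurableSet D) (hD0 : volume D ≠ 0) (hDt : volume D ≠ ⊤)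
    {f : Phase × Bool → ℂ} (hf : Measurable f) (b : Bool)
    (H1 : ∀ ζ, ∀ᵐ p ∂((volume.restrict D).prod sg1),
      p.1 + fr b p.2 ζ ∈ D → f ((p.1 + fr b p.2 ζ, p.2), b) = f (p, b)) :
    ∀ᵐ v ∂sg1, ∀ᵐ x ∂(volume.restrict D), f ((x, v), b) = avg D f b v := by
  filter_upwards [step1 hD hf b H1] with v hv
  filter_upwards [hv] with x hx
  unfold avg
  rw [integral_congr_ae hx, integral_const, measureReal_restrict_apply_univ, smul_smul,
    inv_mul_cancel₀, one_smul]
  exact (ENNReal.toReal_ne_zero.2 ⟨hD0, hDt⟩)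

/-- step 2: crossing one side -/
theorem step2 {A : Fin 3 → Plane} {D U : Set Plane} (hUD : U ⊆ D)
    (hU : MeasurableSet U) (hU0 : volume U ≠ 0) {f : Phase × Bool → ℂ} (hf : Measurable f)
    (b : Bool) (i : Fin 3) (S : sphere (0 : Plane) 1 → sphere (0 : Plane) 1)
    (hS : MeasurePreserving S sg1 sg1) (hrefl : MeasurePreserving (refl A i) volume volume)
    (F : Bool → sphere (0 : Plane) 1 → ℂ)
    (hF : ∀ b, ∀ᵐ v ∂sg1, ∀ᵐ x ∂(volume.restrict D), f ((x, v), b) = F b v)
    (H2 : ∀ ζ, ∀ᵐ p ∂((volume.restrict D).prod sg1), p.1 ∈ U →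
      refl A i (p.1 + fr b p.2 ζ) ∈ U →
        f ((refl A i (p.1 + fr b p.2 ζ), S p.2), !b) = f (p, b)) :
    ∀ᵐ v ∂sg1, F (!b) (S v) = F b v := by
  have hm1 : Measurable (fun q : ℂ × (Plane × sphere (0 : Plane) 1) =>
      refl A i (q.2.1 + fr b q.2.2 q.1)) :=
    hrefl.measurable.comp ((measurable_fst.comp measurable_snd).add (meas_fr b))
  have hm2 : Measurable (fun q : ℂ × (Plane × sphere (0 : Plane) 1) =>
      f ((refl A i (q.2.1 + fr b q.2.2 q.1), S q.2.2), !b)) :=
    hf.comp ((hm1.prodMk (hS.measurable.comp (measurable_snd.comp measurable_snd))).prodMk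
      measurable_const)
  have hm3 : Measurable (fun q : ℂ × (Plane × sphere (0 : Plane) 1) => f (q.2, b)) :=
    hf.comp (measurable_snd.prodMk measurable_const)
  have hm4 : Measurable (fun q : ℂ × (Plane × sphere (0 : Plane) 1) => q.2.1) :=
    measurable_fst.comp measurable_snd
  have hms : MeasurableSet {q : ℂ × (Plane × sphere (0 : Plane) 1) |
      q.2.1 ∈ U → refl A i (q.2.1 + fr b q.2.2 q.1) ∈ U →
        f ((refl A i (q.2.1 + fr b q.2.2 q.1), S q.2.2), !b) = f ((q.2.1, q.2.2), b)} := by
    have e : {q : ℂ × (Plane × sphere (0 : Plane) 1) |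
      q.2.1 ∈ U → refl A i (q.2.1 + fr b q.2.2 q.1) ∈ U →
        f ((refl A i (q.2.1 + fr b q.2.2 q.1), S q.2.2), !b) = f ((q.2.1, q.2.2), b)} =
      (({q | q.2.1 ∈ U})ᶜ ∪ ({q | refl A i (q.2.1 + fr b q.2.2 q.1) ∈ U})ᶜ) ∪
        {q | f ((refl A i (q.2.1 + fr b q.2.2 q.1), S q.2.2), !b) = f (q.2, b)} := by
      ext q
      simp only [Set.mem_ofPred_eq, Set.mem_union, Set.mem_compl_iff, Prod.mk.eta]
      tauto
    rw [e]
    exact ((hm4 hU).compl.union (hm1 hU).compl).union (measurableSet_eq_fun hm2 hm3)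
  have h1 := ae_swap3 (μX := volume.restrict D) (μV := sg1) (μZ := (volume : Measure ℂ))
    (P := fun ζ x v => x ∈ U → refl A i (x + fr b v ζ) ∈ U →
      f ((refl A i (x + fr b v ζ), S v), !b) = f ((x, v), b)) hms H2
  have h2 := hS.quasiMeasurePreserving.ae (hF (!b))
  have hUr : (volume.restrict D) U ≠ 0 := by
    rw [Measure.restrict_apply hU, Set.inter_eq_self_of_subset_left hUD]
    exact hU0
  have hfreq : ∃ᵐ x ∂(volume.restrict D), x ∈ U := by
    rw [frequently_ae_mem_iff]
    exact hUr
  filter_upwards [h1, h2, hF b] with v hv1 hv2 hv3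
  obtain ⟨x, hxU, hx1, hx2⟩ := (hfreq.and_eventually (hv1.and hv3)).exists
  -- almost every `y ∈ U`
  have hmp : MeasurePreserving (fun ζ : ℂ => refl A i (x + fr b v ζ)) volume volume :=
    hrefl.comp ((measurePreserving_add_left volume x).comp (fr_mp b v))
  have h3 : ∀ᵐ y ∂(volume : Measure Plane), y ∈ U → f ((y, S v), !b) = f ((x, v), b) := by
    have hE : MeasurableSet {y : Plane | y ∈ U ∧ f ((y, S v), !b) ≠ f ((x, v), b)} := by
      have h2 : Measurable (fun y : Plane => f ((y, S v), !b)) :=
        hf.comp ((measurable_id.prodMk measurable_const).prodMk measurable_const)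
      exact hU.inter (measurableSet_eq_fun h2 measurable_const).compl
    rw [ae_iff]
    have h3 : {y : Plane | ¬(y ∈ U → f ((y, S v), !b) = f ((x, v), b))} =
        {y : Plane | y ∈ U ∧ f ((y, S v), !b) ≠ f ((x, v), b)} := by
      ext y; simp
    rw [h3, ← hmp.measure_preimage hE.nullMeasurableSet]
    have hx1' := hx1
    rw [ae_iff] at hx1'
    refine measure_mono_null ?_ hx1'
    intro ζ hζ
    simp only [Set.mem_preimage, Set.mem_ofPred_eq] at hζ ⊢
    push Not
    exact ⟨hxU, hζ⟩
  have h4 := ae_restrict_of_ae (s := D) h3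
  obtain ⟨y, hyU, hy1, hy2⟩ := (hfreq.and_eventually (h4.and hv2)).exists
  rw [← hy2, hy1 hyU, hx2]

/-- **the core of Theorem C** -/
theorem core {A : Fin 3 → Plane} (hA : AffineIndependent ℝ A)
    (hirr : ∃ i : Fin 3,
      Irrational (EuclideanGeometry.angle (A (i + 1)) (A i) (A (i + 2)) / Real.pi))
    {D : Set Plane} (hD : MeasurableSet D) (hD0 : volume D ≠ 0) (hDt : volume D ≠ ⊤)
    {f : Phase × Bool → ℂ} (hf : Measurable f)
    (hrefl : ∀ i, MeasurePreserving (refl A i) volume volume)
    (H1 : ∀ ζ, ∀ᵐ z ∂(((volume.restrict D).prod sg1).prod Measure.count),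
      z.1.1 + frm z ζ ∈ D → f ((z.1.1 + frm z ζ, z.1.2), z.2) = f z)
    (H2 : ∀ i : Fin 3, ∃ U ⊆ D, MeasurableSet U ∧ volume U ≠ 0 ∧
      ∀ ζ, ∀ᵐ z ∂(((volume.restrict D).prod sg1).prod Measure.count), z.1.1 ∈ U →
        refl A i (z.1.1 + frm z ζ) ∈ U →
          f ((refl A i (z.1.1 + frm z ζ),
            sphMap (mirE (sideVec A i) (sideVec_ne_zero hA i)) z.1.2), !z.2) = f z) :
    ∃ c : ℂ, ∀ᵐ z ∂(((volume.restrict D).prod sg1).prod Measure.count), f z = c := by
  set S : Fin 3 → sphere (0 : Plane) 1 → sphere (0 : Plane) 1 :=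
    fun i => sphMap (mirE (sideVec A i) (sideVec_ne_zero hA i)) with hS
  have hSmp : ∀ i, MeasurePreserving (S i) sg1 sg1 := fun i => measurePreserving_sphMap _
  have hF : ∀ b, ∀ᵐ v ∂sg1, ∀ᵐ x ∂(volume.restrict D), f ((x, v), b) = avg D f b v := by
    intro b
    refine step1' hD hD0 hDt hf b fun ζ => ?_
    exact ae_bool (H1 ζ) b
  have hcross : ∀ (i : Fin 3) (b : Bool), ∀ᵐ v ∂sg1, avg D f (!b) (S i v) = avg D f b v := by
    intro i b
    obtain ⟨U, hUD, hU, hU0, h⟩ := H2 i
    refine step2 (A := A) hUD hU hU0 hf b i (S i) (hSmp i) (hrefl i) (avg D f) hF fun ζ => ?_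
    exact ae_bool (h ζ) b
  obtain ⟨i, hi⟩ := hirr
  obtain ⟨a, ha, hrot⟩ := exists_irrational_rot hA i hi
  have hSS : ∀ v, S (i + 2) (S (i + 1) v) = sphMap (rotE (Circle.exp a)) v := by
    intro v
    apply Subtype.ext
    change mirE _ _ (mirE _ _ (v : Plane)) = rotE (Circle.exp a) (v : Plane)
    rw [mirE_apply, mirE_apply, hrot]
  have hconst : ∀ b, ∃ c, avg D f b =ᵐ[sg1] fun _ => c := by
    intro b
    refine const_of_rot ha (avg D f b) (avg_meas hf b) ?_
    have h1 := hcross (i + 1) b
    have h2 := (hSmp (i + 1)).quasiMeasurePreserving.ae (hcross (i + 2) (!b))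
    filter_upwards [h1, h2] with v hv1 hv2
    rw [Bool.not_not] at hv2
    rw [← hSS, hv2, hv1]
  choose c hc using hconst
  have hne : (sg1 : Measure (sphere (0 : Plane) 1)) ≠ 0 := Measure.toSphere_ne_zero _
  have : (ae (sg1 : Measure (sphere (0 : Plane) 1))).NeBot := ae_neBot.2 hne
  have hcc : ∀ b, c b = c true := by
    have h1 := hcross i true
    have h2 := (hSmp i).quasiMeasurePreserving.ae (hc false)
    obtain ⟨v, hv1, hv2, hv3⟩ := (h1.and (h2.and (hc true))).exists
    intro b
    cases b
    · calc c false = avg D f false (S i v) := hv2.symm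
        _ = avg D f true v := hv1
        _ = c true := hv3
    · rfl
  refine ⟨c true, ?_⟩
  have hms : MeasurableSet {z : Phase × Bool | f z = c true} :=
    measurableSet_eq_fun hf measurable_const
  rw [Measure.ae_prod_iff_ae_ae hms]
  have hall : ∀ b, ∀ᵐ p ∂((volume.restrict D).prod sg1), f (p, b) = c true := by
    intro b
    have hms2 : MeasurableSet {q : sphere (0 : Plane) 1 × Plane | f ((q.2, q.1), b) = c true} :=
      measurableSet_eq_fun
        (hf.comp ((measurable_snd.prodMk measurable_fst).prodMk measurable_const))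
        measurable_const
    have h1 : ∀ᵐ q ∂(sg1.prod (volume.restrict D)), f ((q.2, q.1), b) = c true := by
      rw [Measure.ae_prod_iff_ae_ae hms2]
      filter_upwards [hF b, hc b] with v hv1 hv2
      filter_upwards [hv1] with x hx
      rw [hx, hv2, hcc b]
    exact (Measure.measurePreserving_swap (μ := volume.restrict D)
      (ν := sg1)).quasiMeasurePreserving.ae h1
  have h2 : ∀ᵐ p ∂((volume.restrict D).prod sg1), ∀ b, f (p, b) = c true := by
    rw [ae_all_iff]
    exact hall
  filter_upwards [h2] with p hp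
  exact Measure.ae_count_iff.2 hp

end Crest.Agent.R103.ThC
end

-- ▼ part R103/Const

set_option autoImplicit false

/-!
# Row 103, H15: functions invariant under all translations are constant (helper876)
-/

namespace Crest.Agent.R103

open MeasureTheory Metric Set Module Crest.AnalysisR.Billiard Crest.Agent.R103.ThC

namespace ThC

theorem norm_frm (z : Phase × Bool) (ζ : ℂ) : ‖frm z ζ‖ = ‖ζ‖ := by
  obtain ⟨⟨x, v⟩, b⟩ := z
  rw [← frE_apply v b x ζ, LinearIsometryEquiv.norm_map]

/-- almost every frame lies over the open triangle -/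
theorem ae_pos (hAe : StAe) {A : Fin 3 → Plane} (hA : AffineIndependent ℝ A) :
    ∀ᵐ z ∂(μM A), ∀ i, 0 < cd A i z.1.1 := by
  have h1 := (hAe A hA).1
  have h2 : ∀ᵐ z ∂(μM A), OK A z.1 ∧ ∀ i, 0 < cd A i z.1.1 :=
    Measure.quasiMeasurePreserving_fst.ae h1
  filter_upwards [h2] with z hz
  exact hz.2

end ThC

/-- H15 -/
theorem const_ (h1 : StG1) (h2 : StG2) (hTr : StTr) (hAe : StAe) (_ : StRot) : StConst := by
  intro A hA hirr f hf hinv
  obtain ⟨-, hsum, -, hlin, hvert, -, -, hcont, -, hint, -⟩ := h1 A hA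
  set D : Set Plane := interior (convexHull ℝ (Set.range A)) with hD
  have hDmem : ∀ x, x ∈ D ↔ ∀ i, 0 < cd A i x := by
    intro x; rw [hint]; rfl
  have hDopen : IsOpen D := isOpen_interior
  have hμ : μM A = ((volume.restrict D).prod sg1).prod Measure.count := rfl
  have hpos := ae_pos hAe hA
  -- local crossing data
  have hloc : ∀ i : Fin 3, ∃ U ⊆ D, IsOpen U ∧ U.Nonempty ∧
      ∀ (z : Phase × Bool) (ζ : ℂ), z.1.1 ∈ U → refl A i (z.1.1 + frm z ζ) ∈ U →
        (∀ j, 0 < cd A j z.1.1) ∧ cd A i (z.1.1 + frm z ζ) < 0 ∧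
        (∀ j, j ≠ i → ∀ y, dist z.1.1 y ≤ ‖ζ‖ → 0 < cd A j y ∧ 0 < cd A j (refl A i y)) := by
    intro i
    obtain ⟨hrr, -, hdist, -, -, -, hcr, -, hfix, -, hrc, -, -⟩ := h2 A hA i
    -- the midpoint of side `i`
    set m : Plane := A (i + 1) + (1 / 2 : ℝ) • (A (i + 2) - A (i + 1)) with hm
    have hldv : ∀ j k l, ld A j (A k - A l) = cd A j (A k) - cd A j (A l) := by
      intro j k l
      have := hlin j (A l) 1 (A k - A l)
      rw [one_smul, add_sub_cancel, one_mul] at this
      linarith
    have hcdm : ∀ j, cd A j m = (1 / 2 : ℝ) * cd A j (A (i + 1)) + (1 / 2) * cd A j (A (i + 2)) := by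
      intro j
      rw [hm, hlin, hldv]; ring
    have hi1 : i + 1 ≠ i := by fin_cases i <;> simp
    have hi2 : i + 2 ≠ i := by fin_cases i <;> simp
    have h12 : i + 1 ≠ i + 2 := by fin_cases i <;> simp
    have hcases : ∀ j : Fin 3, j ≠ i → j = i + 1 ∨ j = i + 2 := by
      intro j hj
      fin_cases i <;> fin_cases j <;> simp_all
    have hcdmi : cd A i m = 0 := by
      rw [hcdm, hvert, hvert, if_neg hi1.symm, if_neg hi2.symm]; ring
    have hcdmj : ∀ j, j ≠ i → cd A j m = 1 / 2 := by
      intro j hj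
      rcases hcases j hj with rfl | rfl
      · rw [hcdm, hvert, hvert, if_pos rfl, if_neg h12]; ring
      · rw [hcdm, hvert, hvert, if_pos rfl, if_neg h12.symm]; ring
    have hreflm : refl A i m = m := hfix m hcdmi
    -- a small ball
    have hopen : IsOpen {y : Plane | ∀ j, j ≠ i → 0 < cd A j y ∧ 0 < cd A j (refl A i y)} := by
      have e : {y : Plane | ∀ j, j ≠ i → 0 < cd A j y ∧ 0 < cd A j (refl A i y)} =
          ⋂ j : Fin 3, {y | j ≠ i → 0 < cd A j y ∧ 0 < cd A j (refl A i y)} := by
        ext y; simp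
      rw [e]
      refine isOpen_iInter_of_finite fun j => ?_
      by_cases hj : j = i
      · simp [hj]
      · have e2 : {y | j ≠ i → 0 < cd A j y ∧ 0 < cd A j (refl A i y)} =
            {y | 0 < cd A j y} ∩ {y | 0 < cd A j (refl A i y)} := by
          ext y; simp [hj]
        rw [e2]
        exact (isOpen_lt continuous_const (hcont j)).inter
          (isOpen_lt continuous_const ((hcont j).comp hrc))
    obtain ⟨R, hR, hball⟩ := Metric.isOpen_iff.1 hopen m (by
      intro j hj
      rw [hreflm, hcdmj j hj]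
      norm_num)
    set r := R / 3 with hr
    have hr0 : 0 < r := by positivity
    refine ⟨ball m r ∩ D, Set.inter_subset_right, isOpen_ball.inter hDopen, ?_, ?_⟩
    · -- a point of the triangle near the midpoint
      have hc : Continuous (fun s : ℝ => m + s • (A i - m)) := by fun_prop
      have h0 : (fun s : ℝ => m + s • (A i - m)) 0 = m := by simp
      have hnhds : ∀ᶠ s : ℝ in nhds 0, (m + s • (A i - m)) ∈ ball m r := by
        have := hc.continuousAt (x := 0)
        apply this
        simp only [zero_smul, add_zero]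
        exact isOpen_ball.mem_nhds (mem_ball_self hr0)
      have hnhds2 : ∀ᶠ s : ℝ in nhdsWithin 0 (Set.Ioi 0), (m + s • (A i - m)) ∈ ball m r ∧
          s ∈ Set.Ioo (0 : ℝ) 1 := by
        have hn1 : ∀ᶠ s : ℝ in nhdsWithin 0 (Set.Ioi 0), (m + s • (A i - m)) ∈ ball m r :=
          nhdsWithin_le_nhds hnhds
        have hn2 : ∀ᶠ s : ℝ in nhdsWithin 0 (Set.Ioi 0), s ∈ Set.Ioo (0 : ℝ) 1 :=
          Ioo_mem_nhdsGT one_pos
        exact hn1.and hn2
      obtain ⟨s, hs1, hs2⟩ := hnhds2.exists
      refine ⟨_, hs1, (hDmem _).2 fun j => ?_⟩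
      have hlj : ld A j (A i - m) = cd A j (A i) - cd A j m := by
        have := hlin j m 1 (A i - m)
        rw [one_smul, add_sub_cancel, one_mul] at this
        linarith
      rw [hlin, hlj, hvert]
      by_cases hj : j = i
      · subst hj
        rw [if_pos rfl, hcdmi]
        have := hs2.1
        linarith
      · rw [if_neg hj, hcdmj j hj]
        have := hs2.2
        nlinarith
    · rintro z ζ ⟨hz1, hz2⟩ ⟨hw1, hw2⟩
      have hnear : dist (z.1.1 + frm z ζ) m < r := by
        have h3 := hdist (z.1.1 + frm z ζ) m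
        rw [hreflm] at h3
        rw [← h3]
        exact hw1
      have hζ : ‖ζ‖ < 2 * r := by
        rw [← norm_frm z ζ]
        have h4 : ‖frm z ζ‖ = dist (z.1.1 + frm z ζ) z.1.1 := by
          rw [dist_eq_norm, add_sub_cancel_left]
        rw [h4]
        have h5 := dist_triangle_right (z.1.1 + frm z ζ) z.1.1 m
        have h6 : dist z.1.1 m < r := hz1
        linarith
      refine ⟨(hDmem _).1 hz2, ?_, ?_⟩
      · have h3 := (hDmem _).1 hw2 i
        rw [hcr] at h3
        linarith
      · intro j hj y hy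
        have h7 : y ∈ ball m R := by
          have h8 := dist_triangle_left y m z.1.1
          have h6 : dist z.1.1 m < r := hz1
          rw [mem_ball]
          have h9 : R = 3 * r := by rw [hr]; ring
          linarith
        exact hball h7 j hj
  -- finite positive volume
  have hDne : volume D ≠ 0 := by
    obtain ⟨U, hUD, hUo, hUne, -⟩ := hloc 0
    exact (hDopen.measure_pos volume (hUne.mono hUD)).ne'
  have hDt : volume D ≠ ⊤ := by
    have hcomp : IsCompact (convexHull ℝ (Set.range A)) :=
      (Set.finite_range A).isCompact_convexHull ℝ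
    exact (measure_mono interior_subset |>.trans_lt hcomp.measure_lt_top).ne
  have hrefl : ∀ i, MeasurePreserving (refl A i) volume volume := fun i =>
    (h2 A hA i).2.2.2.2.2.2.2.2.2.2.2.2
  have H1 : ∀ ζ, ∀ᵐ z ∂(μM A),
      z.1.1 + frm z ζ ∈ D → f ((z.1.1 + frm z ζ, z.1.2), z.2) = f z := by
    intro ζ
    filter_upwards [hpos, (hTr A hA ζ).1, hinv ζ] with z hz1 hz2 hz3 hz4
    rw [hz2 hz1 ((hDmem _).1 hz4)] at hz3
    exact hz3
  have H2 : ∀ i : Fin 3, ∃ U ⊆ D, MeasurableSet U ∧ volume U ≠ 0 ∧
      ∀ ζ, ∀ᵐ z ∂(μM A), z.1.1 ∈ U →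
        refl A i (z.1.1 + frm z ζ) ∈ U →
          f ((refl A i (z.1.1 + frm z ζ),
            sphMap (mirE (sideVec A i) (sideVec_ne_zero hA i)) z.1.2), !z.2) = f z := by
    intro i
    obtain ⟨U, hUD, hUo, hUne, hU⟩ := hloc i
    refine ⟨U, hUD, hUo.measurableSet, (hUo.measure_pos volume hUne).ne', fun ζ => ?_⟩
    filter_upwards [(hTr A hA ζ).2.1 i, hinv ζ] with z hz2 hz3 hz4 hz5
    obtain ⟨ha, hb, hc⟩ := hU z ζ hz4 hz5
    obtain ⟨e1, e2, e3⟩ := hz2 ha hb hc
    have e : tr (flowM A) rotF ζ z = ((refl A i (z.1.1 + frm z ζ),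
        sphMap (mirE (sideVec A i) (sideVec_ne_zero hA i)) z.1.2), !z.2) := by
      refine Prod.ext (Prod.ext e1 (Subtype.ext ?_)) e3
      rw [e2]
      exact (mirE_apply _ _ _).symm
    rw [← e]
    exact hz3
  exact core hA hirr hDopen.measurableSet hDne hDt hf hrefl H1 H2

end Crest.Agent.R103
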