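import Crest.Prelude.Def_Billiard

/-!
# R103 (helper259): distance to the vertices and its volume bound (G10)
-/

set_option autoImplicit false
set_option linter.unusedSectionVars false

open MeasureTheory Filter Topology Set Metric
open Crest.AnalysisR.Billiard

noncomputable section

namespace Crest.Agent.R103.Vol

variable (A : Fin 3 → Plane)












lemma isBounded_interior : Bornology.IsBounded (interior (convexHull ℝ (range A))) :=
  (isBounded_convexHull.2 (finite_range A).isBounded).subset interior_subset

instance instFiniteRestrict : IsFiniteMeasure
    ((volume : Measure Plane).restrict (interior (convexHull ℝ (Set.range A)))) :=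
  ⟨by
    rw [Measure.restrict_apply_univ]
    exact (isBounded_interior A).measure_lt_top⟩

instance instFinitePhase : IsFiniteMeasure (phaseMeasure A) := by
  unfold phaseMeasure
  infer_instance








end Crest.Agent.R103.Vol
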