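import Crest.Agent.R103.Iface
import Mathlib
import Crest.Prelude.Def_Billiard
import Crest.Agent.R103.IfaceG
import Crest.Agent.R103.Br1
import Crest.Agent.R103.Vol

-- ▼ part R103/Abs
section

/-!
# R103: abstract conclusion (AB)
-/

open MeasureTheory Filter Topology

noncomputable section

namespace Crest.Agent.R103

namespace PlaneSys

theorem abs_ : StThmA → StProd → StThmB → StAbs := by
  intro hA hP hB Ω _ _ _ _ _ μ _ S hc s hs hinv
  obtain ⟨S2, hφ, hT⟩ := hP Ω μ S
  apply hB Ω μ S hc s hs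
  intro ζ
  set u : Lp ℂ 2 (μ.prod μ) := indicatorConstLp 2 hs (measure_ne_top _ _) (1 : ℂ) with hu_def
  have hu : u =ᵐ[μ.prod μ] s.indicator (fun _ => (1 : ℂ)) := indicatorConstLp_coeFn
  have hb : ∀ᵐ z ∂(μ.prod μ), ‖u z‖ ≤ 1 := by
    filter_upwards [hu] with z hz
    rw [hz]
    by_cases h : z ∈ s <;> simp [h]
  have hmem : ∀ z w : Ω × Ω, s.indicator (fun _ => (1 : ℂ)) z = s.indicator (fun _ => (1 : ℂ)) w
      ↔ (z ∈ s ↔ w ∈ s) := by
    intro z w
    by_cases h : z ∈ s <;> by_cases h' : w ∈ s <;> simp [h, h']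
  have hU : ∀ t, S2.Uφ t u = u := by
    intro t
    apply Lp.ext
    have h1 := S2.Uφ_coe t u
    have h2 : ∀ᵐ z ∂(μ.prod μ), u (S2.φ t z) = s.indicator (fun _ => (1 : ℂ)) (S2.φ t z) :=
      (S2.φ_mp t).quasiMeasurePreserving.ae hu
    have h3 : ∀ᵐ z ∂(μ.prod μ), ((S2.φ t z ∈ s) ↔ z ∈ s) := by
      have := hinv t
      filter_upwards [Filter.eventuallyEq_set.1 this] with z hz
      rw [hφ]
      simpa using hz
    filter_upwards [h1, h2, h3, hu] with z e1 e2 e3 e4
    rw [e1, e2, e4, hmem]
    exact e3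
  have key := hA (Ω × Ω) (μ.prod μ) S2 u 1 hb hU ζ
  have h1 := S2.U_coe ζ u
  rw [key] at h1
  have h2 : ∀ᵐ z ∂(μ.prod μ), u (S2.T ζ z) = s.indicator (fun _ => (1 : ℂ)) (S2.T ζ z) :=
    (S2.T_mp ζ).quasiMeasurePreserving.ae hu
  apply Filter.eventuallyEq_set.2
  filter_upwards [h1, h2, hu] with z e1 e2 e3
  have e : s.indicator (fun _ => (1 : ℂ)) (S2.T ζ z) = s.indicator (fun _ => (1 : ℂ)) z := by
    rw [← e2, ← e1, e3]
  rw [hmem, hT] at e
  simpa using e

end PlaneSys

end Crest.Agent.R103
end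
end

-- ▼ part R103/Prod
section

/-!
# R103, A9: the product of a plane system with itself
-/

open MeasureTheory Filter Topology

noncomputable section

namespace Crest.Agent.R103

namespace PlaneSys

variable {Ω : Type*} [TopologicalSpace Ω] [MeasurableSpace Ω] {μ : Measure Ω}

/-- the product of a plane system with itself -/
def prodSys [IsFiniteMeasure μ] (S : PlaneSys Ω μ) : PlaneSys (Ω × Ω) (μ.prod μ) where
  φ t z := (S.φ t z.1, S.φ t z.2)
  R a z := (S.R a z.1, S.R a z.2)
  ρ z := min (S.ρ z.1) (S.ρ z.2)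
  C₀ := S.C₀
  Cv := 2 * (μ Set.univ).toReal * S.Cv
  one_le_C₀ := S.one_le_C₀
  Cv_nonneg := mul_nonneg (mul_nonneg zero_le_two ENNReal.toReal_nonneg) S.Cv_nonneg
  φ_meas := by
    apply Measurable.prodMk
    · exact S.φ_meas.comp (measurable_fst.prodMk (measurable_fst.comp measurable_snd))
    · exact S.φ_meas.comp (measurable_fst.prodMk (measurable_snd.comp measurable_snd))
  φ_zero z := by simp [S.φ_zero]
  φ_add s t z := by simp [S.φ_add]
  φ_mp t := (S.φ_mp t).prod (S.φ_mp t)
  R_meas := by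
    apply Measurable.prodMk
    · exact S.R_meas.comp (measurable_fst.prodMk (measurable_fst.comp measurable_snd))
    · exact S.R_meas.comp (measurable_fst.prodMk (measurable_snd.comp measurable_snd))
  R_zero z := by simp [S.R_zero]
  R_add s t z := by simp [S.R_add]
  R_two_pi z := by simp [S.R_two_pi]
  R_mp t := (S.R_mp t).prod (S.R_mp t)
  R_cont z := (S.R_cont z.1).prodMk (S.R_cont z.2)
  ρ_meas := (S.ρ_meas.comp measurable_fst).min (S.ρ_meas.comp measurable_snd)
  ρ_nonneg z := le_min (S.ρ_nonneg _) (S.ρ_nonneg _)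
  ρ_R a z := by simp [S.ρ_R]
  ρ_φ t z := by
    rw [← min_add_add_right]
    exact min_le_min (S.ρ_φ t z.1) (S.ρ_φ t z.2)
  vol b hb := by
    have hsub : {z : Ω × Ω | min (S.ρ z.1) (S.ρ z.2) < b}
        ⊆ {x | S.ρ x < b} ×ˢ Set.univ ∪ Set.univ ×ˢ {x | S.ρ x < b} := by
      intro z hz
      have hz' : min (S.ρ z.1) (S.ρ z.2) < b := hz
      rcases min_lt_iff.1 hz' with h | h
      · exact Or.inl ⟨h, Set.mem_univ _⟩
      · exact Or.inr ⟨Set.mem_univ _, h⟩
    have hv := S.vol b hb
    calc (μ.prod μ) {z : Ω × Ω | min (S.ρ z.1) (S.ρ z.2) < b}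
        ≤ (μ.prod μ) ({x | S.ρ x < b} ×ˢ Set.univ ∪ Set.univ ×ˢ {x | S.ρ x < b}) :=
          measure_mono hsub
      _ ≤ (μ.prod μ) ({x | S.ρ x < b} ×ˢ Set.univ) + (μ.prod μ) (Set.univ ×ˢ {x | S.ρ x < b}) :=
          measure_union_le _ _
      _ = μ {x | S.ρ x < b} * μ Set.univ + μ Set.univ * μ {x | S.ρ x < b} := by
          rw [Measure.prod_prod, Measure.prod_prod]
      _ ≤ ENNReal.ofReal (S.Cv * b ^ 2) * μ Set.univ
            + μ Set.univ * ENNReal.ofReal (S.Cv * b ^ 2) := by
          gcongr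
      _ = ENNReal.ofReal (2 * (μ Set.univ).toReal * S.Cv * b ^ 2) := by
          have h0 : 0 ≤ S.Cv * b ^ 2 := mul_nonneg S.Cv_nonneg (sq_nonneg b)
          have h1 : μ Set.univ = ENNReal.ofReal (μ Set.univ).toReal :=
            (ENNReal.ofReal_toReal (measure_ne_top μ _)).symm
          have h2 : (0 : ℝ) ≤ (μ Set.univ).toReal := ENNReal.toReal_nonneg
          rw [h1, ENNReal.toReal_ofReal h2, ← ENNReal.ofReal_mul h0, ← ENNReal.ofReal_mul h2,
            ← ENNReal.ofReal_add (mul_nonneg h0 h2) (mul_nonneg h2 h0)]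
          congr 1
          ring
  rev t := by
    have h1 : ∀ᵐ z ∂(μ.prod μ), S.φ t (S.R Real.pi z.1) = S.R Real.pi (S.φ (-t) z.1) :=
      Measure.quasiMeasurePreserving_fst.ae (S.rev t)
    have h2 : ∀ᵐ z ∂(μ.prod μ), S.φ t (S.R Real.pi z.2) = S.R Real.pi (S.φ (-t) z.2) :=
      Measure.quasiMeasurePreserving_snd.ae (S.rev t)
    filter_upwards [h1, h2] with z hz1 hz2
    simp [hz1, hz2]
  LC ε hε ζ ζ' hζ hζ' := by
    have h1 : ∀ᵐ z ∂(μ.prod μ), S.C₀ * ε ≤ S.ρ z.1 →
        tr S.φ S.R ζ' (tr S.φ S.R ζ z.1) = tr S.φ S.R (ζ + ζ') z.1 :=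
      Measure.quasiMeasurePreserving_fst.ae (S.LC ε hε ζ ζ' hζ hζ')
    have h2 : ∀ᵐ z ∂(μ.prod μ), S.C₀ * ε ≤ S.ρ z.2 →
        tr S.φ S.R ζ' (tr S.φ S.R ζ z.2) = tr S.φ S.R (ζ + ζ') z.2 :=
      Measure.quasiMeasurePreserving_snd.ae (S.LC ε hε ζ ζ' hζ hζ')
    filter_upwards [h1, h2] with z hz1 hz2 hz
    have e1 := hz1 (hz.trans (min_le_left _ _))
    have e2 := hz2 (hz.trans (min_le_right _ _))
    exact Prod.ext e1 e2
  cont := by
    have h1 : ∀ᵐ z ∂(μ.prod μ), Tendsto (fun ζ : ℂ => tr S.φ S.R ζ z.1) (𝓝 0) (𝓝 z.1) :=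
      Measure.quasiMeasurePreserving_fst.ae S.cont
    have h2 : ∀ᵐ z ∂(μ.prod μ), Tendsto (fun ζ : ℂ => tr S.φ S.R ζ z.2) (𝓝 0) (𝓝 z.2) :=
      Measure.quasiMeasurePreserving_snd.ae S.cont
    filter_upwards [h1, h2] with z hz1 hz2
    exact hz1.prodMk_nhds hz2

@[simp] lemma prodSys_φ [IsFiniteMeasure μ] (S : PlaneSys Ω μ) (t : ℝ) (z : Ω × Ω) :
    S.prodSys.φ t z = (S.φ t z.1, S.φ t z.2) := rfl

@[simp] lemma prodSys_R [IsFiniteMeasure μ] (S : PlaneSys Ω μ) (t : ℝ) (z : Ω × Ω) :
    S.prodSys.R t z = (S.R t z.1, S.R t z.2) := rfl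



/-- A9 -/
theorem prod : StProd := by
  intro Ω _ _ _ _ _ μ _ S
  exact ⟨S.prodSys, fun t z => rfl, fun ζ z => rfl⟩

end PlaneSys

end Crest.Agent.R103
end
end

-- ▼ part R103/Geo0
section

/-!
# R103: base geometry of the triangle

Barycentric coordinates `d i`, their linear parts `bt i`, the reflection in side `i` (`sg i`),
the quarter turn `J` and rotations `rt a` of the plane.
-/

open MeasureTheory Filter Topology Crest.AnalysisR.Billiard

noncomputable section

namespace Crest.Agent.R103.Geo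

variable {A : Fin 3 → Plane} (hA : AffineIndependent ℝ A)

/-- the affine basis of the plane given by the vertices -/
def basis : AffineBasis (Fin 3) ℝ Plane :=
  ⟨A, hA, by
    refine hA.affineSpan_eq_top_iff_card_eq_finrank_add_one.2 ?_
    simp⟩

/-- barycentric coordinate `i` -/
def d (i : Fin 3) (x : Plane) : ℝ := (basis hA).coord i x

/-- linear part of the barycentric coordinate `i` -/
def bt (i : Fin 3) : Plane →ₗ[ℝ] ℝ := ((basis hA).coord i).linear

lemma d_add (i : Fin 3) (x v : Plane) : d hA i (x + v) = d hA i x + bt hA i v := by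
  have := ((basis hA).coord i).map_vadd x v
  simp only [vadd_eq_add] at this
  rw [add_comm x v, d, this, add_comm]; rfl

lemma d_sub (i : Fin 3) (x y : Plane) : d hA i x - d hA i y = bt hA i (x - y) := by
  have := d_add hA i y (x - y)
  rw [add_sub_cancel] at this
  linarith

lemma d_vertex (i j : Fin 3) : d hA i (A j) = if i = j then 1 else 0 := by
  have := (basis hA).coord_apply i j
  exact this

lemma d_vertex_self (i : Fin 3) : d hA i (A i) = 1 := by simp [d_vertex]

lemma d_vertex_ne {i j : Fin 3} (h : i ≠ j) : d hA i (A j) = 0 := by simp [d_vertex, h]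

lemma sum_d (x : Plane) : ∑ i, d hA i x = 1 := (basis hA).sum_coord_apply_eq_one x

lemma sum_d' (i : Fin 3) (x : Plane) : d hA i x + d hA (i + 1) x + d hA (i + 2) x = 1 := by
  have := sum_d hA x
  rw [Fin.sum_univ_three] at this
  fin_cases i
  · exact this
  · have : d hA 1 x + d hA 2 x + d hA 0 x = 1 := by linarith
    exact this
  · have : d hA 2 x + d hA 0 x + d hA 1 x = 1 := by linarith
    exact this

lemma sum_bt (i : Fin 3) (v : Plane) : bt hA i v + bt hA (i + 1) v + bt hA (i + 2) v = 0 := by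
  have h1 := sum_d' hA i 0
  have h2 := sum_d' hA i (0 + v)
  rw [d_add, d_add, d_add] at h2
  linarith

lemma ext_d {x y : Plane} (h : ∀ i, d hA i x = d hA i y) : x = y :=
  (basis hA).ext_elem h

lemma ext_bt {v w : Plane} (h : ∀ i, bt hA i v = bt hA i w) : v = w := by
  have : (0 : Plane) + v = 0 + w := ext_d hA fun i => by rw [d_add, d_add, h i]
  simpa using this

lemma fin3_cases (i j : Fin 3) : j = i ∨ j = i + 1 ∨ j = i + 2 := by
  fin_cases i <;> fin_cases j <;> decide

lemma ext_bt' (i : Fin 3) {v w : Plane} (h1 : bt hA i v = bt hA i w)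
    (h2 : bt hA (i + 1) v = bt hA (i + 1) w) : v = w := by
  refine ext_bt hA fun j => ?_
  rcases fin3_cases i j with rfl | rfl | rfl
  · exact h1
  · exact h2
  · have a := sum_bt hA i v
    have b := sum_bt hA i w
    linarith

lemma fin3_ne1 (i : Fin 3) : i ≠ i + 1 := by fin_cases i <;> decide
lemma fin3_ne2 (i : Fin 3) : i ≠ i + 2 := by fin_cases i <;> decide
lemma fin3_ne12 (i : Fin 3) : i + 1 ≠ i + 2 := by fin_cases i <;> decide

lemma bt_sideVec (i : Fin 3) : bt hA i (sideVec A i) = 0 := by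
  rw [sideVec, ← d_sub, d_vertex_ne hA (fin3_ne2 i), d_vertex_ne hA (fin3_ne1 i)]; simp

lemma bt_sideVec1 (i : Fin 3) : bt hA (i + 1) (sideVec A i) = -1 := by
  rw [sideVec, ← d_sub, d_vertex_ne hA (fin3_ne12 i), d_vertex_self]; simp

lemma bt_sideVec2 (i : Fin 3) : bt hA (i + 2) (sideVec A i) = 1 := by
  rw [sideVec, ← d_sub, d_vertex_self, d_vertex_ne hA (fin3_ne12 i).symm]; simp


lemma eq_smul_sideVec (i : Fin 3) {v : Plane} (h : bt hA i v = 0) :
    v = bt hA (i + 2) v • sideVec A i := by
  refine ext_bt' hA i ?_ ?_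
  · rw [map_smul, bt_sideVec, h]; simp
  · rw [map_smul, bt_sideVec1]
    have := sum_bt hA i v
    simp only [smul_eq_mul]
    linarith

/-- the open triangle -/
def tri : Set Plane := {x | ∀ i, 0 < d hA i x}

lemma interior_eq : interior (convexHull ℝ (Set.range A)) = tri hA :=
  (basis hA).interior_convexHull

lemma continuous_d (i : Fin 3) : Continuous (d hA i) :=
  ((basis hA).coord i).continuous_of_finiteDimensional

lemma continuous_bt (i : Fin 3) : Continuous (bt hA i) :=
  (bt hA i).continuous_of_finiteDimensional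

lemma mem_openSide (i : Fin 3) (x : Plane) :
    x ∈ openSide A i ↔ d hA i x = 0 ∧ 0 < d hA (i + 1) x ∧ 0 < d hA (i + 2) x := by
  have key : ∀ s : ℝ, (AffineMap.lineMap (A (i + 1)) (A (i + 2)) s : Plane)
      = A (i + 1) + s • sideVec A i := by
    intro s
    simp [AffineMap.lineMap_apply, sideVec, add_comm]
  constructor
  · rintro ⟨s, hs, rfl⟩
    simp only [key]
    rw [d_add, d_add, d_add, map_smul, map_smul, map_smul, bt_sideVec, bt_sideVec1, bt_sideVec2,
      d_vertex_ne hA (fin3_ne1 i), d_vertex_self, d_vertex_ne hA (fin3_ne12 i).symm]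
    simp only [smul_eq_mul]
    refine ⟨by ring, ?_, ?_⟩
    · linarith [hs.2]
    · linarith [hs.1]
  · rintro ⟨h0, h1, h2⟩
    refine ⟨d hA (i + 2) x, ⟨h2, ?_⟩, ?_⟩
    · have := sum_d' hA i x; linarith
    · simp only [key]
      have hb : bt hA i (x - A (i + 1)) = 0 := by
        rw [← d_sub, h0, d_vertex_ne hA (fin3_ne1 i)]; simp
      have := eq_smul_sideVec hA i hb
      have h3 : bt hA (i + 2) (x - A (i + 1)) = d hA (i + 2) x := by
        rw [← d_sub, d_vertex_ne hA (fin3_ne12 i).symm]; simp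
      rw [h3] at this
      rw [← this]; abel

/-! ## mirror images -/












/-! ## quarter turn and rotations -/

/-- quarter turn -/
def J (v : Plane) : Plane := !₂[-v 1, v 0]

@[simp] lemma J_zero' (v : Plane) : J v 0 = -v 1 := by simp [J]
@[simp] lemma J_one' (v : Plane) : J v 1 = v 0 := by simp [J]












/-- rotation by the angle `a` -/
def rt (a : ℝ) (v : Plane) : Plane := Real.cos a • v + Real.sin a • J v











/-! ## reflection in a side -/

/-- reflection in the line of side `i` -/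
def sg (A : Fin 3 → Plane) (i : Fin 3) (x : Plane) : Plane :=
  A (i + 1) + mirror (sideVec A i) (x - A (i + 1))








end Crest.Agent.R103.Geo
end
end

-- ▼ part R103/GeoBary
section

/-!
# R103, G1: barycentric coordinates by cross products
-/

open MeasureTheory Filter Topology
open Crest.AnalysisR.Billiard

noncomputable section

namespace Crest.Agent.R103.GeoBary

variable {A : Fin 3 → Plane} (hA : AffineIndependent ℝ A)

lemma cr_rot (A : Fin 3 → Plane) (i : Fin 3) :
    cr (A (i + 1) - A i) (A (i + 2) - A i) = Dt A := by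
  fin_cases i <;> simp [cr, Dt] <;> ring

lemma comb (i : Fin 3) (x : Plane) :
    Geo.d hA i x • A i + Geo.d hA (i + 1) x • A (i + 1) + Geo.d hA (i + 2) x • A (i + 2) = x := by
  have h := (Geo.basis hA).linear_combination_coord_eq_self x
  rw [Fin.sum_univ_three] at h
  have h' : Geo.d hA 0 x • A 0 + Geo.d hA 1 x • A 1 + Geo.d hA 2 x • A 2 = x := h
  fin_cases i
  · exact h'
  · have : Geo.d hA 1 x • A 1 + Geo.d hA 2 x • A 2 + Geo.d hA 0 x • A 0 = x := by
      rw [add_comm, ← add_assoc]; exact h'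
    exact this
  · have : Geo.d hA 2 x • A 2 + Geo.d hA 0 x • A 0 + Geo.d hA 1 x • A 1 = x := by
      rw [add_assoc, add_comm]; exact h'
    exact this

lemma cr_eq (i : Fin 3) (x : Plane) :
    cr (A (i + 1) - x) (A (i + 2) - x) = Geo.d hA i x * Dt A := by
  have hs := Geo.sum_d' hA i x
  have hc := comb hA i x
  have h0 := congrArg (fun y : Plane => y 0) hc
  have h1 := congrArg (fun y : Plane => y 1) hc
  simp only [PiLp.add_apply, PiLp.smul_apply, smul_eq_mul] at h0 h1
  rw [← cr_rot A i]
  simp only [cr, PiLp.sub_apply]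
  rw [← h0, ← h1]
  have ha : Geo.d hA (i + 2) x = 1 - Geo.d hA i x - Geo.d hA (i + 1) x := by linarith
  rw [ha]
  ring

include hA in
lemma Dt_ne : Dt A ≠ 0 := by
  intro h
  have hne : A 1 ≠ A 2 := fun e => by
    have := hA.injective e
    exact absurd this (by decide)
  have key := cr_eq hA 0 (A 1 + J (A 2 - A 1))
  rw [h, mul_zero] at key
  have e1 : (0 : Fin 3) + 1 = 1 := rfl
  have e2 : (0 : Fin 3) + 2 = 2 := rfl
  rw [e1, e2] at key
  simp only [cr, PiLp.sub_apply, PiLp.add_apply, J_zero, J_one] at key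
  apply hne
  have h2 : (A 2 0 - A 1 0) ^ 2 + (A 2 1 - A 1 1) ^ 2 = 0 := by nlinarith
  have h3 : A 2 0 - A 1 0 = 0 := by nlinarith [sq_nonneg (A 2 0 - A 1 0), sq_nonneg (A 2 1 - A 1 1)]
  have h4 : A 2 1 - A 1 1 = 0 := by nlinarith [sq_nonneg (A 2 0 - A 1 0), sq_nonneg (A 2 1 - A 1 1)]
  ext j
  fin_cases j
  · simp only [Fin.zero_eta, Fin.isValue]; linarith
  · simp only [Fin.mk_one, Fin.isValue]; linarith

lemma cd_eq (i : Fin 3) (x : Plane) : cd A i x = Geo.d hA i x := by
  rw [cd, cr_eq hA, mul_div_assoc, div_self (Dt_ne hA), mul_one]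

lemma ld_eq (i : Fin 3) (v : Plane) : ld A i v = Geo.bt hA i v := by
  have h := Geo.d_add hA i 0 v
  rw [zero_add] at h
  have h2 : Geo.bt hA i v = cd A i v - cd A i 0 := by rw [cd_eq hA, cd_eq hA]; linarith
  rw [h2, ld, cd, cd, ← sub_div]
  congr 1
  simp only [cr, sideVec, PiLp.sub_apply, PiLp.zero_apply]
  ring

theorem g1 : StG1 := by
  intro A hA
  have hc := cd_eq hA
  have hl := ld_eq hA
  refine ⟨Dt_ne hA, fun x => ?_, fun v => ?_, fun i x s v => ?_, fun i j => ?_, fun v h => ?_,
    fun x y h => ?_, fun i => ?_, fun i => ?_, ?_, fun i => ?_⟩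
  · rw [hc, hc, hc]; exact Geo.sum_d' hA 0 x
  · rw [hl, hl, hl]; exact Geo.sum_bt hA 0 v
  · rw [hc, hc, hl, Geo.d_add, map_smul, smul_eq_mul]
  · rw [hc]; exact Geo.d_vertex hA i j
  · refine Geo.ext_bt hA fun i => ?_
    rw [← hl, h i, map_zero]
  · refine Geo.ext_d hA fun i => ?_
    rw [← hc, ← hc, h i]
  · have : cd A i = Geo.d hA i := funext fun x => hc i x
    rw [this]; exact Geo.continuous_d hA i
  · have : ld A i = Geo.bt hA i := funext fun x => hl i x
    rw [this]; exact Geo.continuous_bt hA i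
  · rw [Geo.interior_eq hA]
    ext x
    simp only [Geo.tri, Set.mem_setOf_eq, hc]
  · ext x
    rw [Geo.mem_openSide hA]
    simp only [Set.mem_setOf_eq, hc]
    constructor
    · rintro ⟨h0, h1, h2⟩
      refine ⟨h0, fun j hj => ?_⟩
      rcases Geo.fin3_cases i j with rfl | rfl | rfl
      · exact absurd rfl hj
      · exact h1
      · exact h2
    · rintro ⟨h0, h⟩
      exact ⟨h0, h _ (Geo.fin3_ne1 i).symm, h _ (Geo.fin3_ne2 i).symm⟩

end Crest.Agent.R103.GeoBary
end
end

-- ▼ part R103/GeoRefl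
section

/-!
# R103, G2: reflections in the sides of the triangle
-/

open MeasureTheory Filter Topology
open Crest.AnalysisR.Billiard

noncomputable section

namespace Crest.Agent.R103

namespace GeoRefl

lemma inner_eq (u v : Plane) : inner ℝ u v = u 0 * v 0 + u 1 * v 1 := by
  rw [PiLp.inner_apply]
  simp [Fin.sum_univ_two]
  ring

lemma mirror_eq (e v : Plane) :
    mirror e v = (Submodule.span ℝ {e}).reflection v := by
  rw [Submodule.reflection_singleton_apply, mirror, real_inner_comm, real_inner_self_eq_norm_sq,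
    ← Nat.cast_smul_eq_nsmul ℝ, smul_smul]
  simp [mul_div_assoc]

lemma mirror_apply (e v : Plane) (j : Fin 2) :
    mirror e v j = 2 * (v 0 * e 0 + v 1 * e 1) / (e 0 ^ 2 + e 1 ^ 2) * e j - v j := by
  rw [mirror, inner_eq, inner_eq, PiLp.sub_apply, PiLp.smul_apply, smul_eq_mul, pow_two, pow_two]

lemma sq_pos_of_ne {e : Plane} (he : e ≠ 0) : 0 < e 0 ^ 2 + e 1 ^ 2 := by
  have h : 0 < inner ℝ e e := by
    rw [real_inner_self_eq_norm_sq]; positivity
  rwa [inner_eq, ← pow_two, ← pow_two] at h

lemma cr_mirror {e : Plane} (he : e ≠ 0) (v : Plane) : cr e (mirror e v) = - cr e v := by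
  have h := (sq_pos_of_ne he).ne'
  simp only [cr, mirror_apply]
  field_simp
  ring

lemma J_mirror {e : Plane} (he : e ≠ 0) (v : Plane) : J (mirror e v) = - mirror e (J v) := by
  have h := (sq_pos_of_ne he).ne'
  ext j
  fin_cases j
  · show J (mirror e v) 0 = (- mirror e (J v)) 0
    simp only [J_zero, J_one, PiLp.neg_apply, mirror_apply]
    field_simp
    ring
  · show J (mirror e v) 1 = (- mirror e (J v)) 1
    simp only [J_zero, J_one, PiLp.neg_apply, mirror_apply]
    field_simp
    ring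

lemma mirror_of_cr_eq_zero {e : Plane} (he : e ≠ 0) {v : Plane} (hv : cr e v = 0) :
    mirror e v = v := by
  have h := (sq_pos_of_ne he).ne'
  simp only [cr] at hv
  ext j
  fin_cases j
  · show mirror e v 0 = v 0
    rw [mirror_apply]
    field_simp
    linear_combination (2 * e 1) * hv
  · show mirror e v 1 = v 1
    rw [mirror_apply]
    field_simp
    linear_combination (-2 * e 0) * hv

section

variable {A : Fin 3 → Plane}

lemma sideVec_ne_zero (hA : AffineIndependent ℝ A) (i : Fin 3) : sideVec A i ≠ 0 := by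
  intro h
  rw [sideVec, sub_eq_zero] at h
  have := hA.injective h
  fin_cases i <;> simp at this


lemma Dt_ne_zero (hA : AffineIndependent ℝ A) : Dt A ≠ 0 := by
  intro h
  have hli := (affineIndependent_iff_linearIndependent_vsub ℝ A 0).1 hA
  -- the two vectors `A 1 - A 0`, `A 2 - A 0` are dependent
  set u : Plane := A 1 - A 0 with hu
  set v : Plane := A 2 - A 0 with hv
  have hu0 : u ≠ 0 := by
    intro h0
    have := hA.injective (sub_eq_zero.1 h0)
    simp at this
  have hcr : u 0 * v 1 - u 1 * v 0 = 0 := h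
  -- relation (⟨u,v⟩) u - ⟨u,u⟩ v = 0
  have hrel : (u 0 * v 0 + u 1 * v 1) • u - (u 0 * u 0 + u 1 * u 1) • v = 0 := by
    ext j
    fin_cases j
    · show ((u 0 * v 0 + u 1 * v 1) • u - (u 0 * u 0 + u 1 * u 1) • v) 0 = 0
      simp only [PiLp.sub_apply, PiLp.smul_apply, smul_eq_mul]
      linear_combination (u 1) * hcr
    · show ((u 0 * v 0 + u 1 * v 1) • u - (u 0 * u 0 + u 1 * u 1) • v) 1 = 0
      simp only [PiLp.sub_apply, PiLp.smul_apply, smul_eq_mul]
      linear_combination (-(u 0)) * hcr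
  have hpos := sq_pos_of_ne hu0
  let f : {x : Fin 3 // x ≠ 0} → ℝ := fun x =>
    if x.1 = 1 then (u 0 * v 0 + u 1 * v 1) else - (u 0 * u 0 + u 1 * u 1)
  have hli' := Fintype.linearIndependent_iff.1 hli f
  have hsum : ∑ x : {x : Fin 3 // x ≠ 0}, f x • (A x.1 -ᵥ A 0) = 0 := by
    have key : ∑ x : {x : Fin 3 // x ≠ 0}, f x • (A x.1 -ᵥ A 0)
        = f ⟨1, by decide⟩ • (A 1 -ᵥ A 0) + f ⟨2, by decide⟩ • (A 2 -ᵥ A 0) := by
      have huniv : (Finset.univ : Finset {x : Fin 3 // x ≠ 0})
          = {⟨1, by decide⟩, ⟨2, by decide⟩} := by decide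
      rw [huniv, Finset.sum_insert (by decide), Finset.sum_singleton]
    rw [key]
    simp only [f, vsub_eq_sub]
    rw [← hu, ← hv]
    simp only [if_true]
    rw [if_neg (by decide)]
    rw [neg_smul, ← sub_eq_add_neg]
    exact hrel
  have h2 := hli' hsum ⟨2, by decide⟩
  simp only [f] at h2
  rw [if_neg (by decide)] at h2
  linarith

lemma cd_eq (i : Fin 3) (x : Plane) :
    cd A i x = cr (sideVec A i) (x - A (i + 1)) / Dt A := by
  rw [cd, sideVec]
  congr 1
  simp only [cr, PiLp.sub_apply]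
  ring

lemma refl_sub (i : Fin 3) (x : Plane) :
    refl A i x - A (i + 1) = mirror (sideVec A i) (x - A (i + 1)) := by
  rw [refl]; abel

end

end GeoRefl

open GeoRefl

theorem g2 : StG2 := by
  intro A hA i
  have he := sideVec_ne_zero hA i
  set e := sideVec A i with hedef
  have hinv : ∀ v, mirror e (mirror e v) = v := by
    intro v; rw [mirror_eq, mirror_eq]; exact Submodule.reflection_reflection _ _
  have hlin : ∀ (a b : ℝ) (u v : Plane), mirror e (a • u + b • v)
      = a • mirror e u + b • mirror e v := by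
    intro a b u v; simp only [mirror_eq, map_add, map_smul]
  have hsub : ∀ (u v : Plane), mirror e (u - v) = mirror e u - mirror e v := by
    intro u v; simp only [mirror_eq, map_sub]
  have hnorm : ∀ v, ‖mirror e v‖ = ‖v‖ := by
    intro v; rw [mirror_eq]; exact LinearIsometryEquiv.norm_map _ _
  have hcont : Continuous (mirror e) := by
    have : mirror e = fun v => (Submodule.span ℝ {e}).reflection v := funext (mirror_eq e)
    rw [this]; exact LinearIsometryEquiv.continuous _
  have hcr : Continuous (refl A i) := by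
    unfold refl
    exact continuous_const.add (hcont.comp (continuous_id.sub continuous_const))
  refine ⟨?_, hinv, ?_, hnorm, hlin, ?_, ?_, ?_, ?_, J_mirror he, hcr, hcont, ?_⟩
  · intro x
    rw [refl, refl_sub, hinv]; abel
  · intro x y
    rw [dist_eq_norm, dist_eq_norm]
    have : refl A i x - refl A i y = mirror e (x - y) := by
      rw [refl, refl, add_sub_add_left_eq_sub, ← hsub]; congr 1; abel
    rw [this, hnorm]
  · intro x s v
    have h1 : x + s • v - A (i + 1) = (1 : ℝ) • (x - A (i + 1)) + s • v := by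
      rw [one_smul]; abel
    rw [refl, refl, h1, hlin, one_smul, add_assoc]
  · intro x
    rw [cd_eq, cd_eq, refl_sub, ← hedef, cr_mirror he, neg_div]
  · intro v
    rw [ld, ld, ← hedef, cr_mirror he, neg_div]
  · intro x hx
    rw [cd_eq, div_eq_zero_iff] at hx
    rcases hx with hx | hx
    · rw [refl, mirror_of_cr_eq_zero he hx]; abel
    · exact absurd hx (Dt_ne_zero hA)
  · have h1 : MeasurePreserving (fun x : Plane => x - A (i + 1)) volume volume :=
      measurePreserving_sub_right volume _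
    have h2 : MeasurePreserving (fun x : Plane => (Submodule.span ℝ {e}).reflection x)
        volume volume := LinearIsometryEquiv.measurePreserving _
    have h3 : MeasurePreserving (fun x : Plane => A (i + 1) + x) volume volume :=
      measurePreserving_add_left volume _
    have h4 := h3.comp (h2.comp h1)
    have : refl A i = (fun x : Plane => A (i + 1) + x) ∘
        ((fun x : Plane => (Submodule.span ℝ {e}).reflection x) ∘
          (fun x : Plane => x - A (i + 1))) := by
      funext x
      simp only [Function.comp, refl]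
      rw [mirror_eq]
    rw [this]; exact h4

end Crest.Agent.R103
end
end

-- ▼ part R103/ChainUniq
section

/-!
# R103, H1: uniqueness of chains through a state
-/

open Crest.AnalysisR.Billiard Set

noncomputable section

namespace Crest.Agent.R103

namespace H1

variable {A : Fin 3 → Plane}

lemma tau_pos (c : Chain A) (k : ℤ) : 0 < c.t (k + 1) - c.t k :=
  sub_pos.2 (c.strictMono_t (by omega))

lemma q_succ (c : Chain A) (k : ℤ) :
    c.q (k + 1) = c.q k + (c.t (k + 1) - c.t k) • c.vel k := by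
  have h2 := tau_pos c k
  rw [Chain.vel, smul_smul, mul_inv_cancel₀ h2.ne', one_smul]
  abel

lemma vel_succ (c : Chain A) (k : ℤ) :
    c.vel (k + 1) = mirror (sideVec A (c.side (k + 1))) (c.vel k) := by
  have h := c.reflect k
  have e : k + 1 + 1 = k + 2 := by ring
  rw [Chain.vel, Chain.vel, e]
  exact h

/-- along the line of the flight, the open triangle is exactly the flight -/
lemma flight
    (haff : ∀ i x (s : ℝ) v, cd A i (x + s • v) = cd A i x + s * ld A i v)
    (hos : ∀ i, openSide A i = {x | cd A i x = 0 ∧ ∀ j, j ≠ i → 0 < cd A j x})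
    (c : Chain A) (k : ℤ) (x v : Plane) (a : ℝ) (hv : c.vel k = v) (hq : c.q k = x + a • v) :
    {s : ℝ | ∀ m, 0 < cd A m (x + s • v)} = Ioo a (a + (c.t (k + 1) - c.t k)) := by
  have hτ := tau_pos c k
  set τ := c.t (k + 1) - c.t k with hτdef
  have h0 := c.mem_side k
  have h1 := c.mem_side (k + 1)
  have hne := c.side_ne k
  rw [hos] at h0 h1
  obtain ⟨h00, h01⟩ := h0
  obtain ⟨h10, h11⟩ := h1
  have hq1 : c.q (k + 1) = x + (a + τ) • v := by
    rw [q_succ, hv, hq, add_smul, add_assoc]
  rw [hq1] at h10 h11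
  rw [hq] at h00 h01
  have hf := fun m s => haff m x s v
  ext s
  simp only [mem_setOf_eq, mem_Ioo]
  constructor
  · intro hs
    constructor
    · by_contra hle
      push Not at hle
      have A1 := h11 (c.side k) (Ne.symm hne)
      have A2 := hs (c.side k)
      rw [hf] at h00 A1 A2
      have hl : 0 < τ * ld A (c.side k) v := by nlinarith
      have hl' : 0 < ld A (c.side k) v := by
        by_contra hh
        push Not at hh
        nlinarith
      nlinarith
    · by_contra hle
      push Not at hle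
      have A1 := h01 (c.side (k + 1)) hne
      have A2 := hs (c.side (k + 1))
      rw [hf] at h10 A1 A2
      have hl' : ld A (c.side (k + 1)) v < 0 := by
        by_contra hh
        push Not at hh
        nlinarith
      nlinarith
  · rintro ⟨hs1, hs2⟩ m
    have ha : 0 ≤ cd A m (x + a • v) := by
      by_cases hm : m = c.side k
      · rw [hm, h00]
      · exact (h01 m hm).le
    have hb : 0 ≤ cd A m (x + (a + τ) • v) := by
      by_cases hm : m = c.side (k + 1)
      · rw [hm, h10]
      · exact (h11 m hm).le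
    have hab : 0 < cd A m (x + a • v) ∨ 0 < cd A m (x + (a + τ) • v) := by
      by_cases hm : m = c.side k
      · right
        exact h11 m (by rw [hm]; exact Ne.symm hne)
      · left
        exact h01 m hm
    rw [hf] at ha hb hab ⊢
    rw [hf] at hab
    have key : τ * (cd A m x + s * ld A m v) =
        (a + τ - s) * (cd A m x + a * ld A m v)
          + (s - a) * (cd A m x + (a + τ) * ld A m v) := by ring
    have hpos : 0 < τ * (cd A m x + s * ld A m v) := by
      rw [key]
      have p1 : 0 < a + τ - s := by linarith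
      have p2 : 0 < s - a := by linarith
      rcases hab with h | h
      · have := mul_pos p1 h
        have := mul_nonneg p2.le hb
        linarith
      · have := mul_pos p2 h
        have := mul_nonneg p1.le ha
        linarith
    exact (pos_iff_pos_of_mul_pos hpos).1 hτ

lemma Ioo_inj {a b a' b' : ℝ} (h : a < b) (h' : a' < b') (e : Ioo a b = Ioo a' b') :
    a = a' ∧ b = b' := by
  have h1 := isGLB_Ioo h
  have h2 := isGLB_Ioo h'
  have h3 := isLUB_Ioo h
  have h4 := isLUB_Ioo h'
  rw [e] at h1 h3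
  exact ⟨h1.unique h2, h3.unique h4⟩

lemma side_unique
    (hos : ∀ i, openSide A i = {x | cd A i x = 0 ∧ ∀ j, j ≠ i → 0 < cd A j x})
    {i j : Fin 3} {x : Plane} (hi : x ∈ openSide A i) (hj : x ∈ openSide A j) : i = j := by
  rw [hos] at hi hj
  by_contra h
  have := hj.2 i h
  rw [hi.1] at this
  exact lt_irrefl _ this

lemma matching
    (haff : ∀ i x (s : ℝ) v, cd A i (x + s • v) = cd A i x + s * ld A i v)
    (hos : ∀ i, openSide A i = {x | cd A i x = 0 ∧ ∀ j, j ≠ i → 0 < cd A j x})
    (c c' : Chain A) (k k' : ℤ) (x v : Plane) (a a' : ℝ)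
    (hv : c.vel k = v) (hq : c.q k = x + a • v)
    (hv' : c'.vel k' = v) (hq' : c'.q k' = x + a' • v) :
    a = a' ∧ c.t (k + 1) - c.t k = c'.t (k' + 1) - c'.t k' ∧
      c.q k = c'.q k' ∧ c.q (k + 1) = c'.q (k' + 1) ∧
      c.side k = c'.side k' ∧ c.side (k + 1) = c'.side (k' + 1) := by
  have e1 := flight haff hos c k x v a hv hq
  have e2 := flight haff hos c' k' x v a' hv' hq'
  have hτ := tau_pos c k
  have hτ' := tau_pos c' k'
  obtain ⟨h1, h2⟩ := Ioo_inj (by linarith) (by linarith) (e1.symm.trans e2)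
  have hτe : c.t (k + 1) - c.t k = c'.t (k' + 1) - c'.t k' := by
    rw [h1] at h2; linarith
  have hqe : c.q k = c'.q k' := by rw [hq, hq', h1]
  have hqe' : c.q (k + 1) = c'.q (k' + 1) := by
    rw [q_succ, q_succ, hqe, hτe, hv, hv']
  refine ⟨h1, hτe, hqe, hqe', ?_, ?_⟩
  · have m1 := c.mem_side k
    have m2 := c'.mem_side k'
    rw [hqe] at m1
    exact side_unique hos m1 m2
  · have m1 := c.mem_side (k + 1)
    have m2 := c'.mem_side (k' + 1)
    rw [hqe'] at m1
    exact side_unique hos m1 m2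

lemma chain_ext {c c' : Chain A} (ht : c.t = c'.t) (hq : c.q = c'.q) (hs : c.side = c'.side) :
    c = c' := by
  cases c; cases c'
  dsimp only at ht hq hs
  subst ht hq hs
  rfl

/-- the data of two chains agree at index `k` -/
def Eqv (c c' : Chain A) (k : ℤ) : Prop :=
  c.t k = c'.t k ∧ c.q k = c'.q k ∧ c.side k = c'.side k

lemma vel_eq {c c' : Chain A} {k : ℤ} (h : Eqv c c' k) (h' : Eqv c c' (k + 1)) :
    c.vel k = c'.vel k := by
  rw [Chain.vel, Chain.vel, h.1, h.2.1, h'.1, h'.2.1]

lemma fwd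
    (haff : ∀ i x (s : ℝ) v, cd A i (x + s • v) = cd A i x + s * ld A i v)
    (hos : ∀ i, openSide A i = {x | cd A i x = 0 ∧ ∀ j, j ≠ i → 0 < cd A j x})
    {c c' : Chain A} {k : ℤ} (h : Eqv c c' k) (h' : Eqv c c' (k + 1)) :
    Eqv c c' (k + 1 + 1) := by
  have hv := vel_eq h h'
  have hv1 : c.vel (k + 1) = c'.vel (k + 1) := by
    rw [vel_succ, vel_succ, hv, h'.2.2]
  obtain ⟨-, h2, -, h4, -, h6⟩ := matching haff hos c c' (k + 1) (k + 1) (c.q (k + 1))
    (c.vel (k + 1)) 0 0 rfl (by simp) hv1.symm (by simp [h'.2.1])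
  refine ⟨?_, h4, h6⟩
  have := h'.1
  linarith

lemma bwd
    (haff : ∀ i x (s : ℝ) v, cd A i (x + s • v) = cd A i x + s * ld A i v)
    (hos : ∀ i, openSide A i = {x | cd A i x = 0 ∧ ∀ j, j ≠ i → 0 < cd A j x})
    (hmm : ∀ i v, mirror (sideVec A i) (mirror (sideVec A i) v) = v)
    {c c' : Chain A} {k : ℤ} (h : Eqv c c' (k + 1)) (h' : Eqv c c' (k + 1 + 1)) :
    Eqv c c' k := by
  have hv := vel_eq h h'
  have hv1 : c.vel k = c'.vel k := by
    have e1 := vel_succ c k
    have e2 := vel_succ c' k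
    rw [← hmm (c.side (k + 1)) (c.vel k), ← hmm (c'.side (k + 1)) (c'.vel k), ← e1, ← e2, hv,
      h.2.2]
  have hqc : c.q k = c.q (k + 1) + (-(c.t (k + 1) - c.t k)) • c.vel k := by
    rw [q_succ, neg_smul]; abel
  have hqc' : c'.q k = c.q (k + 1) + (-(c'.t (k + 1) - c'.t k)) • c.vel k := by
    rw [h.2.1, hv1, q_succ, neg_smul]; abel
  obtain ⟨h1, h2, h3, h4, h5, h6⟩ := matching haff hos c c' k k (c.q (k + 1))
    (c.vel k) _ _ rfl hqc hv1.symm hqc'
  refine ⟨?_, h3, h5⟩
  have := h.1
  linarith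

lemma all_eqv
    (haff : ∀ i x (s : ℝ) v, cd A i (x + s • v) = cd A i x + s * ld A i v)
    (hos : ∀ i, openSide A i = {x | cd A i x = 0 ∧ ∀ j, j ≠ i → 0 < cd A j x})
    (hmm : ∀ i v, mirror (sideVec A i) (mirror (sideVec A i) v) = v)
    {c c' : Chain A} (h0 : Eqv c c' 0) (h1 : Eqv c c' 1) (k : ℤ) :
    Eqv c c' k ∧ Eqv c c' (k + 1) := by
  induction k using Int.induction_on with
  | zero => exact ⟨h0, by simpa using h1⟩
  | succ i ih => exact ⟨ih.2, fwd haff hos ih.1 ih.2⟩
  | pred i ih =>
    have e : (-(i : ℤ) - 1 + 1) = -i := by ring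
    refine ⟨?_, by rw [e]; exact ih.1⟩
    refine bwd haff hos hmm (by rw [e]; exact ih.1) ?_
    rw [e]; exact ih.2

end H1

/-- H1. uniqueness of chains through a state -/
theorem uniq (g1 : StG1) (g2 : StG2) : StUniq := by
  intro A hA c c' p hc hc'
  obtain ⟨-, -, -, haff, -, -, -, -, -, -, hos⟩ := g1 A hA
  have hmm : ∀ i v, mirror (sideVec A i) (mirror (sideVec A i) v) = v :=
    fun i v => (g2 A hA i).2.1 v
  rw [through_iff] at hc hc'
  have e1 : p.1 = c.q 0 + (0 - c.t 0) • c.vel 0 := by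
    rw [hc]; simp only [stateAt, idx_zero]
  have e1' : p.1 = c'.q 0 + (0 - c'.t 0) • c'.vel 0 := by
    rw [hc']; simp only [stateAt, idx_zero]
  have e2 : (p.2 : Plane) = c.vel 0 := by
    rw [hc]; simp only [stateAt, idx_zero]
  have e2' : (p.2 : Plane) = c'.vel 0 := by
    rw [hc']; simp only [stateAt, idx_zero]
  have hv : c'.vel 0 = c.vel 0 := by rw [← e2, ← e2']
  have hq : c.q 0 = p.1 + (c.t 0) • c.vel 0 := by
    rw [e1, zero_sub, neg_smul]; abel
  have hq' : c'.q 0 = p.1 + (c'.t 0) • c.vel 0 := by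
    rw [e1', hv, zero_sub, neg_smul]; abel
  obtain ⟨h1, h2, h3, h4, h5, h6⟩ := H1.matching haff hos c c' 0 0 p.1 (c.vel 0) _ _ rfl hq hv hq'
  have E0 : H1.Eqv c c' 0 := ⟨h1, h3, h5⟩
  have E1 : H1.Eqv c c' 1 := by
    rw [zero_add] at h2 h4 h6
    exact ⟨by linarith, h4, h6⟩
  have hall := H1.all_eqv haff hos hmm E0 E1
  exact H1.chain_ext (funext fun k => (hall k).1.1) (funext fun k => (hall k).1.2.1)
    (funext fun k => (hall k).1.2.2)

end Crest.Agent.R103
end
end

-- ▼ part R103/ChainShift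
section

/-!
# R103, H2: shifting a chain in time (helper611)
-/

open MeasureTheory Filter Topology
open Crest.AnalysisR.Billiard

noncomputable section

namespace Crest.Agent.R103

namespace Shift

variable {A : Fin 3 → Plane}

/-- the chain `c` shifted by time `s` -/
def shiftC (c : Chain A) (s : ℝ) : Chain A where
  t := fun k => c.t (k + idx c s) - s
  q := fun k => c.q (k + idx c s)
  side := fun k => c.side (k + idx c s)
  strictMono_t := fun a b h => sub_lt_sub_right (c.strictMono_t (by omega)) s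
  t_zero_le := by
    have h := idx_le c s
    rw [zero_add]; linarith
  t_one_pos := by
    have h := lt_idx c s
    rw [add_comm 1 (idx c s)]; linarith
  tendsto_atTop := by
    have h1 : Tendsto (fun k : ℤ => k + idx c s) atTop atTop :=
      tendsto_atTop_add_const_right _ _ tendsto_id
    have h2 := (c.tendsto_atTop.comp h1)
    simpa [sub_eq_add_neg, Function.comp_def] using tendsto_atTop_add_const_right _ (-s) h2
  tendsto_atBot := by
    have h1 : Tendsto (fun k : ℤ => k + idx c s) atBot atBot :=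
      tendsto_atBot_add_const_right _ _ tendsto_id
    have h2 := (c.tendsto_atBot.comp h1)
    simpa [sub_eq_add_neg, Function.comp_def] using tendsto_atBot_add_const_right _ (-s) h2
  mem_side := fun k => c.mem_side _
  side_ne := fun k => by
    have h := c.side_ne (k + idx c s)
    rw [show k + idx c s + 1 = k + 1 + idx c s by ring] at h
    exact h
  unit_speed := fun k => by
    have h := c.unit_speed (k + idx c s)
    rw [show k + idx c s + 1 = k + 1 + idx c s by ring] at h
    rw [← h]; ring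
  reflect := fun k => by
    have h := c.reflect (k + idx c s)
    rw [show k + idx c s + 1 = k + 1 + idx c s by ring,
      show k + idx c s + 2 = k + 2 + idx c s by ring] at h
    rw [sub_sub_sub_cancel_right, sub_sub_sub_cancel_right]
    exact h

lemma shiftC_vel (c : Chain A) (s : ℝ) (k : ℤ) : (shiftC c s).vel k = c.vel (k + idx c s) := by
  have e : k + idx c s + 1 = k + 1 + idx c s := by ring
  simp only [Chain.vel, shiftC, e, sub_sub_sub_cancel_right]

lemma shiftC_idx (c : Chain A) (s τ : ℝ) :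
    idx (shiftC c s) τ = idx c (τ + s) - idx c s := by
  refine idx_unique _ ?_ ?_
  · have h := idx_le c (τ + s)
    show c.t (idx c (τ + s) - idx c s + idx c s) - s ≤ τ
    rw [sub_add_cancel]; linarith
  · have h := lt_idx c (τ + s)
    show τ < c.t (idx c (τ + s) - idx c s + 1 + idx c s) - s
    rw [show idx c (τ + s) - idx c s + 1 + idx c s = idx c (τ + s) + 1 by ring]; linarith

lemma shiftC_stateAt (c : Chain A) (s τ : ℝ) :
    stateAt (shiftC c s) τ = stateAt c (τ + s) := by
  have hv : (shiftC c s).vel (idx (shiftC c s) τ) = c.vel (idx c (τ + s)) := by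
    rw [shiftC_vel, shiftC_idx, sub_add_cancel]
  have hq : (shiftC c s).q (idx (shiftC c s) τ) = c.q (idx c (τ + s)) := by
    show c.q (idx (shiftC c s) τ + idx c s) = _
    rw [shiftC_idx, sub_add_cancel]
  have ht : (shiftC c s).t (idx (shiftC c s) τ) = c.t (idx c (τ + s)) - s := by
    show c.t (idx (shiftC c s) τ + idx c s) - s = _
    rw [shiftC_idx, sub_add_cancel]
  refine Prod.ext ?_ (Subtype.ext ?_)
  · simp only [stateAt, hv, hq, ht]
    congr 2; ring
  · exact hv

end Shift

/-- H2: shifting a chain in time. -/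
theorem shift : StShift := fun _ c s =>
  ⟨Shift.shiftC c s, fun _ => rfl, fun _ => rfl, fun _ => rfl, Shift.shiftC_idx c s,
    Shift.shiftC_stateAt c s⟩

end Crest.Agent.R103
end
end

-- ▼ part R103/ChainState
section

/-!
# R103: H3, states of a chain: admissibility, Lipschitz bound, unfolding words
-/

open MeasureTheory Filter Topology
open Crest.AnalysisR.Billiard

noncomputable section

namespace Crest.Agent.R103

section words
variable (A : Fin 3 → Plane)

lemma reflW_append (w w' : List (Fin 3)) (x : Plane) :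
    reflW A (w ++ w') x = reflW A w' (reflW A w x) := by
  induction w generalizing x with
  | nil => rfl
  | cons i w ih => simp only [List.cons_append, reflW, ih]

lemma mirW_append (w w' : List (Fin 3)) (x : Plane) :
    mirW A (w ++ w') x = mirW A w' (mirW A w x) := by
  induction w generalizing x with
  | nil => rfl
  | cons i w ih => simp only [List.cons_append, mirW, ih]


end words

section chain
variable {A : Fin 3 → Plane} (c : Chain A)

/-- the line of flight `k`, parametrised by absolute time -/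
def lineAt (k : ℤ) (r : ℝ) : Plane := c.q k + (r - c.t k) • c.vel k

lemma t_lt (k : ℤ) : 0 < c.t (k + 1) - c.t k := sub_pos.2 (c.strictMono_t (by omega))

lemma lineAt_left (k : ℤ) : lineAt c k (c.t k) = c.q k := by simp [lineAt]

lemma lineAt_right (k : ℤ) : lineAt c k (c.t (k + 1)) = c.q (k + 1) := by
  have h := (t_lt c k).ne'
  simp only [lineAt, Chain.vel, smul_smul]
  rw [mul_inv_cancel₀ h, one_smul]
  abel

lemma lineAt_add (k : ℤ) (r s : ℝ) : lineAt c k (r + s) = lineAt c k r + s • c.vel k := by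
  simp only [lineAt, add_sub_right_comm, add_smul]
  abel

lemma stateAt_fst (τ : ℝ) : (stateAt c τ).1 = lineAt c (idx c τ) τ := rfl

lemma stateAt_snd (τ : ℝ) : ((stateAt c τ).2 : Plane) = c.vel (idx c τ) := rfl

lemma dist_lineAt (k : ℤ) (r s : ℝ) : dist (lineAt c k r) (lineAt c k s) = |r - s| := by
  rw [dist_eq_norm]
  have : lineAt c k r - lineAt c k s = (r - s) • c.vel k := by
    simp only [lineAt]
    rw [show (r - s) • c.vel k = (r - c.t k) • c.vel k - (s - c.t k) • c.vel k by
      rw [← sub_smul]; congr 1; ring]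
    abel
  rw [this, norm_smul, norm_vel, mul_one, Real.norm_eq_abs]

lemma vel_succ (k : ℤ) : c.vel (k + 1) = mirror (sideVec A (c.side (k + 1))) (c.vel k) := by
  have h := c.reflect k
  simp only [Chain.vel]
  rw [show k + 1 + 1 = k + 2 by ring]
  exact h

lemma lineAt_succ (h1 : StG1) (h2 : StG2) (hA : AffineIndependent ℝ A) (k : ℤ) (r : ℝ) :
    lineAt c (k + 1) r = refl A (c.side (k + 1)) (lineAt c k r) := by
  obtain ⟨-, -, -, -, -, hadd, -, -, hfix, -, -⟩ := h2 A hA (c.side (k + 1))
  have hm := c.mem_side (k + 1)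
  rw [(h1 A hA).2.2.2.2.2.2.2.2.2.2 (c.side (k + 1))] at hm
  have e1 : lineAt c k r = lineAt c k (c.t (k + 1)) + (r - c.t (k + 1)) • c.vel k := by
    rw [← lineAt_add]; congr 1; ring
  rw [e1, hadd, lineAt_right, hfix _ hm.1, ← vel_succ]
  rfl

lemma lineAt_pred (h1 : StG1) (h2 : StG2) (hA : AffineIndependent ℝ A) (k : ℤ) (r : ℝ) :
    lineAt c k r = refl A (c.side (k + 1)) (lineAt c (k + 1) r) := by
  rw [lineAt_succ c h1 h2 hA, (h2 A hA (c.side (k + 1))).1]

lemma vel_pred (h2 : StG2) (hA : AffineIndependent ℝ A) (k : ℤ) :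
    c.vel k = mirror (sideVec A (c.side (k + 1))) (c.vel (k + 1)) := by
  rw [vel_succ, (h2 A hA (c.side (k + 1))).2.1]

lemma exists_word_add (h1 : StG1) (h2 : StG2) (hA : AffineIndependent ℝ A) (k : ℤ) (n : ℕ) :
    ∃ w : List (Fin 3), w.length = n ∧ (∀ r, lineAt c (k + n) r = reflW A w (lineAt c k r)) ∧
      c.vel (k + n) = mirW A w (c.vel k) := by
  induction n with
  | zero => exact ⟨[], rfl, fun r => by simp [reflW], by simp [mirW]⟩
  | succ n ih =>
    obtain ⟨w, hl, hw, hv⟩ := ih
    refine ⟨w ++ [c.side (k + n + 1)], by simp [hl], fun r => ?_, ?_⟩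
    · rw [reflW_append, ← hw, show (k + (n + 1 : ℕ) : ℤ) = k + n + 1 by push_cast; ring,
        lineAt_succ c h1 h2 hA]
      rfl
    · rw [mirW_append, ← hv, show (k + (n + 1 : ℕ) : ℤ) = k + n + 1 by push_cast; ring, vel_succ]
      rfl

lemma exists_word_sub (h1 : StG1) (h2 : StG2) (hA : AffineIndependent ℝ A) (k : ℤ) (n : ℕ) :
    ∃ w : List (Fin 3), w.length = n ∧ (∀ r, lineAt c k r = reflW A w (lineAt c (k + n) r)) ∧
      c.vel k = mirW A w (c.vel (k + n)) := by
  induction n with
  | zero => exact ⟨[], rfl, fun r => by simp [reflW], by simp [mirW]⟩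
  | succ n ih =>
    obtain ⟨w, hl, hw, hv⟩ := ih
    refine ⟨c.side (k + n + 1) :: w, by simp [hl], fun r => ?_, ?_⟩
    · rw [show (k + (n + 1 : ℕ) : ℤ) = k + n + 1 by push_cast; ring]
      simp only [reflW]
      rw [← lineAt_pred c h1 h2 hA, ← hw]
    · rw [show (k + (n + 1 : ℕ) : ℤ) = k + n + 1 by push_cast; ring]
      simp only [mirW]
      rw [← vel_pred c h2 hA, ← hv]

lemma exists_word (h1 : StG1) (h2 : StG2) (hA : AffineIndependent ℝ A) (k l : ℤ) :
    ∃ w : List (Fin 3), (Odd (w.length : ℤ) ↔ Odd (l - k)) ∧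
      (∀ r, lineAt c l r = reflW A w (lineAt c k r)) ∧ c.vel l = mirW A w (c.vel k) := by
  rcases le_total k l with h | h
  · obtain ⟨n, hn⟩ := Int.le.dest h
    obtain ⟨w, hl, hw, hv⟩ := exists_word_add c h1 h2 hA k n
    rw [hn] at hw hv
    refine ⟨w, ?_, hw, hv⟩
    rw [hl, show l - k = (n : ℤ) by omega]
  · obtain ⟨n, hn⟩ := Int.le.dest h
    obtain ⟨w, hl, hw, hv⟩ := exists_word_sub c h1 h2 hA l n
    rw [hn] at hw hv
    refine ⟨w, ?_, hw, hv⟩
    rw [hl, show l - k = -(n : ℤ) by omega]
    exact odd_neg.symm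

lemma adm_stateAt (h1 : StG1) (hA : AffineIndependent ℝ A) (τ : ℝ) : Adm A (stateAt c τ) := by
  obtain ⟨-, -, -, hadd, -, -, -, -, -, -, hside⟩ := h1 A hA
  set k := idx c τ with hk
  have ht := t_lt c k
  have hτ1 : c.t k ≤ τ := idx_le c τ
  have hτ2 : τ < c.t (k + 1) := lt_idx c τ
  have hq := c.mem_side k
  have hq' := c.mem_side (k + 1)
  rw [hside] at hq hq'
  intro i
  have e1 : cd A i (stateAt c τ).1 = cd A i (c.q k) + (τ - c.t k) * ld A i (c.vel k) := by
    rw [stateAt_fst, lineAt, hadd]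
  have e2 : cd A i (c.q (k + 1)) =
      cd A i (c.q k) + (c.t (k + 1) - c.t k) * ld A i (c.vel k) := by
    rw [← lineAt_right, lineAt, hadd]
  have hne := c.side_ne k
  by_cases hi : i = c.side k
  · have h0 : cd A i (c.q k) = 0 := by rw [hi]; exact hq.1
    have hp : 0 < cd A i (c.q (k + 1)) := hq'.2 i (by rw [hi]; exact hne.symm)
    have hl : 0 < ld A i (c.vel k) := by
      rw [e2, h0, zero_add] at hp
      exact pos_of_mul_pos_right hp ht.le |> fun h => h
    rcases hτ1.eq_or_lt with h | h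
    · right
      refine ⟨?_, ?_⟩
      · rw [e1, h0, ← h]; simp
      · rw [stateAt_snd]; exact hl
    · left
      rw [e1, h0, zero_add]
      exact mul_pos (by linarith) hl
  · left
    have hp : 0 < cd A i (c.q k) := hq.2 i hi
    have hp' : 0 ≤ cd A i (c.q (k + 1)) := by
      by_cases hi' : i = c.side (k + 1)
      · rw [hi']; exact hq'.1.ge
      · exact (hq'.2 i hi').le
    rw [e1]
    rw [e2] at hp'
    rcases le_or_gt 0 (ld A i (c.vel k)) with hl | hl
    · have := mul_nonneg (sub_nonneg.2 hτ1) hl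
      linarith
    · have : (c.t (k + 1) - c.t k) * ld A i (c.vel k) < (τ - c.t k) * ld A i (c.vel k) :=
        mul_lt_mul_of_neg_right (by linarith) hl
      linarith

lemma dist_q_le (s : ℝ) (n : ℕ) :
    dist (stateAt c s).1 (c.q (idx c s + 1 + n)) ≤ c.t (idx c s + 1 + n) - s := by
  induction n with
  | zero =>
    simp only [Nat.cast_zero, add_zero]
    rw [stateAt_fst, ← lineAt_right, dist_lineAt, abs_sub_comm, abs_of_nonneg]
    exact sub_nonneg.2 (lt_idx c s).le
  | succ n ih =>
    have h := c.unit_speed (idx c s + 1 + n)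
    rw [show (idx c s + 1 + (n + 1 : ℕ) : ℤ) = idx c s + 1 + n + 1 by push_cast; ring]
    calc dist (stateAt c s).1 (c.q (idx c s + 1 + n + 1))
        ≤ dist (stateAt c s).1 (c.q (idx c s + 1 + n)) +
          dist (c.q (idx c s + 1 + n)) (c.q (idx c s + 1 + n + 1)) := dist_triangle _ _ _
      _ ≤ (c.t (idx c s + 1 + n) - s) + (c.t (idx c s + 1 + n + 1) - c.t (idx c s + 1 + n)) := by
          rw [h]; exact add_le_add ih le_rfl
      _ = _ := by ring

lemma dist_stateAt_le {s t : ℝ} (hst : s ≤ t) :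
    dist (stateAt c s).1 (stateAt c t).1 ≤ t - s := by
  have hk : idx c s ≤ idx c t := by
    by_contra h
    push Not at h
    have h3 : c.t (idx c t + 1) ≤ c.t (idx c s) := c.strictMono_t.monotone (by omega)
    have := idx_le c s
    have := lt_idx c t
    linarith
  rcases hk.eq_or_lt with h | h
  · rw [stateAt_fst, stateAt_fst, ← h, dist_lineAt, abs_sub_comm, abs_of_nonneg (by linarith)]
  · obtain ⟨n, hn⟩ := Int.le.dest (show idx c s + 1 ≤ idx c t by omega)
    have h1 := dist_q_le c s n
    rw [hn] at h1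
    have h2 : dist (c.q (idx c t)) (stateAt c t).1 = t - c.t (idx c t) := by
      rw [stateAt_fst, ← lineAt_left c (idx c t), dist_lineAt, abs_sub_comm,
        abs_of_nonneg (sub_nonneg.2 (idx_le c t))]
    calc _ ≤ dist (stateAt c s).1 (c.q (idx c t)) + dist (c.q (idx c t)) (stateAt c t).1 :=
          dist_triangle _ _ _
      _ ≤ _ := by rw [h2]; linarith

end chain

/-- H3. -/
theorem state (h1 : StG1) (h2 : StG2) : StState := by
  intro A hA c
  refine ⟨fun τ => adm_stateAt c h1 hA τ, fun s t => ?_, fun s t => ?_⟩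
  · rcases le_total s t with h | h
    · rw [abs_sub_comm, abs_of_nonneg (by linarith)]
      exact dist_stateAt_le c h
    · rw [dist_comm, abs_of_nonneg (by linarith)]
      exact dist_stateAt_le c h
  · obtain ⟨w, hl, hw, hv⟩ := exists_word c h1 h2 hA (idx c s) (idx c t)
    refine ⟨w, fun r => ?_, ?_, hl⟩
    · rw [stateAt_fst, stateAt_snd, stateAt_fst, stateAt_snd, ← lineAt_add, ← lineAt_add, hw]
      congr 2
      ring
    · rw [stateAt_snd, stateAt_snd, hv]

end Crest.Agent.R103
end
end

-- ▼ part R103/ChainAe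
section

/-!
# R103, H5: almost every state is good
-/

open MeasureTheory Filter Topology
open Crest.AnalysisR.Billiard

noncomputable section

namespace Crest.Agent.R103

namespace AeAux

variable (A : Fin 3 → Plane)

lemma reflW_append (w w' : List (Fin 3)) (x : Plane) :
    reflW A (w ++ w') x = reflW A w' (reflW A w x) := by
  induction w generalizing x with
  | nil => rfl
  | cons i w ih => simp only [List.cons_append, reflW, ih]

lemma reflW_reverse (h : ∀ i x, refl A i (refl A i x) = x) (w : List (Fin 3)) (x : Plane) :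
    reflW A w.reverse (reflW A w x) = x := by
  induction w generalizing x with
  | nil => rfl
  | cons i w ih =>
    rw [List.reverse_cons, reflW_append]
    simp only [reflW]
    rw [ih, h]

lemma reflW_reverse' (h : ∀ i x, refl A i (refl A i x) = x) (w : List (Fin 3)) (x : Plane) :
    reflW A w (reflW A w.reverse x) = x := by
  have := reflW_reverse A h w.reverse x
  rwa [List.reverse_reverse] at this

/-- unfolded vertices -/
def vtx (wj : List (Fin 3) × Fin 3) : Plane := reflW A wj.1.reverse (A wj.2)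

lemma cr_eq_zero_iff {v : Plane} (hv : ‖v‖ = 1) (u : Plane) :
    cr u v = 0 ↔ ∃ s : ℝ, s • v = u := by
  have h1 : v 0 ^ 2 + v 1 ^ 2 = 1 := by
    have : ‖v‖ ^ 2 = v 0 ^ 2 + v 1 ^ 2 := by
      rw [EuclideanSpace.norm_sq_eq]; simp [Fin.sum_univ_two]
    rw [← this, hv]; norm_num
  constructor
  · intro h
    refine ⟨u 0 * v 0 + u 1 * v 1, ?_⟩
    unfold cr at h
    ext i
    fin_cases i
    · simp only [PiLp.smul_apply, smul_eq_mul, Fin.zero_eta]
      linear_combination u 0 * h1 - v 1 * h
    · simp only [PiLp.smul_apply, smul_eq_mul, Fin.mk_one]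
      linear_combination u 1 * h1 + v 0 * h
  · rintro ⟨s, rfl⟩
    simp [cr]; ring

lemma lineOK_iff (h : ∀ i x, refl A i (refl A i x) = x) (p : Phase) :
    LineOK A p ↔ ∀ wj : List (Fin 3) × Fin 3, cr (vtx A wj - p.1) (p.2 : Plane) ≠ 0 := by
  have hv : ‖(p.2 : Plane)‖ = 1 := by simp
  constructor
  · rintro hp ⟨w, j⟩ hc
    obtain ⟨s, hs⟩ := (cr_eq_zero_iff hv _).1 hc
    apply hp w s j
    rw [hs, add_sub_cancel]
    exact reflW_reverse' A h w _
  · intro hp w s j hw
    apply hp (w, j)
    rw [cr_eq_zero_iff hv]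
    refine ⟨s, ?_⟩
    have : vtx A (w, j) = p.1 + s • (p.2 : Plane) := by
      rw [vtx, ← hw]
      exact reflW_reverse A h w _
    rw [this, add_sub_cancel_left]

lemma continuous_cr (P : Plane) :
    Continuous fun p : Phase => cr (P - p.1) (p.2 : Plane) := by
  unfold cr
  have h2 : Continuous fun p : Phase => (p.2 : Plane) := continuous_subtype_val.comp continuous_snd
  have e : ∀ i : Fin 2, Continuous fun p : Phase => (p.2 : Plane) i := fun i =>
    (EuclideanSpace.proj (𝕜 := ℝ) i).continuous.comp h2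
  have e' : ∀ i : Fin 2, Continuous fun p : Phase => (P - p.1) i := fun i =>
    (EuclideanSpace.proj (𝕜 := ℝ) i).continuous.comp (continuous_const.sub continuous_fst)
  exact ((e' 0).mul (e 1)).sub ((e' 1).mul (e 0))

/-- the linear form `x ↦ cr x v` -/
def crL (v : Plane) : Plane →ₗ[ℝ] ℝ where
  toFun x := cr x v
  map_add' x y := by simp [cr]; ring
  map_smul' c x := by simp [cr]; ring

lemma volume_line {v : Plane} (hv : ‖v‖ = 1) (P : Plane) :
    volume {x : Plane | cr (P - x) v = 0} = 0 := by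
  have h1 : v 0 ^ 2 + v 1 ^ 2 = 1 := by
    have : ‖v‖ ^ 2 = v 0 ^ 2 + v 1 ^ 2 := by
      rw [EuclideanSpace.norm_sq_eq]; simp [Fin.sum_univ_two]
    rw [← this, hv]; norm_num
  have hne : LinearMap.ker (crL v) ≠ ⊤ := by
    intro h
    have : -J v ∈ LinearMap.ker (crL v) := by rw [h]; trivial
    rw [LinearMap.mem_ker] at this
    change cr (-J v) v = 0 at this
    simp only [cr, PiLp.neg_apply, J_zero, J_one] at this
    nlinarith
  have h0 : volume ((LinearMap.ker (crL v) : Submodule ℝ Plane) : Set Plane) = 0 :=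
    Measure.addHaar_submodule volume _ hne
  have h2 := measure_preimage_add_right (volume : Measure Plane) (-P)
    ((LinearMap.ker (crL v) : Submodule ℝ Plane) : Set Plane)
  rw [h0] at h2
  rw [← h2]
  congr 1
  ext x
  simp only [Set.mem_ofPred_eq, Set.mem_preimage, SetLike.mem_coe, LinearMap.mem_ker]
  change _ ↔ cr (x + -P) v = 0
  have : cr (x + -P) v = -cr (P - x) v := by simp [cr]; ring
  rw [this, neg_eq_zero]

lemma null_line (P : Plane) :
    phaseMeasure A {p : Phase | cr (P - p.1) (p.2 : Plane) = 0} = 0 := by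
  have hm : MeasurableSet {p : Phase | cr (P - p.1) (p.2 : Plane) = 0} :=
    (isClosed_eq (continuous_cr P) continuous_const).measurableSet
  rw [phaseMeasure, Measure.prod_apply_symm hm]
  rw [lintegral_eq_zero_iff (measurable_measure_prodMk_right hm)]
  refine Eventually.of_forall fun v => ?_
  have h1 : (volume : Measure Plane) {x : Plane | cr (P - x) (v : Plane) = 0} = 0 :=
    volume_line (by simp) P
  refine le_antisymm ?_ zero_le
  calc _ ≤ (volume : Measure Plane) ((fun x => (x, v)) ⁻¹'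
      {p : Phase | cr (P - p.1) (p.2 : Plane) = 0}) := Measure.restrict_apply_le _ _
    _ = 0 := h1

end AeAux

theorem ae_ : StG1 → StG2 → StAe := by
  intro hG1 hG2 A hA
  obtain ⟨-, -, -, -, -, -, -, hcd, hld, hint, -⟩ := hG1 A hA
  have hrr : ∀ i x, refl A i (refl A i x) = x := fun i => (hG2 A hA i).1
  constructor
  · have h1 : ∀ᵐ p ∂(phaseMeasure A), ∀ wj : List (Fin 3) × Fin 3,
        cr (AeAux.vtx A wj - p.1) (p.2 : Plane) ≠ 0 := by
      rw [ae_all_iff]
      intro wj
      rw [ae_iff]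
      simpa using AeAux.null_line A (AeAux.vtx A wj)
    have h2 : ∀ᵐ p ∂(phaseMeasure A), ∀ i, 0 < cd A i p.1 := by
      have h3 : ∀ᵐ x ∂((volume : Measure Plane).restrict
          (interior (convexHull ℝ (Set.range A)))), ∀ i, 0 < cd A i x := by
        have := ae_restrict_mem (μ := (volume : Measure Plane))
          (s := interior (convexHull ℝ (Set.range A))) isOpen_interior.measurableSet
        filter_upwards [this] with x hx
        rw [hint] at hx
        exact hx
      exact Measure.quasiMeasurePreserving_fst.ae h3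
    filter_upwards [h1, h2] with p h1 h2
    refine ⟨⟨fun i => Or.inl (h2 i), ?_⟩, h2⟩
    rwa [AeAux.lineOK_iff A hrr]
  · have e1 : {p : Phase | OK A p} = {p : Phase | Adm A p} ∩ {p : Phase | LineOK A p} := rfl
    rw [e1]
    refine MeasurableSet.inter ?_ ?_
    · have e2 : {p : Phase | Adm A p} = ⋂ i, ({p : Phase | 0 < cd A i p.1} ∪
          ({p : Phase | cd A i p.1 = 0} ∩ {p : Phase | 0 < ld A i p.2})) := by
        ext p; simp [Adm]
      rw [e2]
      have hl : ∀ i, Continuous fun p : Phase => ld A i (p.2 : Plane) := fun i =>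
        (hld i).comp (continuous_subtype_val.comp continuous_snd)
      have hc : ∀ i, Continuous fun p : Phase => cd A i p.1 := fun i =>
        (hcd i).comp continuous_fst
      refine MeasurableSet.iInter fun i => ?_
      exact (measurableSet_lt measurable_const (hc i).measurable).union
        ((measurableSet_eq_fun (hc i).measurable measurable_const).inter
          (measurableSet_lt measurable_const (hl i).measurable))
    · have e3 : {p : Phase | LineOK A p} = ⋂ wj : List (Fin 3) × Fin 3,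
          {p : Phase | cr (AeAux.vtx A wj - p.1) (p.2 : Plane) = 0}ᶜ := by
        ext p; simp [AeAux.lineOK_iff A hrr]
      rw [e3]
      refine MeasurableSet.iInter fun wj => ?_
      exact (measurableSet_eq_fun (AeAux.continuous_cr _).measurable measurable_const).compl

end Crest.Agent.R103
end
end

-- ▼ part R103/Flow
section

/-!
# R103, H6: the billiard flow on oriented frames is an action of `ℝ`
-/

open MeasureTheory Filter Topology
open Crest.AnalysisR.Billiard

noncomputable section

namespace Crest.Agent.R103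

namespace FlowH6

variable {A : Fin 3 → Plane}

lemma reflW_append (w w' : List (Fin 3)) (x : Plane) :
    reflW A (w ++ w') x = reflW A w' (reflW A w x) := by
  induction w generalizing x with
  | nil => rfl
  | cons i w ih => exact ih _

lemma chainOf_through (p : Phase) (h : Good A p) : (chainOf A p h).Through p := h.choose_spec

lemma stateAt_chainOf_zero (p : Phase) (h : Good A p) : stateAt (chainOf A p h) 0 = p :=
  ((through_iff _ _).1 (chainOf_through p h)).symm

lemma flowP_good {p : Phase} (h : OK A p) (h' : Good A p) (t : ℝ) :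
    flowP A t p = stateAt (chainOf A p h') t := by
  unfold flowP
  rw [dif_pos ⟨h, h'⟩]

lemma par_good {p : Phase} (h : OK A p) (h' : Good A p) (t : ℝ) :
    par A t p = decide (Odd (idx (chainOf A p h') t)) := by
  unfold par
  rw [dif_pos ⟨h, h'⟩]

lemma flowP_bad {p : Phase} (h : ¬ (OK A p ∧ Good A p)) (t : ℝ) : flowP A t p = p := by
  unfold flowP
  rw [dif_neg h]

lemma par_bad {p : Phase} (h : ¬ (OK A p ∧ Good A p)) (t : ℝ) : par A t p = false := by
  unfold par
  rw [dif_neg h]

lemma flowM_bad {z : Phase × Bool} (h : ¬ (OK A z.1 ∧ Good A z.1)) (t : ℝ) : flowM A t z = z := by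
  unfold flowM
  rw [flowP_bad h, par_bad h, Bool.xor_false]

lemma good_stateAt (hS : StShift) {p : Phase} (c : Chain A) (t : ℝ) (hp : p = stateAt c t) :
    Good A p := by
  obtain ⟨c', -, -, -, -, h⟩ := hS A c t
  refine ⟨c', (through_iff _ _).2 ?_⟩
  rw [h, zero_add, hp]

lemma ok_stateAt (hSt : StState) (hA : AffineIndependent ℝ A) (c : Chain A)
    (h : OK A (stateAt c 0)) (t : ℝ) : OK A (stateAt c t) := by
  obtain ⟨hadm, -, hunf⟩ := hSt A hA c
  refine ⟨hadm t, fun w s j => ?_⟩
  obtain ⟨w0, h0, -, -⟩ := hunf 0 t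
  rw [h0 s, ← reflW_append]
  exact h.2 _ _ _

lemma vd_le (x y : Plane) : vd A y ≤ vd A x + dist y x := by
  unfold vd
  have h : ∀ i, dist y (A i) ≤ dist x (A i) + dist y x := fun i => by
    have := dist_triangle y x (A i)
    linarith
  have h0 := h 0
  have h1 := h 1
  have h2 := h 2
  rcases min_choice (dist x (A 0)) (min (dist x (A 1)) (dist x (A 2))) with e | e
  · rw [e]
    exact (min_le_left _ _).trans h0
  · rw [e]
    rcases min_choice (dist x (A 1)) (dist x (A 2)) with e' | e'
    · rw [e']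
      exact (min_le_right _ _).trans ((min_le_left _ _).trans h1)
    · rw [e']
      exact (min_le_right _ _).trans ((min_le_right _ _).trans h2)

lemma xor_par (b : Bool) (m n : ℤ) :
    xor (xor b (decide (Odd m))) (decide (Odd (n - m))) = xor b (decide (Odd n)) := by
  have h : Odd (n - m) ↔ ¬ (Odd n ↔ Odd m) := by
    rw [Int.odd_sub, ← Int.not_odd_iff_even]
    tauto
  by_cases h1 : Odd m <;> by_cases h2 : Odd n <;> cases b <;> simp [h1, h2, h]

end FlowH6

open FlowH6 in
theorem flow : StG1 → StG2 → StUniq → StShift → StState → StExist → StFlow := by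
  intro _ _ hU hS hSt hE A hA
  refine ⟨?_, ?_, ?_, ?_⟩
  · intro z
    by_cases h : OK A z.1 ∧ Good A z.1
    · unfold flowM
      rw [flowP_good h.1 h.2, par_good h.1 h.2, stateAt_chainOf_zero, idx_zero]
      simp
    · exact flowM_bad h 0
  · intro s t z
    by_cases h : OK A z.1 ∧ Good A z.1
    · set c := chainOf A z.1 h.2 with hc
      have hc0 : stateAt c 0 = z.1 := stateAt_chainOf_zero z.1 h.2
      have hok : OK A (stateAt c t) := ok_stateAt hSt hA c (by rw [hc0]; exact h.1) t
      obtain ⟨c', -, -, -, h4, h5⟩ := hS A c t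
      have hgood : Good A (stateAt c t) := good_stateAt hS c t rfl
      have hcc : chainOf A (stateAt c t) hgood = c' := by
        refine hU A hA _ _ (stateAt c t) (chainOf_through _ hgood) ((through_iff _ _).2 ?_)
        rw [h5, zero_add]
      have e1 : flowM A t z = (stateAt c t, xor z.2 (decide (Odd (idx c t)))) := by
        unfold flowM
        rw [flowP_good h.1 h.2, par_good h.1 h.2]
      have e2 : flowM A (s + t) z = (stateAt c (s + t), xor z.2 (decide (Odd (idx c (s + t))))) := by
        unfold flowM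
        rw [flowP_good h.1 h.2, par_good h.1 h.2]
      rw [e1, e2]
      unfold flowM
      simp only
      rw [flowP_good hok hgood, par_good hok hgood, hcc, h4, h5, xor_par]
    · rw [flowM_bad h, flowM_bad h, flowM_bad h]
  · intro t p h
    have hg := hE A hA p h
    rw [flowP_good h hg]
    exact ok_stateAt hSt hA _ (by rw [stateAt_chainOf_zero]; exact h) t
  · intro t z
    by_cases h : OK A z.1 ∧ Good A z.1
    · unfold flowM
      simp only
      rw [flowP_good h.1 h.2]
      set c := chainOf A z.1 h.2 with hc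
      have hc0 : stateAt c 0 = z.1 := stateAt_chainOf_zero z.1 h.2
      have h1 := (hSt A hA c).2.1 t 0
      rw [hc0, sub_zero] at h1
      have h2 := vd_le (A := A) z.1.1 (stateAt c t).1
      linarith
    · rw [flowM_bad h]
      linarith [abs_nonneg t]

end Crest.Agent.R103
end
end

-- ▼ part R103/Rev
section

/-!
# R103, H9 (helper858): time reversal
-/

set_option autoImplicit false
open MeasureTheory Filter Topology
open Crest.AnalysisR.Billiard
open scoped symmDiff

noncomputable section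

namespace Crest.Agent.R103

namespace Rev

variable {A : Fin 3 → Plane}

lemma vel_eq (c : Chain A) (k : ℤ) :
    (c.t (k + 1) - c.t k) • c.vel k = c.q (k + 1) - c.q k := by
  have h2 : 0 < c.t (k + 1) - c.t k := sub_pos.2 (c.strictMono_t (by omega))
  rw [Chain.vel, smul_smul, mul_inv_cancel₀ h2.ne', one_smul]

lemma reflect' (c : Chain A) (k : ℤ) :
    c.vel (k + 1) = mirror (sideVec A (c.side (k + 1))) (c.vel k) := by
  have h := c.reflect k
  have e : k + 1 + 1 = k + 2 := by ring
  rw [Chain.vel, Chain.vel, e]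
  exact h

/-- time reversal of a chain which is not at a collision at time `0` -/
def revC (hG2 : StG2) (hA : AffineIndependent ℝ A) (c : Chain A) (h0 : c.t 0 < 0) : Chain A where
  t k := -c.t (1 - k)
  q k := c.q (1 - k)
  side k := c.side (1 - k)
  strictMono_t := by
    intro a b hab
    have : c.t (1 - b) < c.t (1 - a) := c.strictMono_t (by omega)
    simpa using this
  t_zero_le := by
    have := c.t_one_pos
    simp only [sub_zero]; linarith
  t_one_pos := by
    simp only [sub_self]; linarith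
  tendsto_atTop := by
    have h1 : Tendsto (fun k : ℤ => 1 - k) atTop atBot := by
      refine tendsto_atBot.2 fun b => ?_
      filter_upwards [eventually_ge_atTop (1 - b)] with a ha
      omega
    exact tendsto_neg_atBot_atTop.comp (c.tendsto_atBot.comp h1)
  tendsto_atBot := by
    have h1 : Tendsto (fun k : ℤ => 1 - k) atBot atTop := by
      refine tendsto_atTop.2 fun b => ?_
      filter_upwards [eventually_le_atBot (1 - b)] with a ha
      omega
    exact tendsto_neg_atTop_atBot.comp (c.tendsto_atTop.comp h1)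
  mem_side k := c.mem_side _
  side_ne k := by
    have h := c.side_ne (-k)
    have e1 : 1 - (k + 1) = -k := by ring
    have e2 : 1 - k = -k + 1 := by ring
    rw [e1, e2]; exact h.symm
  unit_speed k := by
    have h := c.unit_speed (-k)
    have e1 : 1 - (k + 1) = -k := by ring
    have e2 : 1 - k = -k + 1 := by ring
    rw [e1, e2, dist_comm]; rw [← h]; ring
  reflect k := by
    have h := reflect' c (-k - 1)
    have hm := (hG2 A hA (c.side (-k))).2.1
    have hl := (hG2 A hA (c.side (-k))).2.2.2.2.1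
    have e0 : -k - 1 + 1 = -k := by ring
    have e1 : 1 - (k + 2) = -k - 1 := by ring
    have e2 : 1 - (k + 1) = -k := by ring
    have e3 : 1 - k = -k + 1 := by ring
    rw [e1, e2, e3]
    rw [e0] at h
    have v1 : (-c.t (-k - 1) - -c.t (-k))⁻¹ • (c.q (-k - 1) - c.q (-k)) = -c.vel (-k - 1) := by
      rw [Chain.vel, e0, ← smul_neg, neg_sub]
      congr 2; ring
    have v2 : (-c.t (-k) - -c.t (-k + 1))⁻¹ • (c.q (-k) - c.q (-k + 1)) = -c.vel (-k) := by
      rw [Chain.vel, ← smul_neg, neg_sub]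
      congr 2; ring
    rw [v1, v2, h]
    have h3 := hl (-1) 0 (mirror (sideVec A (c.side (-k))) (c.vel (-k - 1))) 0
    rw [hm] at h3
    simpa using h3.symm

lemma revC_t (hG2 : StG2) (hA : AffineIndependent ℝ A) (c : Chain A) (h0 : c.t 0 < 0) (k : ℤ) :
    (revC hG2 hA c h0).t k = -c.t (1 - k) := rfl

lemma revC_q (hG2 : StG2) (hA : AffineIndependent ℝ A) (c : Chain A) (h0 : c.t 0 < 0) (k : ℤ) :
    (revC hG2 hA c h0).q k = c.q (1 - k) := rfl

lemma revC_vel (hG2 : StG2) (hA : AffineIndependent ℝ A) (c : Chain A) (h0 : c.t 0 < 0) (k : ℤ) :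
    (revC hG2 hA c h0).vel k = -c.vel (-k) := by
  have e1 : 1 - (k + 1) = -k := by ring
  have e2 : 1 - k = -k + 1 := by ring
  rw [Chain.vel, revC_t, revC_t, revC_q, revC_q, e1, e2, Chain.vel, ← smul_neg, neg_sub]
  congr 2; ring

/-- state of the reversed chain at a time `s` such that `-s` is not a collision time -/
lemma revC_state (hG2 : StG2) (hA : AffineIndependent ℝ A) (c : Chain A) (h0 : c.t 0 < 0) {s : ℝ}
    (hs : c.t (idx c (-s)) ≠ -s) :
    idx (revC hG2 hA c h0) s = -idx c (-s) ∧
    (stateAt (revC hG2 hA c h0) s).1 = (stateAt c (-s)).1 ∧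
    ((stateAt (revC hG2 hA c h0) s).2 : Plane) = -((stateAt c (-s)).2 : Plane) := by
  have h1 := idx_le c (-s)
  have h2 := lt_idx c (-s)
  have h1' : c.t (idx c (-s)) < -s := lt_of_le_of_ne h1 hs
  have hi : idx (revC hG2 hA c h0) s = -idx c (-s) := by
    refine idx_unique _ ?_ ?_
    · rw [revC_t]
      have e : 1 - -idx c (-s) = idx c (-s) + 1 := by ring
      rw [e]; linarith
    · rw [revC_t]
      have e : 1 - (-idx c (-s) + 1) = idx c (-s) := by ring
      rw [e]; linarith
  refine ⟨hi, ?_, ?_⟩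
  · show (revC hG2 hA c h0).q (idx (revC hG2 hA c h0) s) +
      (s - (revC hG2 hA c h0).t (idx (revC hG2 hA c h0) s)) •
        (revC hG2 hA c h0).vel (idx (revC hG2 hA c h0) s) =
      c.q (idx c (-s)) + (-s - c.t (idx c (-s))) • c.vel (idx c (-s))
    rw [hi, revC_vel, revC_q, revC_t]
    have e : 1 - -idx c (-s) = idx c (-s) + 1 := by ring
    rw [e, neg_neg]
    have hv := vel_eq c (idx c (-s))
    have hq : c.q (idx c (-s) + 1) = c.q (idx c (-s)) +
        (c.t (idx c (-s) + 1) - c.t (idx c (-s))) • c.vel (idx c (-s)) := by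
      rw [hv]; abel
    rw [hq, smul_neg, add_assoc, ← sub_eq_add_neg, ← sub_smul]
    congr 2
    ring
  · show (revC hG2 hA c h0).vel (idx (revC hG2 hA c h0) s) = -c.vel (idx c (-s))
    rw [hi, revC_vel, neg_neg]

lemma rotF_pi (z : Phase × Bool) :
    (rotF Real.pi z).1.1 = z.1.1 ∧ ((rotF Real.pi z).1.2 : Plane) = -(z.1.2 : Plane) ∧
      (rotF Real.pi z).2 = z.2 := by
  refine ⟨rfl, ?_, rfl⟩
  show Real.cos Real.pi • (z.1.2 : Plane) + (sgn z.2 * Real.sin Real.pi) • J (z.1.2 : Plane) = _
  rw [Real.cos_pi, Real.sin_pi]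
  simp

/-- at a collision time the position is on a side -/
lemma ne_of_interior (hG1 : StG1) (hA : AffineIndependent ℝ A) (c : Chain A) {s : ℝ}
    (h : ∀ i, 0 < cd A i (stateAt c s).1) : c.t (idx c s) ≠ s := by
  intro hs
  have h1 : (stateAt c s).1 = c.q (idx c s) := by
    show c.q (idx c s) + (s - c.t (idx c s)) • c.vel (idx c s) = _
    rw [hs]; simp
  have h2 := c.mem_side (idx c s)
  rw [(hG1 A hA).2.2.2.2.2.2.2.2.2.2 (c.side (idx c s))] at h2
  have h3 := h (c.side (idx c s))
  rw [h1, h2.1] at h3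
  exact lt_irrefl _ h3

lemma ae_fst {Q : Phase → Prop} (h : ∀ᵐ p ∂(phaseMeasure A), Q p) :
    ∀ᵐ z ∂(μM A), Q z.1 := by
  unfold μM
  exact Measure.quasiMeasurePreserving_fst.ae h

end Rev

open Rev in
theorem rev (hG1 : StG1) (hG2 : StG2) (hU : StUniq) (hE : StExist) (hAe : StAe) (hMP : StMP) :
    StRev := by
  intro A hA t
  have a1 := ae_fst (hAe A hA).1
  have a2 : ∀ᵐ z ∂(μM A), OK A (flowM A (-t) z).1 ∧ ∀ i, 0 < cd A i (flowM A (-t) z).1.1 :=
    (hMP A hA (-t)).quasiMeasurePreserving.ae a1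
  filter_upwards [a1, a2] with z hz1 hz2
  obtain ⟨⟨hadm, hline⟩, hint⟩ := hz1
  have hok : OK A z.1 := ⟨hadm, hline⟩
  have hgood : Good A z.1 := hE A hA _ hok
  set c := chainOf A z.1 hgood with hc
  have hthr : c.Through z.1 := hgood.choose_spec
  have hst0 : z.1 = stateAt c 0 := (through_iff c z.1).1 hthr
  -- the state at time `-t`
  have hfl : flowP A (-t) z.1 = stateAt c (-t) := by
    unfold flowP; rw [dif_pos ⟨hok, hgood⟩]
  have hpar : par A (-t) z.1 = decide (Odd (idx c (-t))) := by
    unfold par; rw [dif_pos ⟨hok, hgood⟩]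
  have hnt : c.t (idx c (-t)) ≠ -t := by
    refine ne_of_interior hG1 hA c ?_
    have := hz2.2
    simp only [flowM, hfl] at this
    exact this
  have h00 : c.t 0 < 0 := by
    refine lt_of_le_of_ne c.t_zero_le ?_
    have h1 := ne_of_interior hG1 hA c (s := 0) (by rw [← hst0]; exact hint)
    rwa [idx_zero] at h1
  -- reversed chain
  set c' := revC hG2 hA c h00 with hc'
  obtain ⟨r1, r2, r3⟩ := rotF_pi z
  have hs0 := revC_state hG2 hA c h00 (s := 0) (by
    rw [neg_zero, idx_zero]; exact h00.ne)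
  rw [neg_zero] at hs0
  have hthr' : c'.Through (rotF Real.pi z).1 := by
    rw [through_iff]
    refine Prod.ext ?_ (Subtype.ext ?_)
    · rw [r1, hs0.2.1, ← hst0]
    · rw [r2, hs0.2.2, ← hst0]
  have hok' : OK A (rotF Real.pi z).1 := by
    refine ⟨fun i => Or.inl (by rw [r1]; exact hint i), fun w s j => ?_⟩
    have := hline w (-s) j
    rw [r1, r2]
    simpa using this
  have hgood' : Good A (rotF Real.pi z).1 := ⟨c', hthr'⟩
  have hceq : chainOf A (rotF Real.pi z).1 hgood' = c' :=
    hU A hA _ _ _ hgood'.choose_spec hthr'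
  have hfl' : flowP A t (rotF Real.pi z).1 = stateAt c' t := by
    unfold flowP; rw [dif_pos ⟨hok', hgood'⟩, hceq]
  have hpar' : par A t (rotF Real.pi z).1 = decide (Odd (idx c' t)) := by
    unfold par; rw [dif_pos ⟨hok', hgood'⟩, hceq]
  obtain ⟨i1, i2, i3⟩ := revC_state hG2 hA c h00 hnt
  obtain ⟨q1, q2, q3⟩ := rotF_pi (flowM A (-t) z)
  refine Prod.ext (Prod.ext ?_ (Subtype.ext ?_)) ?_
  · rw [q1]
    show (flowP A t (rotF Real.pi z).1).1 = (flowP A (-t) z.1).1
    rw [hfl', hfl, i2]
  · rw [q2]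
    show ((flowP A t (rotF Real.pi z).1).2 : Plane) = -((flowP A (-t) z.1).2 : Plane)
    rw [hfl', hfl, i3]
  · rw [q3]
    show xor (rotF Real.pi z).2 (par A t (rotF Real.pi z).1) = xor z.2 (par A (-t) z.1)
    rw [r3, hpar', hpar]
    congr 1
    rw [hc', i1]
    simp only [odd_neg]

end Crest.Agent.R103
end
end

-- ▼ part R103/Rot
section

/-!
# R103/Rot: H10, rotations of frames
-/

open MeasureTheory Filter Topology
open Crest.AnalysisR.Billiard

noncomputable section

namespace Crest.Agent.R103.Rot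

lemma normJ_aux (c s : ℝ) (h : c ^ 2 + s ^ 2 = 1) (v : Plane) : ‖c • v + s • J v‖ = ‖v‖ := by
  have h2 : ‖c • v + s • J v‖ ^ 2 = ‖v‖ ^ 2 := by
    rw [EuclideanSpace.norm_sq_eq, EuclideanSpace.norm_sq_eq]
    simp only [Fin.sum_univ_two, PiLp.add_apply, PiLp.smul_apply, smul_eq_mul, J_zero, J_one,
      Real.norm_eq_abs, sq_abs]
    have : (c * v 0 + s * -(v 1)) ^ 2 + (c * v 1 + s * v 0) ^ 2
        = (c ^ 2 + s ^ 2) * (v 0 ^ 2 + v 1 ^ 2) := by ring
    rw [this, h, one_mul]
  have h3 := norm_nonneg (c • v + s • J v)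
  have h4 := norm_nonneg v
  exact (pow_left_inj₀ h3 h4 two_ne_zero).1 h2

lemma J_add (u v : Plane) : J (u + v) = J u + J v := by
  ext i; fin_cases i <;> simp [J, add_comm]

lemma J_smul (r : ℝ) (v : Plane) : J (r • v) = r • J v := by
  ext i; fin_cases i <;> simp [J]

lemma J_J (v : Plane) : J (J v) = - v := by
  ext i; fin_cases i <;> simp [J]

lemma J_continuous : Continuous J := by
  unfold J
  have h0 : Continuous fun v : Plane => v 0 := by fun_prop
  have h1 : Continuous fun v : Plane => v 1 := by fun_prop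
  refine (PiLp.continuous_toLp 2 _).comp ?_
  refine continuous_pi fun i => ?_
  fin_cases i
  · exact h1.neg
  · exact h0

/-- rotation as a linear isometry equivalence -/
def rotL (c s : ℝ) (h : c ^ 2 + s ^ 2 = 1) : Plane ≃ₗᵢ[ℝ] Plane :=
  LinearIsometry.toLinearIsometryEquiv
    (⟨⟨⟨fun v => c • v + s • J v, by
        intro u v; simp only [J_add, smul_add]; abel⟩, by
        intro r v; simp only [J_smul, smul_add, RingHom.id_apply, smul_smul, mul_comm]⟩,
      fun v => normJ_aux c s h v⟩ : Plane →ₗᵢ[ℝ] Plane) rfl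

@[simp] lemma rotL_apply (c s : ℝ) (h : c ^ 2 + s ^ 2 = 1) (v : Plane) :
    rotL c s h v = c • v + s • J v := rfl

lemma cs_aux (a : ℝ) (b : Bool) : (Real.cos a) ^ 2 + (sgn b * Real.sin a) ^ 2 = 1 := by
  have h := sgn_sq b
  have h4 := Real.cos_sq_add_sin_sq a
  have : sgn b ^ 2 = 1 := by rw [pow_two, h]
  rw [mul_pow, this, one_mul, h4]

lemma rotF_eq (a : ℝ) (z : Phase × Bool) :
    rotF a z = ((z.1.1, Br.sphMap (rotL (Real.cos a) (sgn z.2 * Real.sin a) (cs_aux a z.2))
      z.1.2), z.2) := by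
  refine Prod.ext (Prod.ext rfl (Subtype.ext ?_)) rfl
  simp [rotF]

lemma rotF_continuous : Continuous (fun p : ℝ × (Phase × Bool) => rotF p.1 p.2) := by
  have hs : Continuous (fun p : ℝ × (Phase × Bool) => sgn p.2.2) :=
    (continuous_of_discreteTopology (f := sgn)).comp (continuous_snd.comp continuous_snd)
  have hv : Continuous (fun p : ℝ × (Phase × Bool) => (p.2.1.2 : Plane)) :=
    continuous_subtype_val.comp (continuous_snd.comp (continuous_fst.comp continuous_snd))
  refine Continuous.prodMk (Continuous.prodMk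
    (continuous_fst.comp (continuous_fst.comp continuous_snd)) ?_)
    (continuous_snd.comp continuous_snd)
  refine Continuous.subtype_mk ?_ _
  exact ((Real.continuous_cos.comp continuous_fst).smul hv).add
    ((hs.mul (Real.continuous_sin.comp continuous_fst)).smul (J_continuous.comp hv))

lemma rotF_zero (z : Phase × Bool) : rotF 0 z = z := by
  refine Prod.ext (Prod.ext rfl (Subtype.ext ?_)) rfl
  simp [rotF]

lemma rotF_add (a b : ℝ) (z : Phase × Bool) : rotF (a + b) z = rotF a (rotF b z) := by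
  refine Prod.ext (Prod.ext rfl (Subtype.ext ?_)) rfl
  have h := sgn_sq z.2
  simp only [rotF]
  rw [J_add, J_smul, J_smul, J_J, Real.cos_add, Real.sin_add]
  ext i
  simp only [PiLp.add_apply, PiLp.smul_apply, PiLp.neg_apply, smul_eq_mul]
  linear_combination (Real.sin a * Real.sin b * (z.1.2 : Plane) i) * h

lemma rotF_two_pi (z : Phase × Bool) : rotF (2 * Real.pi) z = z := by
  refine Prod.ext (Prod.ext rfl (Subtype.ext ?_)) rfl
  simp [rotF]

lemma rotF_mp (A : Fin 3 → Plane) (a : ℝ) : MeasurePreserving (rotF a) (μM A) (μM A) := by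
  have hm : Measurable (rotF a) :=
    (rotF_continuous.comp (Continuous.prodMk continuous_const continuous_id)).measurable
  have hskew : MeasurePreserving (fun p : Bool × Phase => (p.1, (rotF a (p.2, p.1)).1))
      ((Measure.count : Measure Bool).prod (phaseMeasure A))
      ((Measure.count : Measure Bool).prod (phaseMeasure A)) := by
    refine MeasurePreserving.skew_product (f := id) (MeasurePreserving.id _)
      (g := fun b p => (rotF a (p, b)).1) ?_ ?_
    · exact measurable_fst.comp (hm.comp measurable_swap)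
    · refine Filter.Eventually.of_forall fun b => ?_
      have : (fun p : Phase => (rotF a (p, b)).1)
          = Prod.map id (Br.sphMap (rotL (Real.cos a) (sgn b * Real.sin a) (cs_aux a b))) := by
        funext p
        rw [rotF_eq]
        rfl
      rw [this]
      exact ((MeasurePreserving.id _).prod (Br.sphMap_mp _)).map_eq
  have h := (Measure.measurePreserving_swap
    (μ := (Measure.count : Measure Bool)) (ν := phaseMeasure A)).comp
    (hskew.comp (Measure.measurePreserving_swap
      (μ := phaseMeasure A) (ν := (Measure.count : Measure Bool))))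
  exact h

lemma frm_rotF (α : ℝ) (z : Phase × Bool) (ζ : ℂ) :
    frm (rotF α z) ζ = frm z (Complex.exp (α * Complex.I) * ζ) := by
  have h := sgn_sq z.2
  have hre : (Complex.exp (α * Complex.I) * ζ).re
      = Real.cos α * ζ.re - Real.sin α * ζ.im := by
    rw [Complex.mul_re, Complex.exp_ofReal_mul_I_re, Complex.exp_ofReal_mul_I_im]
  have him : (Complex.exp (α * Complex.I) * ζ).im
      = Real.cos α * ζ.im + Real.sin α * ζ.re := by
    rw [Complex.mul_im, Complex.exp_ofReal_mul_I_re, Complex.exp_ofReal_mul_I_im]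
  simp only [frm, rotF, hre, him]
  rw [J_add, J_smul, J_smul, J_J]
  ext i
  simp only [PiLp.add_apply, PiLp.smul_apply, PiLp.neg_apply, smul_eq_mul]
  linear_combination (-(Real.sin α) * ζ.im * (z.1.2 : Plane) i) * h

end Crest.Agent.R103.Rot

namespace Crest.Agent.R103

theorem rot_ : StRot :=
  ⟨Rot.rotF_continuous.measurable, Rot.rotF_zero, Rot.rotF_add, Rot.rotF_two_pi, Rot.rotF_mp,
    fun z => Rot.rotF_continuous.comp (Continuous.prodMk continuous_id continuous_const),
    fun A => by unfold μM; infer_instance, Rot.frm_rotF⟩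

end Crest.Agent.R103
end
end

-- ▼ part R103/Loc
section

/-!
# R103, H11: short time behaviour of the billiard flow (no collision / exactly one collision)
-/

open MeasureTheory Filter Topology
open Crest.AnalysisR.Billiard

noncomputable section

namespace Crest.Agent.R103

namespace Loc

variable {A : Fin 3 → Plane}

/-- the data of the zeroth flight of a chain through `p` -/
lemma flight_zero (c : Chain A) {p : Phase} (hp : c.Through p) :
    p.1 = c.q 0 - c.t 0 • c.vel 0 ∧ (p.2 : Plane) = c.vel 0 := by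
  have h := (through_iff c p).1 hp
  have h1 : p.1 = (stateAt c 0).1 := by rw [h]
  have h2 : (p.2 : Plane) = (stateAt c 0).2 := by rw [h]
  simp only [stateAt, idx_zero] at h1 h2
  refine ⟨?_, h2⟩
  rw [h1]; simp [sub_eq_add_neg]

/-- the next collision point on the straight line of the flight -/
lemma q_succ (c : Chain A) (k : ℤ) :
    c.q (k + 1) = c.q k + (c.t (k + 1) - c.t k) • c.vel k := by
  have h : c.t (k + 1) - c.t k ≠ 0 := (sub_pos.2 (c.strictMono_t (by omega))).ne'
  rw [Chain.vel, smul_smul, mul_inv_cancel₀ h, one_smul]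
  abel

/-- the first collision point through `p` -/
lemma q_one (c : Chain A) {p : Phase} (hp : c.Through p) :
    c.q 1 = p.1 + c.t 1 • (p.2 : Plane) := by
  obtain ⟨h1, h2⟩ := flight_zero c hp
  have h3 := q_succ c 0
  rw [zero_add] at h3
  rw [h3, h1, h2]
  module

/-- the velocity after the first collision -/
lemma vel_one (c : Chain A) {p : Phase} (hp : c.Through p) :
    c.vel 1 = mirror (sideVec A (c.side 1)) (p.2 : Plane) := by
  obtain ⟨-, h2⟩ := flight_zero c hp
  have h := c.reflect 0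
  simp only [zero_add] at h
  rw [h2]
  exact h

lemma stateAt_of_idx_zero (c : Chain A) {p : Phase} (hp : c.Through p) {t : ℝ}
    (h : idx c t = 0) : stateAt c t = (p.1 + t • (p.2 : Plane), p.2) := by
  obtain ⟨h1, h2⟩ := flight_zero c hp
  refine Prod.ext ?_ (Subtype.ext ?_)
  · simp only [stateAt, h]
    rw [h1, h2]
    module
  · simp only [stateAt, h]
    exact h2.symm

end Loc

open Loc in
theorem loc : StG1 → StG2 → StUniq → StExist → StLoc := by
  intro hG1 hG2 _ hEx A hA
  obtain ⟨-, -, -, hcd, -, -, -, -, -, -, hside⟩ := hG1 A hA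
  constructor
  · intro p t ht hOK h0 h1
    have hgood : Good A p := hEx A hA p hOK
    have hthr : (chainOf A p hgood).Through p := hgood.choose_spec
    set c := chainOf A p hgood with hc
    have hq1 := q_one c hthr
    have hms := c.mem_side 1
    rw [hside] at hms
    obtain ⟨hz, -⟩ := hms
    have ht1 : t < c.t 1 := by
      by_contra hcon
      push Not at hcon
      rw [hq1, hcd] at hz
      have h3 := h1 (c.side 1)
      rw [hcd] at h3
      have h4 := h0 (c.side 1)
      have h5 := c.t_one_pos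
      nlinarith
    have hidx : idx c t = 0 :=
      idx_unique c (c.t_zero_le.trans ht) (by simpa using ht1)
    have hst := stateAt_of_idx_zero c hthr hidx
    constructor
    · rw [flowP, dif_pos ⟨hOK, hgood⟩]
      exact hst
    · rw [par, dif_pos ⟨hOK, hgood⟩]
      show decide (Odd (idx c t)) = false
      rw [hidx]; decide
  · intro p t i ht hOK h0 hneg hpos
    obtain ⟨-, -, -, -, -, hrefl, -, -, hfix, -, -, -, -⟩ := hG2 A hA i
    have hgood : Good A p := hEx A hA p hOK
    have hthr : (chainOf A p hgood).Through p := hgood.choose_spec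
    set c := chainOf A p hgood with hc
    have hq1 := q_one c hthr
    have hms := c.mem_side 1
    rw [hside] at hms
    obtain ⟨hz, hz'⟩ := hms
    have hq1nn : ∀ j, 0 ≤ cd A j (c.q 1) := by
      intro j
      by_cases hj : j = c.side 1
      · rw [hj, hz]
      · exact (hz' j hj).le
    have htp := c.t_one_pos
    have ht1 : c.t 1 ≤ t := by
      by_contra hcon
      push Not at hcon
      have h3 := hq1nn i
      rw [hq1, hcd] at h3
      rw [hcd] at hneg
      have h4 := h0 i
      nlinarith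
    have hs1 : c.side 1 = i := by
      by_contra hcon
      have := (hpos _ hcon (c.t 1) htp.le ht1).1
      rw [← hq1, hz] at this
      exact lt_irrefl _ this
    have hv1 := vel_one c hthr
    rw [hs1] at hv1 hz
    have hline : ∀ s : ℝ, c.q 1 + (s - c.t 1) • c.vel 1 = refl A i (p.1 + s • (p.2 : Plane)) := by
      intro s
      have : p.1 + s • (p.2 : Plane) = c.q 1 + (s - c.t 1) • (p.2 : Plane) := by
        rw [hq1]; module
      rw [this, hrefl, hfix _ hz, hv1]
    have ht2 : t < c.t 2 := by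
      by_contra hcon
      push Not at hcon
      have h12 : c.t 1 < c.t 2 := c.strictMono_t (by norm_num)
      have hms2 := c.mem_side 2
      rw [hside] at hms2
      have hne : c.side 2 ≠ i := by
        have := c.side_ne 1
        rw [hs1] at this
        exact this
      have h5 := (hpos _ hne (c.t 2) (by linarith) hcon).2
      have h6 : c.q 2 = refl A i (p.1 + c.t 2 • (p.2 : Plane)) := by
        rw [← hline]
        exact q_succ c 1
      rw [← h6, hms2.1] at h5
      exact lt_irrefl _ h5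
    have hidx : idx c t = 1 := idx_unique c ht1 (by simpa using ht2)
    refine ⟨?_, ?_, ?_⟩
    · rw [flowP, dif_pos ⟨hOK, hgood⟩]
      show (stateAt c t).1 = _
      simp only [stateAt, hidx]
      exact hline t
    · rw [flowP, dif_pos ⟨hOK, hgood⟩]
      show ((stateAt c t).2 : Plane) = _
      simp only [stateAt, hidx]
      exact hv1
    · rw [par, dif_pos ⟨hOK, hgood⟩]
      show decide (Odd (idx c t)) = true
      rw [hidx]; decide

end Crest.Agent.R103
end
end

-- ▼ part R103/Tr
section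

/-!
# R103, H12: local description of the translations `tr` in the moving frame (helper611)
-/

open MeasureTheory Filter Topology
open Crest.AnalysisR.Billiard

noncomputable section

namespace Crest.Agent.R103

namespace TrL

/-- the quarter turn as a linear map -/
def Jl : Plane →ₗ[ℝ] Plane where
  toFun := J
  map_add' := fun u v => by
    ext i; fin_cases i
    · show -((u + v) 1) = -(u 1) + -(v 1)
      simp [add_comm]
    · show (u + v) 0 = u 0 + v 0
      simp
  map_smul' := fun c v => by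
    ext i; fin_cases i
    · show -((c • v) 1) = c * -(v 1)
      simp
    · show (c • v) 0 = c * v 0
      simp

lemma continuous_J : Continuous J := Jl.continuous_of_finiteDimensional



lemma sgn_not (b : Bool) : sgn (!b) = - sgn b := by cases b <;> simp [sgn]

/-- the velocity part of `rotF` does not depend on the position -/
lemma rotF_pos (α : ℝ) (x y : Plane) (v : ↥(Metric.sphere (0 : Plane) 1)) (b : Bool) :
    rotF α ((y, v), b) = ((y, (rotF α ((x, v), b)).1.2), b) := rfl

lemma rotF_vel (α : ℝ) (z : Phase × Bool) : ((rotF α z).1.2 : Plane)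
    = Real.cos α • (z.1.2 : Plane) + (sgn z.2 * Real.sin α) • J (z.1.2 : Plane) := rfl

lemma rotF_fst (α : ℝ) (z : Phase × Bool) : (rotF α z).1.1 = z.1.1 := rfl


lemma frm_eq (z : Phase × Bool) (ζ : ℂ) :
    frm z ζ = ‖ζ‖ • ((rotF ζ.arg z).1.2 : Plane) := by
  rw [rotF_vel, smul_add, smul_smul, smul_smul, frm]
  have h1 : ‖ζ‖ * Real.cos ζ.arg = ζ.re := Complex.norm_mul_cos_arg ζ
  have h2 : ‖ζ‖ * Real.sin ζ.arg = ζ.im := Complex.norm_mul_sin_arg ζ
  rw [h1, ← h2]
  congr 2; ring

variable {A : Fin 3 → Plane}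

instance sfinite_phaseMeasure (A : Fin 3 → Plane) : SFinite (phaseMeasure A) := by
  have h1 : SFinite ((volume : Measure Plane).restrict
    (interior ((convexHull ℝ) (Set.range A)))) := inferInstance
  have h3 : SFinite ((volume : Measure Plane).toSphere) := inferInstance
  unfold phaseMeasure
  exact Measure.prod.instSFinite

lemma ae_lift {P : Phase → Prop} (h : ∀ᵐ p ∂(phaseMeasure A), P p) :
    ∀ᵐ z ∂(μM A), P z.1 := by
  have : Measure.QuasiMeasurePreserving (Prod.fst : Phase × Bool → Phase) (μM A) (phaseMeasure A) :=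
    Measure.quasiMeasurePreserving_fst
  exact this.ae h

lemma tr_mp (hR : StRot) (hMP : StMP) (hA : AffineIndependent ℝ A) (ζ : ℂ) :
    MeasurePreserving (tr (flowM A) rotF ζ) (μM A) (μM A) :=
  (hR.2.2.2.2.1 A _).comp ((hMP A hA _).comp (hR.2.2.2.2.1 A _))

lemma measurable_frm (ζ : ℂ) : Measurable (fun z : Phase × Bool => frm z ζ) := by
  have h1 : Measurable (fun z : Phase × Bool => (z.1.2 : Plane)) :=
    measurable_subtype_coe.comp (measurable_snd.comp measurable_fst)
  have h2 : Measurable (fun z : Phase × Bool => J (z.1.2 : Plane)) :=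
    continuous_J.measurable.comp h1
  have h3 : Measurable (fun z : Phase × Bool => sgn z.2 * ζ.im) :=
    ((Measurable.of_discrete (f := sgn)).comp measurable_snd).mul_const _
  exact (h1.const_smul ζ.re).add (h3.smul h2)

lemma line_null (h1 : StG1) (hA : AffineIndependent ℝ A) (i : Fin 3) (c : Plane) :
    (volume : Measure Plane) {x | cd A i (x + c) = 0} = 0 := by
  obtain ⟨-, -, -, hcd, hv, -⟩ := h1 A hA
  have hld : ∀ x y, cd A i x - cd A i y = ld A i (x - y) := fun x y => by
    have := hcd i y 1 (x - y)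
    rw [one_smul, one_mul, add_sub_cancel] at this
    linarith
  let s : AffineSubspace ℝ Plane :=
    { carrier := {x | cd A i x = 0}
      smul_vsub_vadd_mem' := by
        intro a p q r hp hq hr
        have hp' : cd A i p = 0 := hp
        have hq' : cd A i q = 0 := hq
        have hr' : cd A i r = 0 := hr
        show cd A i (a • (p - q) + r) = 0
        rw [add_comm, hcd, ← hld, hp', hq', hr']
        simp }
  have hs : s ≠ ⊤ := by
    intro h
    have : A i ∈ s := by rw [h]; trivial
    have h2 : cd A i (A i) = 0 := this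
    rw [hv] at h2
    simp at h2
  have h0 : (volume : Measure Plane) (s : Set Plane) = 0 := Measure.addHaar_affineSubspace _ s hs
  have h3 : {x | cd A i (x + c) = 0} = (fun x => x + c) ⁻¹' (s : Set Plane) := rfl
  rw [h3, measure_preimage_add_right]
  exact h0

lemma end_ne (h1 : StG1) (hA : AffineIndependent ℝ A) (ζ : ℂ) (i : Fin 3) :
    ∀ᵐ z ∂(μM A), cd A i (z.1.1 + frm z ζ) ≠ 0 := by
  have hcont : Continuous (cd A i) := (h1 A hA).2.2.2.2.2.2.2.1 i
  have hm : MeasurableSet {z : Phase × Bool | cd A i (z.1.1 + frm z ζ) = 0} := by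
    have : Measurable (fun z : Phase × Bool => cd A i (z.1.1 + frm z ζ)) :=
      hcont.measurable.comp
        ((measurable_fst.comp measurable_fst).add (measurable_frm ζ))
    exact this (measurableSet_singleton 0)
  have key : (μM A) {z : Phase × Bool | cd A i (z.1.1 + frm z ζ) = 0} = 0 := by
    rw [μM, Measure.prod_apply_symm hm]
    have : ∀ b : Bool, (phaseMeasure A)
        ((fun p : Phase => (p, b)) ⁻¹' {z : Phase × Bool | cd A i (z.1.1 + frm z ζ) = 0}) = 0 := by
      intro b
      have hm2 : MeasurableSet ((fun p : Phase => (p, b)) ⁻¹'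
          {z : Phase × Bool | cd A i (z.1.1 + frm z ζ) = 0}) := measurable_prodMk_right hm
      rw [phaseMeasure, Measure.prod_apply_symm hm2]
      have : ∀ v : ↥(Metric.sphere (0 : Plane) 1),
          ((volume : Measure Plane).restrict (interior (convexHull ℝ (Set.range A))))
          ((fun x : Plane => (x, v)) ⁻¹' ((fun p : Phase => (p, b)) ⁻¹'
          {z : Phase × Bool | cd A i (z.1.1 + frm z ζ) = 0})) = 0 := by
        intro v
        refine nonpos_iff_eq_zero.1 ((Measure.restrict_apply_le _ _).trans ?_)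
        exact (line_null h1 hA i (frm ((0, v), b) ζ)).le
      exact (lintegral_congr this).trans lintegral_zero
    exact (lintegral_congr this).trans lintegral_zero
  exact (measure_eq_zero_iff_ae_notMem.1 key).mono fun z hz => hz

end TrL

open TrL in
/-- H12. -/
theorem trr : StG1 → StG2 → StRot → StLoc → StAe → StMP → StTr := by
  intro h1 h2 hR hL hAe hMP A hA ζ
  have hae : ∀ᵐ z ∂(μM A), OK A z.1 ∧ ∀ i, 0 < cd A i z.1.1 := ae_lift (hAe A hA).1
  have haeR : ∀ᵐ z ∂(μM A), OK A (rotF ζ.arg z).1 ∧ ∀ i, 0 < cd A i (rotF ζ.arg z).1.1 :=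
    (hR.2.2.2.2.1 A ζ.arg).quasiMeasurePreserving.ae hae
  have hback : ∀ z, rotF (-ζ.arg) (rotF ζ.arg z) = z := fun z => by
    rw [← hR.2.2.1, neg_add_cancel, hR.2.1]
  refine ⟨?_, ?_, ?_, ?_⟩
  · filter_upwards [haeR] with z hz hin hout
    have hL1 := (hL A hA).1 (rotF ζ.arg z).1 ‖ζ‖ (norm_nonneg _) hz.1 hz.2
      (by
        intro j
        have := hout j
        rw [frm_eq] at this
        exact this)
    obtain ⟨ha, hb⟩ := hL1
    show rotF (-ζ.arg) (flowM A ‖ζ‖ (rotF ζ.arg z)) = _
    have hf : flowM A ‖ζ‖ (rotF ζ.arg z)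
        = ((z.1.1 + frm z ζ, (rotF ζ.arg z).1.2), z.2) := by
      rw [flowM, ha, hb, frm_eq, Bool.xor_false]
      rfl
    rw [hf, rotF_pos (-ζ.arg) (rotF ζ.arg z).1.1]
    have hz2 : rotF (-ζ.arg) (((rotF ζ.arg z).1.1, (rotF ζ.arg z).1.2), z.2) = z := hback z
    rw [hz2]
  · intro i
    filter_upwards [haeR] with z hz hin hneg hside
    obtain ⟨-, -, -, -, hlin, -, -, -, -, hJ, -⟩ := h2 A hA i
    have hnorm : ‖((rotF ζ.arg z).1.2 : Plane)‖ = 1 := by simp
    have hL2 := (hL A hA).2 (rotF ζ.arg z).1 ‖ζ‖ i (norm_nonneg _) hz.1 hz.2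
      (by
        have := hneg
        rw [frm_eq] at this
        exact this)
      (by
        intro j hj s hs0 hs1
        refine hside j hj _ ?_
        rw [dist_eq_norm]
        have : z.1.1 - ((rotF ζ.arg z).1.1 + s • ((rotF ζ.arg z).1.2 : Plane))
            = -(s • ((rotF ζ.arg z).1.2 : Plane)) := by
          rw [rotF_fst]; abel
        rw [this, norm_neg, norm_smul, hnorm, mul_one, Real.norm_eq_abs, abs_of_nonneg hs0]
        exact hs1)
    obtain ⟨ha, hb, hc⟩ := hL2
    have hsnd : (flowM A ‖ζ‖ (rotF ζ.arg z)).2 = !z.2 := by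
      rw [flowM, hc, Bool.xor_true]; rfl
    refine ⟨?_, ?_, hsnd⟩
    · show (flowP A ‖ζ‖ (rotF ζ.arg z).1).1 = _
      rw [ha, frm_eq]; rfl
    · show ((rotF (-ζ.arg) (flowM A ‖ζ‖ (rotF ζ.arg z))).1.2 : Plane) = _
      rw [rotF_vel, hsnd, sgn_not]
      have hv : (((flowM A ‖ζ‖ (rotF ζ.arg z)).1.2 : ↥(Metric.sphere (0 : Plane) 1)) : Plane)
          = mirror (sideVec A i) ((rotF ζ.arg z).1.2 : Plane) := hb
      rw [hv, hJ, Real.cos_neg, Real.sin_neg, smul_neg, ← neg_smul]
      have e : -(-sgn z.2 * -Real.sin ζ.arg) = sgn z.2 * Real.sin (-ζ.arg) := by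
        rw [Real.sin_neg]; ring
      rw [e]
      have hzz : (z.1.2 : Plane) = Real.cos (-ζ.arg) • ((rotF ζ.arg z).1.2 : Plane)
          + (sgn z.2 * Real.sin (-ζ.arg)) • J ((rotF ζ.arg z).1.2 : Plane) := by
        have := congrArg (fun w : Phase × Bool => (w.1.2 : Plane)) (hback z)
        simp only [rotF_vel (-ζ.arg)] at this
        exact this.symm
      conv_rhs => rw [hzz]
      rw [hlin, Real.cos_neg]
  · have h := (tr_mp hR hMP hA ζ).quasiMeasurePreserving.ae hae
    filter_upwards [h] with z hz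
    exact hz.2
  · rw [ae_all_iff]
    exact fun i => end_ne h1 hA ζ i

end Crest.Agent.R103
end
end

-- ▼ part R103/LC
section

/-!
# R103 H13: local commutation and continuity at `0` of the translations of the triangle billiard
-/

open MeasureTheory Filter Topology
open Crest.AnalysisR.Billiard

noncomputable section

namespace Crest.Agent.R103.LCm



lemma sgn_not (b : Bool) : sgn (!b) = - sgn b := by cases b <;> simp [sgn]

lemma norm_sphere (v : ↥(Metric.sphere (0 : Plane) 1)) : ‖(v : Plane)‖ = 1 := by simp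

lemma norm_frm (z : Phase × Bool) (ζ : ℂ) : ‖frm z ζ‖ = ‖ζ‖ := by
  have h1 : ‖(z.1.2 : Plane)‖ ^ 2 = (z.1.2 : Plane) 0 ^ 2 + (z.1.2 : Plane) 1 ^ 2 := by
    rw [EuclideanSpace.norm_sq_eq]; simp [Fin.sum_univ_two]
  rw [norm_sphere] at h1
  have h2 : ‖frm z ζ‖ ^ 2 = ‖ζ‖ ^ 2 := by
    rw [EuclideanSpace.norm_sq_eq, ← Complex.normSq_eq_norm_sq, Complex.normSq_apply]
    simp only [frm, Fin.sum_univ_two, PiLp.add_apply, PiLp.smul_apply, smul_eq_mul, J_zero, J_one,
      Real.norm_eq_abs, sq_abs]
    have h3 := sgn_sq z.2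
    linear_combination (-(ζ.re ^ 2) - (ζ.im) ^ 2) * h1 +
      (ζ.im ^ 2 * ((z.1.2 : Plane) 0 ^ 2 + (z.1.2 : Plane) 1 ^ 2)) * h3
  exact (sq_eq_sq₀ (norm_nonneg _) (norm_nonneg _)).1 h2

lemma frm_add (z : Phase × Bool) (ζ ζ' : ℂ) : frm z (ζ + ζ') = frm z ζ + frm z ζ' := by
  simp only [frm, Complex.add_re, Complex.add_im]
  module

/-- the translations preserve the measure -/
lemma tr_mp (hrot : StRot) (hmp : StMP) {A : Fin 3 → Plane} (hA : AffineIndependent ℝ A) (ζ : ℂ) :
    MeasurePreserving (fun z => tr (flowM A) rotF ζ z) (μM A) (μM A) := by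
  have h1 := hrot.2.2.2.2.1 A (-ζ.arg)
  have h2 := hmp A hA ‖ζ‖
  have h3 := hrot.2.2.2.2.1 A ζ.arg
  exact h1.comp (h2.comp h3)

/-- almost every frame is based in the open triangle -/
lemma ae_interior (h1 : StG1) {A : Fin 3 → Plane} (hA : AffineIndependent ℝ A) :
    ∀ᵐ z ∂(μM A), ∀ j, 0 < cd A j z.1.1 := by
  obtain ⟨-, -, -, -, -, -, -, -, -, hint, -⟩ := h1 A hA
  have hp : ∀ᵐ p ∂(phaseMeasure A), ∀ j, 0 < cd A j p.1 := by
    have h : ∀ᵐ x ∂((volume : Measure Plane).restrict (interior (convexHull ℝ (Set.range A)))),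
        ∀ j, 0 < cd A j x := by
      have := ae_restrict_mem (μ := (volume : Measure Plane))
        (s := interior (convexHull ℝ (Set.range A))) isOpen_interior.measurableSet
      filter_upwards [this] with x hx
      rw [hint] at hx
      exact hx
    exact (Measure.quasiMeasurePreserving_fst (μ := (volume : Measure Plane).restrict
      (interior (convexHull ℝ (Set.range A)))) (ν := (volume : Measure Plane).toSphere)).ae h
  exact (Measure.quasiMeasurePreserving_fst (μ := phaseMeasure A)
    (ν := (Measure.count : Measure Bool))).ae hp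

/-- the local description of a translation, for one near side -/
def Desc (A : Fin 3 → Plane) (ζ : ℂ) (z : Phase × Bool) : Prop :=
  ((∀ j, 0 < cd A j z.1.1) → (∀ j, 0 < cd A j (z.1.1 + frm z ζ)) →
    tr (flowM A) rotF ζ z = ((z.1.1 + frm z ζ, z.1.2), z.2)) ∧
  (∀ i, (∀ j, 0 < cd A j z.1.1) → cd A i (z.1.1 + frm z ζ) < 0 →
    (∀ j, j ≠ i → ∀ y, dist z.1.1 y ≤ ‖ζ‖ → 0 < cd A j y ∧ 0 < cd A j (refl A i y)) →
    (tr (flowM A) rotF ζ z).1.1 = refl A i (z.1.1 + frm z ζ) ∧
    ((tr (flowM A) rotF ζ z).1.2 : Plane) = mirror (sideVec A i) (z.1.2 : Plane) ∧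
    (tr (flowM A) rotF ζ z).2 = !z.2)

lemma ae_desc (ht : StTr) {A : Fin 3 → Plane} (hA : AffineIndependent ℝ A) (ζ : ℂ) :
    ∀ᵐ z ∂(μM A), Desc A ζ z := by
  obtain ⟨h1, h2, -, -⟩ := ht A hA ζ
  have h2' := ae_all_iff.2 h2
  filter_upwards [h1, h2'] with z a b
  exact ⟨a, b⟩

lemma ext3 {z w : Phase × Bool} (h1 : z.1.1 = w.1.1) (h2 : (z.1.2 : Plane) = (w.1.2 : Plane))
    (h3 : z.2 = w.2) : z = w :=
  Prod.ext (Prod.ext h1 (Subtype.ext h2)) h3

/-- the parallelogram law at one good frame -/
lemma comm_at (h2 : StG2) {A : Fin 3 → Plane} (hA : AffineIndependent ℝ A)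
    {ε : ℝ} {ζ ζ' : ℂ} (hζ : ‖ζ‖ ≤ ε) (hζ' : ‖ζ'‖ ≤ ε) {z : Phase × Bool} {i : Fin 3}
    (hi : ∀ j, j ≠ i → ∀ y, dist z.1.1 y ≤ 2 * ε → 0 < cd A j y ∧ 0 < cd A j (refl A i y))
    (hz : ∀ j, 0 < cd A j z.1.1)
    (hd1 : Desc A ζ z) (hd2 : Desc A ζ' (tr (flowM A) rotF ζ z)) (hd3 : Desc A (ζ + ζ') z)
    (hn1 : cd A i (z.1.1 + frm z ζ) ≠ 0) (hn2 : cd A i (z.1.1 + frm z (ζ + ζ')) ≠ 0) :
    tr (flowM A) rotF ζ' (tr (flowM A) rotF ζ z) = tr (flowM A) rotF (ζ + ζ') z := by
  obtain ⟨g1, g2, g3, -, g5, g6, g7, -, -, g10, -, -, -⟩ := h2 A hA i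
  set x := z.1.1 with hx
  set y1 := x + frm z ζ with hy1
  set y2 := x + frm z (ζ + ζ') with hy2
  have hy12 : y2 = y1 + frm z ζ' := by rw [hy2, frm_add, hy1, add_assoc]
  have dx1 : dist x y1 ≤ ε := by
    rw [hy1, dist_self_add_right, norm_frm]; exact hζ
  have d12 : dist y1 y2 ≤ ε := by
    rw [hy12, dist_self_add_right, norm_frm]; exact hζ'
  have dx2 : dist x y2 ≤ 2 * ε := by linarith [dist_triangle x y1 y2]
  have hε : 0 ≤ ε := (norm_nonneg ζ).trans hζ
  have dx1' : dist x y1 ≤ 2 * ε := by linarith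
  have hsum : ‖ζ + ζ'‖ ≤ 2 * ε := (norm_add_le _ _).trans (by linarith)
  -- interior of `y1`, `y2` with respect to the other sides
  have o1 : ∀ j, j ≠ i → 0 < cd A j y1 ∧ 0 < cd A j (refl A i y1) := fun j hj => hi j hj y1 dx1'
  have o2 : ∀ j, j ≠ i → 0 < cd A j y2 ∧ 0 < cd A j (refl A i y2) := fun j hj => hi j hj y2 dx2
  -- right-hand side
  have R1 : 0 < cd A i y2 → tr (flowM A) rotF (ζ + ζ') z = ((y2, z.1.2), z.2) := by
    intro h
    refine hd3.1 hz fun j => ?_
    rcases eq_or_ne j i with rfl | hj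
    · exact h
    · exact (o2 j hj).1
  have R2 : cd A i y2 < 0 → (tr (flowM A) rotF (ζ + ζ') z).1.1 = refl A i y2 ∧
      ((tr (flowM A) rotF (ζ + ζ') z).1.2 : Plane) = mirror (sideVec A i) (z.1.2 : Plane) ∧
      (tr (flowM A) rotF (ζ + ζ') z).2 = !z.2 := by
    intro h
    exact hd3.2 i hz h fun j hj y hy => hi j hj y (hy.trans hsum)
  rcases lt_or_gt_of_ne hn1 with h1 | h1
  · -- the first translation crosses the side
    obtain ⟨e1, e2, e3⟩ := hd1.2 i hz h1 fun j hj y hy => hi j hj y (hy.trans (by linarith))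
    set z1 := tr (flowM A) rotF ζ z with hz1
    have hz1int : ∀ j, 0 < cd A j z1.1.1 := by
      intro j
      rw [e1]
      rcases eq_or_ne j i with rfl | hj
      · rw [g7]; linarith
      · exact (o1 j hj).2
    have hfrm : frm z1 ζ' = mirror (sideVec A i) (frm z ζ') := by
      have hm := g5 ζ'.re (sgn z.2 * ζ'.im) (z.1.2 : Plane) (J (z.1.2 : Plane))
      rw [frm, e2, e3, sgn_not, g10, frm, hm]
      module
    have htgt : z1.1.1 + frm z1 ζ' = refl A i y2 := by
      rw [e1, hfrm, hy12]
      have := g6 y1 1 (frm z ζ')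
      simpa using this.symm
    rcases lt_or_gt_of_ne hn2 with h2' | h2'
    · -- end point outside: target inside
      have hL := hd2.1 hz1int (by
        intro j
        rw [htgt]
        rcases eq_or_ne j i with rfl | hj
        · rw [g7]; linarith
        · exact (o2 j hj).2)
      obtain ⟨r1, r2, r3⟩ := R2 h2'
      rw [hL]
      refine ext3 ?_ ?_ ?_
      · show z1.1.1 + frm z1 ζ' = _
        rw [htgt, r1]
      · show (z1.1.2 : Plane) = _
        rw [e2, r2]
      · show z1.2 = _
        rw [e3, r3]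
    · -- end point inside: crosses back
      have hcond : ∀ j, j ≠ i → ∀ y, dist z1.1.1 y ≤ ‖ζ'‖ →
          0 < cd A j y ∧ 0 < cd A j (refl A i y) := by
        intro j hj y hy
        have hd : dist y1 (refl A i y) ≤ ε := by
          rw [← g3 y1 (refl A i y), g1, ← e1]
          exact hy.trans hζ'
        have hd' : dist x (refl A i y) ≤ 2 * ε := by
          linarith [dist_triangle x y1 (refl A i y)]
        have := hi j hj _ hd'
        rw [g1] at this
        exact ⟨this.2, this.1⟩
      obtain ⟨s1, s2, s3⟩ := hd2.2 i hz1int (by rw [htgt, g7]; linarith) hcond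
      rw [R1 h2']
      refine ext3 ?_ ?_ ?_
      · rw [s1, htgt, g1]
      · rw [s2, e2, g2]
      · rw [s3, e3, Bool.not_not]
  · -- the first translation stays inside
    have e := hd1.1 hz (by
      intro j
      rcases eq_or_ne j i with rfl | hj
      · exact h1
      · exact (o1 j hj).1)
    have hz1int : ∀ j, 0 < cd A j (tr (flowM A) rotF ζ z).1.1 := by
      intro j
      rw [e]
      rcases eq_or_ne j i with rfl | hj
      · exact h1
      · exact (o1 j hj).1
    have hfrm : frm (tr (flowM A) rotF ζ z) ζ' = frm z ζ' := by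
      rw [e]; rfl
    have htgt : (tr (flowM A) rotF ζ z).1.1 + frm (tr (flowM A) rotF ζ z) ζ' = y2 := by
      rw [hfrm, e, hy12]
    rcases lt_or_gt_of_ne hn2 with h2' | h2'
    · have hcond : ∀ j, j ≠ i → ∀ y, dist (tr (flowM A) rotF ζ z).1.1 y ≤ ‖ζ'‖ →
          0 < cd A j y ∧ 0 < cd A j (refl A i y) := by
        intro j hj y hy
        rw [e] at hy
        have hy' : dist y1 y ≤ ‖ζ'‖ := hy
        exact hi j hj y (by linarith [dist_triangle x y1 y])
      obtain ⟨s1, s2, s3⟩ := hd2.2 i hz1int (by rw [htgt]; exact h2') hcond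
      obtain ⟨r1, r2, r3⟩ := R2 h2'
      refine ext3 ?_ ?_ ?_
      · rw [s1, htgt, r1]
      · rw [s2, r2, e]
      · rw [s3, r3, e]
    · have hL := hd2.1 hz1int (by
        intro j
        rw [htgt]
        rcases eq_or_ne j i with rfl | hj
        · exact h2'
        · exact (o2 j hj).1)
      rw [hL, R1 h2', htgt, e]

/-- H13 -/
theorem lc : StG1 → StG2 → StG3 → StRot → StLoc → StTr → StMP → StLC := by
  intro h1 h2 h3 hrot hloc ht hmp A hA
  have hint := ae_interior h1 hA
  refine ⟨?_, ?_⟩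
  · obtain ⟨⟨C₀, hC₀, hC⟩, -⟩ := h3 A hA
    refine ⟨C₀, hC₀, fun ε hε ζ ζ' hζ hζ' => ?_⟩
    have hd1 := ae_desc ht hA ζ
    have hd2 : ∀ᵐ z ∂(μM A), Desc A ζ' (tr (flowM A) rotF ζ z) :=
      (tr_mp hrot hmp hA ζ).quasiMeasurePreserving.ae (ae_desc ht hA ζ')
    have hd3 := ae_desc ht hA (ζ + ζ')
    have hn1 := (ht A hA ζ).2.2.2
    have hn2 := (ht A hA (ζ + ζ')).2.2.2
    filter_upwards [hint, hd1, hd2, hd3, hn1, hn2] with z hz a1 a2 a3 b1 b2 hv
    obtain ⟨i, hi⟩ := hC z.1.1 ε hε hv (fun i => (hz i).le)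
    exact comm_at h2 hA hζ hζ' hi hz a1 a2 a3 (b1 i) (b2 i)
  · obtain ⟨-, r0, radd, -, -, -, -, rfrm⟩ := hrot
    obtain ⟨-, -, -, -, -, -, -, hcont, -, -, -⟩ := h1 A hA
    filter_upwards [hint] with z hz
    -- a ball around the base point inside the triangle
    have hopen : IsOpen {x : Plane | ∀ j, 0 < cd A j x} := by
      have : {x : Plane | ∀ j, 0 < cd A j x} = ⋂ j, {x | 0 < cd A j x} := by ext; simp
      rw [this]
      exact isOpen_iInter_of_finite fun j => isOpen_lt continuous_const (hcont j)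
    obtain ⟨r, hr, hball⟩ := Metric.isOpen_iff.1 hopen z.1.1 hz
    have key : ∀ ζ : ℂ, ‖ζ‖ < r → ∃ w : Plane, ‖w‖ ≤ ‖ζ‖ ∧
        tr (flowM A) rotF ζ z = ((z.1.1 + w, z.1.2), z.2) := by
      intro ζ hζ
      set z' := rotF ζ.arg z with hz'
      have hz'1 : z'.1.1 = z.1.1 := rfl
      have hback : rotF (-ζ.arg) z' = z := by rw [hz', ← radd, neg_add_cancel, r0]
      have hnv : ‖(z'.1.2 : Plane)‖ = 1 := norm_sphere _
      by_cases hok : OK A z'.1
      · have hin : ∀ j, 0 < cd A j (z'.1.1 + ‖ζ‖ • (z'.1.2 : Plane)) := by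
          refine hball ?_
          rw [hz'1, Metric.mem_ball, dist_self_add_left, norm_smul, hnv]
          simpa using hζ
        obtain ⟨f1, f2⟩ := (hloc A hA).1 z'.1 ‖ζ‖ (norm_nonneg _) hok hz hin
        refine ⟨‖ζ‖ • (z'.1.2 : Plane), by rw [norm_smul, hnv]; simp, ?_⟩
        have hfl : flowM A ‖ζ‖ z' = ((z'.1.1 + ‖ζ‖ • (z'.1.2 : Plane), z'.1.2), z'.2) := by
          rw [flowM, f1, f2]; simp
        have hb2 : (rotF (-ζ.arg) z').1.2 = z.1.2 := by rw [hback]
        have hb3 : (rotF (-ζ.arg) z').2 = z.2 := by rw [hback]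
        rw [tr, ← hz', hfl]
        refine Prod.ext (Prod.ext rfl ?_) ?_
        · rw [← hb2]; rfl
        · rw [← hb3]; rfl
      · refine ⟨0, by simp, ?_⟩
        have hfl : flowM A ‖ζ‖ z' = z' := by
          rw [flowM, flowP, par, dif_neg (fun h => hok h.1), dif_neg (fun h => hok h.1)]
          simp
        rw [tr, ← hz', hfl, hback, add_zero]
    choose! w hw1 hw2 using key
    have hwt : Tendsto w (𝓝 0) (𝓝 0) := by
      rw [tendsto_zero_iff_norm_tendsto_zero]
      refine squeeze_zero' (Eventually.of_forall fun _ => norm_nonneg _) ?_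
        (tendsto_norm_zero : Tendsto (fun ζ : ℂ => ‖ζ‖) (𝓝 0) (𝓝 0))
      filter_upwards [Metric.ball_mem_nhds (0 : ℂ) hr] with ζ hζ
      exact hw1 ζ (by simpa using hζ)
    have hev : (fun ζ : ℂ => (((z.1.1 + w ζ, z.1.2), z.2) : Phase × Bool))
        =ᶠ[𝓝 0] fun ζ : ℂ => tr (flowM A) rotF ζ z := by
      filter_upwards [Metric.ball_mem_nhds (0 : ℂ) hr] with ζ hζ
      exact (hw2 ζ (by simpa using hζ)).symm
    refine Tendsto.congr' hev ?_
    have h4 : Tendsto (fun ζ : ℂ => z.1.1 + w ζ) (𝓝 0) (𝓝 z.1.1) := by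
      have := (tendsto_const_nhds (x := z.1.1)).add hwt
      simpa using this
    exact (h4.prodMk_nhds tendsto_const_nhds).prodMk_nhds tendsto_const_nhds

end Crest.Agent.R103.LCm
end
end

-- ▼ part R103/Transfer
section

/-!
# R103 H16: transfer from oriented frames to phase space
-/

open MeasureTheory Filter Topology
open Crest.AnalysisR.Billiard
open scoped symmDiff

noncomputable section

namespace Crest.Agent.R103.Transfer

instance sfinite_phaseMeasure (A : Fin 3 → Plane) : SFinite (phaseMeasure A) := by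
  have h1 : SFinite ((volume : Measure Plane).restrict
    (interior ((convexHull ℝ) (Set.range A)))) := inferInstance
  have h3 : SFinite ((volume : Measure Plane).toSphere) := inferInstance
  unfold phaseMeasure
  exact Measure.prod.instSFinite

instance sfinite_μM (A : Fin 3 → Plane) : SFinite (μM A) := by
  have h1 : SFinite (Measure.count : Measure Bool) := inferInstance
  unfold μM
  exact Measure.prod.instSFinite

/-- the projection of pairs of frames to pairs of states -/
def pr (z : (Phase × Bool) × (Phase × Bool)) : Phase × Phase := (z.1.1, z.2.1)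

lemma measurable_pr : Measurable pr :=
  (measurable_fst.comp measurable_fst).prodMk (measurable_fst.comp measurable_snd)

lemma map_fst_μM (A : Fin 3 → Plane) :
    Measure.map Prod.fst (μM A) = (Measure.count (Set.univ : Set Bool)) • phaseMeasure A := by
  unfold μM
  exact Measure.map_fst_prod

lemma count_ne_zero : Measure.count (Set.univ : Set Bool) ≠ 0 := by
  rw [Measure.count_univ]; simp

lemma map_pr (A : Fin 3 → Plane) :
    Measure.map pr ((μM A).prod (μM A)) =
      ((Measure.count (Set.univ : Set Bool)) • phaseMeasure A).prod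
        ((Measure.count (Set.univ : Set Bool)) • phaseMeasure A) := by
  have h := Measure.map_prod_map (μM A) (μM A) (measurable_fst (α := Phase) (β := Bool))
    (measurable_fst (α := Phase) (β := Bool))
  rw [map_fst_μM] at h
  rw [h]
  rfl

lemma qmp_pr (A : Fin 3 → Plane) :
    Measure.QuasiMeasurePreserving pr ((μM A).prod (μM A))
      ((phaseMeasure A).prod (phaseMeasure A)) := by
  refine ⟨measurable_pr, ?_⟩
  rw [map_pr]
  have h : (Measure.count (Set.univ : Set Bool)) • phaseMeasure A ≪ phaseMeasure A :=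
    Measure.smul_absolutelyContinuous
  exact h.prod h

lemma ac_pr (A : Fin 3 → Plane) :
    (phaseMeasure A).prod (phaseMeasure A) ≪ Measure.map pr ((μM A).prod (μM A)) := by
  rw [map_pr]
  have h : phaseMeasure A ≪ (Measure.count (Set.univ : Set Bool)) • phaseMeasure A :=
    Measure.absolutelyContinuous_smul count_ne_zero
  exact h.prod h

lemma null_of_null (A : Fin 3 → Plane) {s : Set (Phase × Phase)} (hs : MeasurableSet s)
    (h : ((μM A).prod (μM A)) (pr ⁻¹' s) = 0) :
    ((phaseMeasure A).prod (phaseMeasure A)) s = 0 := by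
  apply ac_pr A
  rw [Measure.map_apply measurable_pr hs]
  exact h

theorem transfer : StG1 → StUniq → StExist → StAe → StFlow → StMP → StTransfer := by
  intro _ hU hE hAe _ _ A hA hErg
  have hu := hU A hA
  have he := hE A hA
  have ha := (hAe A hA).1
  refine ⟨?_, ?_⟩
  · filter_upwards [ha] with p hp
    refine ⟨he p hp.1, ?_⟩
    intro c c' hc hc' τ y y' hy hy'
    have := hu c c' p hc hc'
    subst this
    rw [isStateAt_iff] at hy hy'
    rw [hy, hy']
  · intro Φ hΦ s hs hinv
    -- the flow `flowP` agrees with `Φ`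
    have hflow : ∀ t, ∀ᵐ p ∂(phaseMeasure A), flowP A t p = Φ t p := by
      intro t
      filter_upwards [ha, hΦ] with p hp hp'
      obtain ⟨c, hc, hc'⟩ := hp'
      have hgood : OK A p ∧ Good A p := ⟨hp.1, he p hp.1⟩
      have h1 : flowP A t p = stateAt (chainOf A p hgood.2) t := by
        unfold flowP
        rw [dif_pos hgood]
      have h2 : (chainOf A p hgood.2).Through p := hgood.2.choose_spec
      have h3 := hu _ _ p h2 hc
      rw [h1, h3]
      exact ((isStateAt_iff c t _).1 (hc' t)).symm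
    have hflow2 : ∀ t, ∀ᵐ z ∂((phaseMeasure A).prod (phaseMeasure A)),
        (flowP A t z.1, flowP A t z.2) = (Φ t z.1, Φ t z.2) := by
      intro t
      have h1 := (Measure.quasiMeasurePreserving_fst (μ := phaseMeasure A)
        (ν := phaseMeasure A)).ae (hflow t)
      have h2 := (Measure.quasiMeasurePreserving_snd (μ := phaseMeasure A)
        (ν := phaseMeasure A)).ae (hflow t)
      filter_upwards [h1, h2] with z hz1 hz2
      rw [hz1, hz2]
    have hkey : ∀ t : ℝ, (fun z : (Phase × Bool) × (Phase × Bool) =>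
        (flowM A t z.1, flowM A t z.2)) ⁻¹' (pr ⁻¹' s) =ᵐ[(μM A).prod (μM A)] (pr ⁻¹' s) := by
      intro t
      have h1 := measure_symmDiff_eq_zero_iff.1 (hinv t)
      have h2 : ∀ᵐ z ∂((phaseMeasure A).prod (phaseMeasure A)),
          ((flowP A t z.1, flowP A t z.2) ∈ s ↔ z ∈ s) := by
        filter_upwards [hflow2 t, h1] with z hz hz'
        rw [hz]
        exact Iff.of_eq hz'
      have h3 := (qmp_pr A).ae h2
      filter_upwards [h3] with z hz
      exact propext hz
    rcases hErg (pr ⁻¹' s) (measurable_pr hs) hkey with h | h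
    · left; exact null_of_null A hs h
    · right
      rw [← Set.preimage_compl] at h
      exact null_of_null A hs.compl h

end Crest.Agent.R103.Transfer
end
end

-- ▼ part R103/Cont

/-!
# R103, A2: strong continuity of the Koopman representations (helper690)
-/

open MeasureTheory Filter Topology
open scoped InnerProductSpace BoundedContinuousFunction ENNReal

noncomputable section

namespace Crest.Agent.R103

namespace PlaneSys

section general

variable {Ω : Type*} [TopologicalSpace Ω] [MeasurableSpace Ω] [BorelSpace Ω]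
  [SecondCountableTopology Ω] [TopologicalSpace.PseudoMetrizableSpace Ω]
  {μ : Measure Ω} [IsFiniteMeasure μ]

/-- strong convergence of Koopman operators of a.e. convergent measure preserving maps, on bounded
continuous functions -/
theorem koopman_bcf {ι : Type*} {l : Filter ι} [l.IsCountablyGenerated] {g : ι → Ω → Ω}
    (hg : ∀ i, MeasurePreserving (g i) μ μ)
    (hae : ∀ᵐ z ∂μ, Tendsto (fun i => g i z) l (𝓝 z)) (f : Ω →ᵇ ℂ) :
    Tendsto (fun i => Lp.compMeasurePreservingₗᵢ ℂ (g i) (hg i)
      (BoundedContinuousFunction.toLp 2 μ ℂ f)) l (𝓝 (BoundedContinuousFunction.toLp 2 μ ℂ f)) := by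
  set F : Lp ℂ 2 μ := BoundedContinuousFunction.toLp 2 μ ℂ f with hF
  have hFf : (F : Ω → ℂ) =ᵐ[μ] f := BoundedContinuousFunction.coeFn_toLp 2 μ ℂ f
  -- the inner products converge
  have hinner : Tendsto (fun i => ⟪Lp.compMeasurePreservingₗᵢ ℂ (g i) (hg i) F, F⟫_ℂ) l
      (𝓝 ⟪F, F⟫_ℂ) := by
    have e1 : ∀ i, ⟪Lp.compMeasurePreservingₗᵢ ℂ (g i) (hg i) F, F⟫_ℂ
        = ∫ z, ⟪f (g i z), f z⟫_ℂ ∂μ := by
      intro i
      rw [L2.inner_def]
      have h1 : (Lp.compMeasurePreservingₗᵢ ℂ (g i) (hg i) F : Ω → ℂ) =ᵐ[μ] fun z => F (g i z) :=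
        Lp.coeFn_compMeasurePreserving F (hg i)
      have h2 : ∀ᵐ z ∂μ, F (g i z) = f (g i z) := (hg i).quasiMeasurePreserving.ae hFf
      refine integral_congr_ae ?_
      filter_upwards [h1, h2, hFf] with z h1 h2 h3
      rw [h1, h2, h3]
    have e2 : ⟪F, F⟫_ℂ = ∫ z, ⟪f z, f z⟫_ℂ ∂μ := by
      rw [L2.inner_def]
      refine integral_congr_ae ?_
      filter_upwards [hFf] with z h3
      rw [h3]
    simp only [e1]
    rw [e2]
    refine tendsto_integral_filter_of_dominated_convergence (fun _ => ‖f‖ * ‖f‖) ?_ ?_ ?_ ?_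
    · refine Eventually.of_forall fun i => ?_
      have hm : Measurable (g i) := (hg i).measurable
      exact ((f.continuous.measurable.comp hm).aestronglyMeasurable).inner
        f.continuous.measurable.aestronglyMeasurable
    · refine Eventually.of_forall fun i => Eventually.of_forall fun z => ?_
      exact (norm_inner_le_norm _ _).trans
        (mul_le_mul (f.norm_coe_le_norm _) (f.norm_coe_le_norm _) (norm_nonneg _) (norm_nonneg _))
    · exact integrable_const _
    · filter_upwards [hae] with z hz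
      exact ((f.continuous.tendsto z).comp hz).inner tendsto_const_nhds
  rw [tendsto_iff_norm_sub_tendsto_zero]
  have hsq : Tendsto (fun i => ‖Lp.compMeasurePreservingₗᵢ ℂ (g i) (hg i) F - F‖ ^ 2) l (𝓝 0) := by
    have e : ∀ i, ‖Lp.compMeasurePreservingₗᵢ ℂ (g i) (hg i) F - F‖ ^ 2
        = 2 * ‖F‖ ^ 2 - 2 * RCLike.re ⟪Lp.compMeasurePreservingₗᵢ ℂ (g i) (hg i) F, F⟫_ℂ := by
      intro i
      rw [@norm_sub_sq ℂ, LinearIsometry.norm_map]
      ring
    simp only [e]
    have h1 : Tendsto (fun i => RCLike.re ⟪Lp.compMeasurePreservingₗᵢ ℂ (g i) (hg i) F, F⟫_ℂ) l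
        (𝓝 (RCLike.re ⟪F, F⟫_ℂ)) := (RCLike.continuous_re.tendsto _).comp hinner
    have h2 : RCLike.re ⟪F, F⟫_ℂ = ‖F‖ ^ 2 := by
      rw [← @inner_self_eq_norm_sq ℂ]
    rw [h2] at h1
    have := (h1.const_mul 2).const_sub (2 * ‖F‖ ^ 2)
    simpa using this
  have := (Real.continuous_sqrt.tendsto 0).comp hsq
  rw [Real.sqrt_zero] at this
  refine this.congr fun i => ?_
  simp only [Function.comp]
  exact Real.sqrt_sq (norm_nonneg _)

/-- strong convergence of Koopman operators of a.e. convergent measure preserving maps -/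
theorem koopman_tendsto {ι : Type*} {l : Filter ι} [l.IsCountablyGenerated] {g : ι → Ω → Ω}
    (hg : ∀ i, MeasurePreserving (g i) μ μ)
    (hae : ∀ᵐ z ∂μ, Tendsto (fun i => g i z) l (𝓝 z)) (f : Lp ℂ 2 μ) :
    Tendsto (fun i => Lp.compMeasurePreservingₗᵢ ℂ (g i) (hg i) f) l (𝓝 f) := by
  rw [Metric.tendsto_nhds]
  intro ε hε
  have hd : DenseRange (BoundedContinuousFunction.toLp 2 μ ℂ : (Ω →ᵇ ℂ) →L[ℂ] Lp ℂ 2 μ) :=
    BoundedContinuousFunction.toLp_denseRange ℂ μ ℂ (by norm_num)
  obtain ⟨f0, hf0⟩ := hd.exists_dist_lt f (show 0 < ε / 4 by positivity)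
  set F0 : Lp ℂ 2 μ := BoundedContinuousFunction.toLp 2 μ ℂ f0 with hF0
  have h0 := (Metric.tendsto_nhds.1 (koopman_bcf hg hae f0)) (ε / 4) (by positivity)
  filter_upwards [h0] with i hi
  have h1 : dist (Lp.compMeasurePreservingₗᵢ ℂ (g i) (hg i) f)
      (Lp.compMeasurePreservingₗᵢ ℂ (g i) (hg i) F0) = dist f F0 :=
    (Lp.compMeasurePreservingₗᵢ ℂ (g i) (hg i)).dist_map _ _
  calc dist (Lp.compMeasurePreservingₗᵢ ℂ (g i) (hg i) f) f
      ≤ dist (Lp.compMeasurePreservingₗᵢ ℂ (g i) (hg i) f)
          (Lp.compMeasurePreservingₗᵢ ℂ (g i) (hg i) F0)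
        + dist (Lp.compMeasurePreservingₗᵢ ℂ (g i) (hg i) F0) F0 + dist F0 f :=
        dist_triangle4 _ _ _ _
    _ < ε := by
        rw [h1, dist_comm F0 f]
        linarith

end general

theorem cont_ : StCont := by
  intro Ω _ _ _ _ _ μ _ S
  have hU : ∀ f : Lp ℂ 2 μ, Tendsto (fun ζ : ℂ => S.U ζ f) (𝓝 0) (𝓝 f) := fun f =>
    koopman_tendsto (g := S.T) (fun ζ => S.T_mp ζ) S.cont f
  -- a group of isometries which is continuous at `0` is continuous
  have hgrp : ∀ V : ℝ → Lp ℂ 2 μ →ₗᵢ[ℂ] Lp ℂ 2 μ, (∀ a b f, V (a + b) f = V b (V a f)) →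
      (∀ f, Tendsto (fun a => V a f) (𝓝 0) (𝓝 f)) → ∀ f, Continuous fun a => V a f := by
    intro V hV h0 f
    rw [continuous_iff_continuousAt]
    intro a₀
    have h1 : Tendsto (fun a : ℝ => a - a₀) (𝓝 a₀) (𝓝 0) := by
      have : Tendsto (fun a : ℝ => a - a₀) (𝓝 a₀) (𝓝 (a₀ - a₀)) :=
        (continuous_id.sub continuous_const).tendsto a₀
      simpa using this
    have h2 := (h0 (V a₀ f)).comp h1
    refine h2.congr fun a => ?_
    simp only [Function.comp]
    rw [← hV]
    congr 2
    ring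
  have hrot_add : ∀ a b (f : Lp ℂ 2 μ), S.rot (a + b) f = S.rot b (S.rot a f) := by
    intro a b f
    refine Lp.ext ?_
    have h1 := S.rot_coe (a + b) f
    have h2 := S.rot_coe b (S.rot a f)
    have h3 : ∀ᵐ z ∂μ, S.rot a f (S.R b z) = f (S.R a (S.R b z)) :=
      (S.R_mp b).quasiMeasurePreserving.ae (S.rot_coe a f)
    filter_upwards [h1, h2, h3] with z h1 h2 h3
    rw [h1, h2, h3, S.R_add]
  have hφ_add : ∀ a b (f : Lp ℂ 2 μ), S.Uφ (a + b) f = S.Uφ b (S.Uφ a f) := by
    intro a b f
    refine Lp.ext ?_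
    have h1 := S.Uφ_coe (a + b) f
    have h2 := S.Uφ_coe b (S.Uφ a f)
    have h3 : ∀ᵐ z ∂μ, S.Uφ a f (S.φ b z) = f (S.φ a (S.φ b z)) :=
      (S.φ_mp b).quasiMeasurePreserving.ae (S.Uφ_coe a f)
    filter_upwards [h1, h2, h3] with z h1 h2 h3
    rw [h1, h2, h3, S.φ_add]
  have hφ_zero : ∀ f : Lp ℂ 2 μ, S.Uφ 0 f = f := by
    intro f
    refine Lp.ext ?_
    filter_upwards [S.Uφ_coe 0 f] with z h1
    rw [h1, S.φ_zero]
  have hrot : ∀ f : Lp ℂ 2 μ, Continuous fun α => S.rot α f := by
    refine hgrp S.rot hrot_add fun f => ?_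
    refine koopman_tendsto (g := S.R) (fun a => S.R_mp a) (Eventually.of_forall fun z => ?_) f
    have := (S.R_cont z).tendsto 0
    rwa [S.R_zero] at this
  have hpos : ∀ t : ℝ, 0 ≤ t → ∀ f : Lp ℂ 2 μ, S.Uφ t f = S.U (t : ℂ) f := by
    intro t ht f
    refine Lp.ext ?_
    filter_upwards [S.Uφ_coe t f, S.U_coe (t : ℂ) f] with z h1 h2
    rw [h1, h2, S.T_ofReal_of_nonneg ht]
  have hφ : ∀ f : Lp ℂ 2 μ, Continuous fun t => S.Uφ t f := by
    refine hgrp S.Uφ hφ_add fun f => ?_
    rw [tendsto_iff_norm_sub_tendsto_zero]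
    have habs : Tendsto (fun t : ℝ => ((|t| : ℝ) : ℂ)) (𝓝 0) (𝓝 0) := by
      have : Continuous fun t : ℝ => ((|t| : ℝ) : ℂ) := Complex.continuous_ofReal.comp continuous_abs
      simpa using this.tendsto 0
    have h1 := (tendsto_iff_norm_sub_tendsto_zero.1 ((hU f).comp habs))
    refine h1.congr fun t => ?_
    simp only [Function.comp]
    rw [← hpos |t| (abs_nonneg t)]
    rcases le_total 0 t with ht | ht
    · rw [abs_of_nonneg ht]
    · rw [abs_of_nonpos ht]
      have e1 : S.Uφ (-t) (S.Uφ t f - f) = f - S.Uφ (-t) f := by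
        rw [map_sub, ← hφ_add, add_neg_cancel, hφ_zero]
      rw [← (S.Uφ (-t)).norm_map (S.Uφ t f - f), e1, norm_sub_rev]
  refine ⟨hU, hrot, hφ, fun t f ht => ?_⟩
  have e : ∀ α : ℝ, S.U (t * Complex.exp (α * Complex.I)) f
      = S.rot α (S.Uφ t (S.rot (-α) f)) := by
    intro α
    refine Lp.ext ?_
    have h1 := S.U_coe (t * Complex.exp (α * Complex.I)) f
    have h2 := S.rot_coe α (S.Uφ t (S.rot (-α) f))
    have h3 : ∀ᵐ z ∂μ, S.Uφ t (S.rot (-α) f) (S.R α z) = S.rot (-α) f (S.φ t (S.R α z)) :=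
      (S.R_mp α).quasiMeasurePreserving.ae (S.Uφ_coe t (S.rot (-α) f))
    have h4 : ∀ᵐ z ∂μ, S.rot (-α) f (S.φ t (S.R α z)) = f (S.R (-α) (S.φ t (S.R α z))) :=
      ((S.φ_mp t).comp (S.R_mp α)).quasiMeasurePreserving.ae (S.rot_coe (-α) f)
    filter_upwards [h1, h2, h3, h4] with z h1 h2 h3 h4
    rw [h1, h2, h3, h4, S.T_polar ht]
  simp only [e]
  rw [continuous_iff_continuousAt]
  intro α₀
  have hin : Continuous fun α : ℝ => S.Uφ t (S.rot (-α) f) :=
    (S.Uφ t).continuous.comp ((hrot f).comp continuous_neg)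
  rw [ContinuousAt, tendsto_iff_norm_sub_tendsto_zero]
  have h1 := tendsto_iff_norm_sub_tendsto_zero.1 (hin.tendsto α₀)
  have h2 := tendsto_iff_norm_sub_tendsto_zero.1 ((hrot (S.Uφ t (S.rot (-α₀) f))).tendsto α₀)
  have h3 := h1.add h2
  rw [add_zero] at h3
  refine squeeze_zero (fun _ => norm_nonneg _) (fun α => ?_) h3
  have : S.rot α (S.Uφ t (S.rot (-α) f)) - S.rot α₀ (S.Uφ t (S.rot (-α₀) f))
      = S.rot α (S.Uφ t (S.rot (-α) f) - S.Uφ t (S.rot (-α₀) f))
        + (S.rot α (S.Uφ t (S.rot (-α₀) f)) - S.rot α₀ (S.Uφ t (S.rot (-α₀) f))) := by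
    rw [map_sub]; abel
  rw [this]
  refine (norm_add_le _ _).trans ?_
  rw [LinearIsometry.norm_map]

end PlaneSys

theorem cont : PlaneSys.StCont := PlaneSys.cont_

end Crest.Agent.R103
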