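import Crest.Agent.R103.ThmB_Mg
import Crest.Agent.R103.Cont_Mg
import Crest.Agent.R103.Wk_Mg
import Crest.Agent.R103.Const_Mg
import Crest.Agent.R103.Inst

/-!
# R103: assembly of all modules: S0136
-/

open MeasureTheory Filter Topology
open Crest.AnalysisR.Billiard
open scoped symmDiff

namespace Crest.Agent.R103

theorem assembly
    (A : Fin 3 → Plane) (hA : AffineIndependent ℝ A)
    (hirr : ∃ i : Fin 3,
      Irrational (EuclideanGeometry.angle (A (i + 1)) (A i) (A (i + 2)) / Real.pi)) :
    (∀ᵐ p ∂(phaseMeasure A), (∃ c : Chain A, c.Through p) ∧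
        ∀ c c' : Chain A, c.Through p → c'.Through p →
          ∀ (τ : ℝ) (y y' : Phase), c.IsStateAt τ y → c'.IsStateAt τ y' → y = y') ∧
    ∀ Φ : ℝ → Phase → Phase,
      (∀ᵐ p ∂(phaseMeasure A), ∃ c : Chain A, c.Through p ∧ ∀ τ : ℝ, c.IsStateAt τ (Φ τ p)) →
      ∀ s : Set (Phase × Phase), MeasurableSet s →
        (∀ τ : ℝ, ((phaseMeasure A).prod (phaseMeasure A))
            (((fun z : Phase × Phase => (Φ τ z.1, Φ τ z.2)) ⁻¹' s) ∆ s) = 0) →
        ((phaseMeasure A).prod (phaseMeasure A)) s = 0 ∨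
          ((phaseMeasure A).prod (phaseMeasure A)) sᶜ = 0 := by
  have hE : PlaneSys.StE := PlaneSys.eops_of cont
  have hP : PlaneSys.StP := pops_of_cont cont
  have hComm : PlaneSys.StComm := comm cont hE
  have hRt : PlaneSys.StRt := PlaneSys.rtfacts
  have hEta : PlaneSys.StEta := etafacts hRt
  have hMain : PlaneSys.StMain := main tele cont hE hP hComm hEta hRt
  have hA8 : PlaneSys.StThmA := PlaneSys.thmA_wk hMain cont hE hP
  have hB : PlaneSys.StThmB := PlaneSys.thmB PlaneSys.ker (PlaneSys.fin cont)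
  have hAbs : PlaneSys.StAbs := PlaneSys.abs_ hA8 PlaneSys.prod hB
  have g1 : StG1 := GeoBary.g1
  have g3 : StG3 := g3 g1 g2
  have hu : StUniq := uniq g1 g2
  have exist : StExist := exist g1 g2
  have hst : StState := state g1 g2
  have hae : StAe := ae_ g1 g2
  have hflow : StFlow := flow g1 g2 hu shift hst exist
  have meas : StMeas := meas g1 hst exist hae hflow
  have mp : StMP := mp g1 g2 hst exist hae hflow meas
  have hloc : StLoc := loc g1 g2 hu exist
  have htr : StTr := trr g1 g2 rot_ hloc hae mp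
  have hlc : StLC := LCm.lc g1 g2 g3 rot_ hloc htr mp
  have hrev : StRev := rev g1 g2 hu exist hae mp
  have const_ : StConst := const_ g1 g2 htr hae rot_
  have hinst : StInst := inst g3 rot_ hflow meas mp hrev hlc
  exact final_M hAbs hinst const_ (Transfer.transfer g1 hu exist hae hflow mp) A hA hirr

end Crest.Agent.R103
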