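import Crest.Agent.R103.IfaceG
import Crest.Agent.R103.Vol
import Mathlib
import Crest.Agent.R103.Iface

-- ▼ part R103/Final
section

/-!
# R103: final assembly (hypothesis style)
-/

open MeasureTheory Filter Topology
open Crest.AnalysisR.Billiard
open scoped symmDiff

noncomputable section

namespace Crest.Agent.R103





instance instFiniteμM (A : Fin 3 → Plane) : IsFiniteMeasure (μM A) := by
  unfold μM; infer_instance

/-- conversion of the `L²` form of the constancy to the function form. -/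
theorem const_Lp (A : Fin 3 → Plane) (S : PlaneSys (Phase × Bool) (μM A))
    (h : ∀ f : Phase × Bool → ℂ, Measurable f →
      (∀ ζ : ℂ, ∀ᵐ z ∂(μM A), f (S.T ζ z) = f z) → ∃ c : ℂ, ∀ᵐ z ∂(μM A), f z = c)
    (f : Lp ℂ 2 (μM A)) (hf : ∀ ζ, S.U ζ f = f) : ∃ c : ℂ, f =ᵐ[μM A] fun _ => c := by
  have hm := (Lp.aestronglyMeasurable f).aemeasurable
  obtain ⟨c, hc⟩ := h (hm.mk f) hm.measurable_mk (by
    intro ζ
    have h1 : (S.U ζ f : Phase × Bool → ℂ) =ᵐ[μM A] fun z => f (S.T ζ z) := S.U_coe ζ f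
    rw [hf ζ] at h1
    have h2 := (S.T_mp ζ).quasiMeasurePreserving.ae_eq_comp hm.ae_eq_mk
    filter_upwards [h1, h2, hm.ae_eq_mk] with z a b c
    simp only [Function.comp] at a b
    rw [← b, ← a, c])
  exact ⟨c, hm.ae_eq_mk.trans hc⟩


/-- FINAL ASSEMBLY, with the concrete flow `flowM`. -/
theorem final_M (habs : PlaneSys.StAbs) (hinst : StInst) (hconst : StConst)
    (htr : StTransfer)
    (A : Fin 3 → Plane) (hA : AffineIndependent ℝ A)
    (hirr : ∃ i : Fin 3,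
      Irrational (EuclideanGeometry.angle (A (i + 1)) (A i) (A (i + 2)) / Real.pi)) :
    (∀ᵐ p ∂(phaseMeasure A), (∃ c : Chain A, c.Through p) ∧
        ∀ c c' : Chain A, c.Through p → c'.Through p →
          ∀ (τ : ℝ) (y y' : Phase), c.IsStateAt τ y → c'.IsStateAt τ y' → y = y') ∧
    ∀ Φ : ℝ → Phase → Phase,
      (∀ᵐ p ∂(phaseMeasure A), ∃ c : Chain A, c.Through p ∧ ∀ τ : ℝ, c.IsStateAt τ (Φ τ p)) →
      ∀ s : Set (Phase × Phase), MeasurableSet s →
        (∀ τ : ℝ, ((phaseMeasure A).prod (phaseMeasure A))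
            (((fun z : Phase × Phase => (Φ τ z.1, Φ τ z.2)) ⁻¹' s) ∆ s) = 0) →
        ((phaseMeasure A).prod (phaseMeasure A)) s = 0 ∨
          ((phaseMeasure A).prod (phaseMeasure A)) sᶜ = 0 := by
  obtain ⟨S, hS, hT⟩ := hinst A hA
  refine htr A hA ?_
  have h := habs (Phase × Bool) (μM A) S
    (const_Lp A S (fun f hf hfT => hconst A hA hirr f hf (by
      intro ζ; filter_upwards [hfT ζ] with z hz; rw [← hT, hz])))
  intro s hs hsi
  refine h s hs ?_
  intro t
  simpa only [hS] using hsi t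


end Crest.Agent.R103
end
end

-- ▼ part R103/Tele
section

set_option autoImplicit false

/-! Row 103 (helper847): the telescoping inequality, Hilbert space form. -/

namespace Crest.Agent.R103.Tele

open scoped InnerProductSpace

variable {H : Type*} [NormedAddCommGroup H] [InnerProductSpace ℂ H]

/-- finite Bessel inequality for a family of mutually orthogonal self-adjoint idempotents -/
theorem bessel (P : ℤ → H →ₗ[ℂ] H) (hsa : ∀ n x y, ⟪P n x, y⟫_ℂ = ⟪x, P n y⟫_ℂ)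
    (hid : ∀ n x, P n (P n x) = P n x) (hor : ∀ n m, n ≠ m → ∀ x, P n (P m x) = 0)
    (s : Finset ℤ) (g : H) : ∑ n ∈ s, ‖P n g‖ ^ 2 ≤ ‖g‖ ^ 2 := by
  classical
  have h1 : ⟪∑ n ∈ s, P n g, g⟫_ℂ = ((∑ n ∈ s, ‖P n g‖ ^ 2 : ℝ) : ℂ) := by
    rw [sum_inner]
    push_cast
    refine Finset.sum_congr rfl fun n _ => ?_
    have h2 : ⟪P n g, g⟫_ℂ = ⟪P n g, P n g⟫_ℂ := by
      rw [← hid n g, hsa n (P n g) g, hid]
    rw [h2, inner_self_eq_norm_sq_to_K]
    rfl
  have h3 : ‖∑ n ∈ s, P n g‖ ^ 2 = ∑ n ∈ s, ‖P n g‖ ^ 2 := by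
    have h4 : ⟪∑ n ∈ s, P n g, ∑ n ∈ s, P n g⟫_ℂ = ((∑ n ∈ s, ‖P n g‖ ^ 2 : ℝ) : ℂ) := by
      rw [sum_inner]
      push_cast
      refine Finset.sum_congr rfl fun n hn => ?_
      rw [inner_sum, Finset.sum_eq_single n]
      · rw [inner_self_eq_norm_sq_to_K]; rfl
      · intro m _ hm
        rw [hsa, hor n m hm.symm, inner_zero_right]
      · intro h; exact absurd hn h
    rw [inner_self_eq_norm_sq_to_K] at h4
    have h5 : ((‖∑ n ∈ s, P n g‖ ^ 2 : ℝ) : ℂ) = ((∑ n ∈ s, ‖P n g‖ ^ 2 : ℝ) : ℂ) := by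
      rw [← h4]; push_cast; rfl
    exact_mod_cast h5
  have h6 : ‖∑ n ∈ s, P n g‖ ^ 2 ≤ ‖∑ n ∈ s, P n g‖ * ‖g‖ := by
    have h7 : ((‖∑ n ∈ s, P n g‖ ^ 2 : ℝ) : ℂ) = ⟪∑ n ∈ s, P n g, g⟫_ℂ := by rw [h3, h1]
    have h8 : ‖((‖∑ n ∈ s, P n g‖ ^ 2 : ℝ) : ℂ)‖ ≤ ‖∑ n ∈ s, P n g‖ * ‖g‖ := by
      rw [h7]; exact norm_inner_le_norm _ _
    rw [Complex.norm_real, Real.norm_of_nonneg (sq_nonneg _)] at h8
    exact h8
  rw [← h3]
  rcases eq_or_lt_of_le (norm_nonneg (∑ n ∈ s, P n g)) with h0 | h0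
  · rw [← h0]
    simp
  · have h9 : ‖∑ n ∈ s, P n g‖ ≤ ‖g‖ := by
      rw [sq] at h6
      exact le_of_mul_le_mul_left h6 h0
    exact pow_le_pow_left₀ (norm_nonneg _) h9 2

/-- **Telescoping inequality** (step (2) of helper128's proof). -/
theorem tele (P : ℤ → H →ₗ[ℂ] H) (hsa : ∀ n x y, ⟪P n x, y⟫_ℂ = ⟪x, P n y⟫_ℂ)
    (hid : ∀ n x, P n (P n x) = P n x) (hor : ∀ n m, n ≠ m → ∀ x, P n (P m x) = 0)
    (Ep Em : H →ₗ[ℂ] H) (hEp : ∀ n x, P (n + 1) (Ep x) = Ep (P n x))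
    (hEm : ∀ n x, P (n - 1) (Em x) = Em (P n x))
    (B : ℝ) (hB : ∀ x, ‖Em x‖ ≤ B * ‖x‖) (h : H)
    (heq : ∀ n, ‖Ep (P n h)‖ = ‖Em (P n h)‖) {r : ℝ} (hr0 : 0 ≤ r) (hr1 : r < 1) (n : ℤ) :
    ‖Em (P n h)‖ ≤ (Real.sqrt (1 - r ^ 2))⁻¹ * ‖Em h + (r : ℂ) • Ep h‖ := by
  set g : H := Em h + (r : ℂ) • Ep h with hg
  have hnormP : ∀ n x, ‖P n x‖ ≤ ‖x‖ := by
    intro n x
    have := bessel P hsa hid hor {n} x
    simp only [Finset.sum_singleton] at this
    exact le_of_sq_le_sq this (norm_nonneg x)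
  -- one step
  have hstep : ∀ m : ℤ, ‖Em (P m h)‖ ≤ ‖P (m - 1) g‖ + r * ‖Em (P (m - 2) h)‖ := by
    intro m
    have h1 : P (m - 1) g = Em (P m h) + (r : ℂ) • Ep (P (m - 2) h) := by
      rw [hg, map_add, map_smul, hEm]
      have : P (m - 1) (Ep h) = Ep (P (m - 2) h) := by
        have := hEp (m - 2) h
        rwa [show m - 2 + 1 = m - 1 by ring] at this
      rw [this]
    have h2 : Em (P m h) = P (m - 1) g - (r : ℂ) • Ep (P (m - 2) h) := by rw [h1]; abel
    calc ‖Em (P m h)‖ = ‖P (m - 1) g - (r : ℂ) • Ep (P (m - 2) h)‖ := by rw [← h2]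
      _ ≤ ‖P (m - 1) g‖ + ‖(r : ℂ) • Ep (P (m - 2) h)‖ := norm_sub_le _ _
      _ = ‖P (m - 1) g‖ + r * ‖Em (P (m - 2) h)‖ := by
          rw [norm_smul, Complex.norm_real, Real.norm_of_nonneg hr0, heq]
  -- iterate
  have hiter : ∀ (J : ℕ) (m : ℤ), ‖Em (P m h)‖ ≤
      ∑ j ∈ Finset.range J, r ^ j * ‖P (m - 1 - 2 * j) g‖ + r ^ J * ‖Em (P (m - 2 * J) h)‖ := by
    intro J
    induction J with
    | zero => intro m; simp
    | succ J ih =>
      intro m
      refine (ih m).trans ?_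
      rw [Finset.sum_range_succ]
      have h3 := hstep (m - 2 * J)
      have h4 : r ^ J * ‖Em (P (m - 2 * J) h)‖ ≤
          r ^ J * ‖P (m - 1 - 2 * J) g‖ + r ^ (J + 1) * ‖Em (P (m - 2 * ((J + 1 : ℕ) : ℤ)) h)‖ := by
        have h5 := mul_le_mul_of_nonneg_left h3 (pow_nonneg hr0 J)
        rw [show m - 2 * (J : ℤ) - 1 = m - 1 - 2 * J by ring,
          show m - 2 * (J : ℤ) - 2 = m - 2 * ((J + 1 : ℕ) : ℤ) by push_cast; ring] at h5
        calc _ ≤ _ := h5
          _ = _ := by ring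
      linarith
  have hr2 : 0 < 1 - r ^ 2 := by nlinarith
  -- Cauchy-Schwarz
  have hcs : ∀ (J : ℕ), ∑ j ∈ Finset.range J, r ^ j * ‖P (n - 1 - 2 * j) g‖ ≤
      (Real.sqrt (1 - r ^ 2))⁻¹ * ‖g‖ := by
    intro J
    have h6 := Finset.sum_mul_sq_le_sq_mul_sq (Finset.range J) (fun j => r ^ j)
      (fun j : ℕ => ‖P (n - 1 - 2 * (j : ℤ)) g‖)
    have h7 : ∑ j ∈ Finset.range J, (r ^ j) ^ 2 ≤ (1 - r ^ 2)⁻¹ := by
      have : ∀ j ∈ Finset.range J, (r ^ j) ^ 2 = (r ^ 2) ^ j := fun j _ => by ring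
      rw [Finset.sum_congr rfl this]
      exact (Summable.sum_le_tsum _ (fun i _ => by positivity)
        (summable_geometric_of_lt_one (by positivity) (by linarith))).trans
        (tsum_geometric_of_lt_one (by positivity) (by linarith)).le
    have h8 : ∑ j ∈ Finset.range J, ‖P (n - 1 - 2 * (j : ℤ)) g‖ ^ 2 ≤ ‖g‖ ^ 2 := by
      have hinj : Function.Injective (fun j : ℕ => n - 1 - 2 * (j : ℤ)) := by
        intro a b hab
        simp only at hab
        omega
      have := bessel P hsa hid hor ((Finset.range J).map ⟨_, hinj⟩) g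
      rwa [Finset.sum_map] at this
    have h9 : (∑ j ∈ Finset.range J, r ^ j * ‖P (n - 1 - 2 * (j : ℤ)) g‖) ^ 2 ≤
        ((Real.sqrt (1 - r ^ 2))⁻¹ * ‖g‖) ^ 2 := by
      refine h6.trans ?_
      have h10 : ((Real.sqrt (1 - r ^ 2))⁻¹ * ‖g‖) ^ 2 = (1 - r ^ 2)⁻¹ * ‖g‖ ^ 2 := by
        rw [mul_pow, inv_pow, Real.sq_sqrt hr2.le]
      rw [h10]
      exact mul_le_mul h7 h8 (Finset.sum_nonneg fun _ _ => by positivity) (by positivity)
    exact le_of_sq_le_sq h9 (by positivity)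
  -- limit J → ∞
  have hlim : Filter.Tendsto (fun J : ℕ => (Real.sqrt (1 - r ^ 2))⁻¹ * ‖g‖ +
      r ^ J * (B * ‖h‖)) Filter.atTop (nhds ((Real.sqrt (1 - r ^ 2))⁻¹ * ‖g‖ + 0 * (B * ‖h‖))) :=
    tendsto_const_nhds.add ((tendsto_pow_atTop_nhds_zero_of_lt_one hr0 hr1).mul_const _)
  rw [zero_mul, add_zero] at hlim
  refine ge_of_tendsto' hlim fun J => ?_
  refine (hiter J n).trans (add_le_add (hcs J) ?_)
  refine mul_le_mul_of_nonneg_left ?_ (pow_nonneg hr0 J)
  refine (hB _).trans ?_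
  by_cases hB0 : 0 ≤ B
  · exact mul_le_mul_of_nonneg_left (hnormP _ _) hB0
  · push Not at hB0
    -- then all vectors vanish
    have hz : ∀ x : H, ‖x‖ = 0 := by
      intro x
      by_contra hx
      have hx' : 0 < ‖x‖ := lt_of_le_of_ne (norm_nonneg x) (Ne.symm hx)
      have := hB x
      have h11 := norm_nonneg (Em x)
      nlinarith
    rw [hz, hz]


end Crest.Agent.R103.Tele
end

-- ▼ part R103/TeleSt
section

/-! # R103, A1: the telescoping lemma `StTele` (harmonic part; the Hilbert part is in `Tele`) -/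

open MeasureTheory Filter Topology
open scoped InnerProductSpace

set_option linter.unusedSectionVars false
set_option linter.unusedTactic false

noncomputable section

namespace Crest.Agent.R103

namespace TeleSt

variable {H : Type*} [NormedAddCommGroup H] [InnerProductSpace ℂ H] [CompleteSpace H]

theorem cont_exp (k : ℤ) : Continuous fun α : ℝ => Complex.exp (k * α * Complex.I) := by
  fun_prop

theorem ii_harm {F : ℝ → H} (hF : Continuous F) (k : ℤ) :
    IntervalIntegrable (fun α : ℝ => Complex.exp (k * α * Complex.I) • F α) volume 0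
      (2 * Real.pi) :=
  ((cont_exp k).smul hF).intervalIntegrable _ _

theorem harm_add {F G : ℝ → H} (hF : Continuous F) (hG : Continuous G) (k : ℤ) :
    harm k (fun α => F α + G α) = harm k F + harm k G := by
  unfold harm
  rw [← smul_add, ← intervalIntegral.integral_add (ii_harm hF k) (ii_harm hG k)]
  simp only [smul_add]

theorem harm_smul (F : ℝ → H) (c : ℂ) (k : ℤ) :
    harm k (fun α => c • F α) = c • harm k F := by
  unfold harm
  have h1 : ∀ α : ℝ, Complex.exp (k * α * Complex.I) • c • F α =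
      c • Complex.exp (k * α * Complex.I) • F α := fun α => smul_comm _ _ _
  simp only [h1]
  rw [intervalIntegral.integral_smul]
  exact smul_comm _ _ _

theorem harm_clm {F : ℝ → H} (hF : Continuous F) (A : H →L[ℂ] H) (k : ℤ) :
    A (harm k F) = harm k (fun α => A (F α)) := by
  unfold harm
  have h1 := A.intervalIntegral_comp_comm (ii_harm hF k)
  simp only [map_smul] at h1
  rw [h1]
  have : A ((2 * Real.pi)⁻¹ • ∫ α in (0 : ℝ)..(2 * Real.pi), Complex.exp (k * α * Complex.I) • F α)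
      = (2 * Real.pi)⁻¹ • A (∫ α in (0 : ℝ)..(2 * Real.pi), Complex.exp (k * α * Complex.I) • F α) :=
    (A.restrictScalars ℝ).map_smul _ _
  rw [this]

theorem harm_inner_left {F : ℝ → H} (hF : Continuous F) (k : ℤ) (x : H) :
    ⟪x, harm k F⟫_ℂ = harm k (fun α => ⟪x, F α⟫_ℂ) := by
  unfold harm
  have h1 := (innerSL ℂ x).intervalIntegral_comp_comm (ii_harm hF k)
  simp only [innerSL_apply_apply, inner_smul_right] at h1
  rw [← Complex.coe_smul, inner_smul_right, ← h1]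
  rw [← Complex.coe_smul]
  rfl

theorem harm_const (x : H) (k : ℤ) (hk : k ≠ 0) : harm k (fun _ => x) = 0 := by
  unfold harm
  rw [intervalIntegral.integral_smul_const]
  have : ∫ α in (0 : ℝ)..(2 * Real.pi), Complex.exp (k * α * Complex.I) = 0 := by
    have hk' : (k : ℂ) * Complex.I ≠ 0 := mul_ne_zero (by exact_mod_cast hk) Complex.I_ne_zero
    have h2 : ∀ α : ℝ, Complex.exp (k * α * Complex.I) = Complex.exp ((k * Complex.I) * α) := by
      intro α; congr 1; ring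
    simp only [h2]
    rw [integral_exp_mul_complex hk']
    have h3 : Complex.exp (↑k * Complex.I * ↑(2 * Real.pi)) = 1 := by
      have := Complex.exp_int_mul_two_pi_mul_I k
      rw [← this]; congr 1; push_cast; ring
    rw [h3]
    simp
  rw [this, zero_smul, smul_zero]

theorem harm_zero_const (x : H) : harm 0 (fun _ => x) = x := by
  unfold harm
  simp only [Int.cast_zero, zero_mul, Complex.exp_zero, one_smul, intervalIntegral.integral_const,
    sub_zero, smul_smul]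
  rw [inv_mul_cancel₀ (by positivity), one_smul]

theorem harm_mul_exp (F : ℝ → H) (k m : ℤ) :
    harm k (fun α => Complex.exp (m * α * Complex.I) • F α) = harm (k + m) F := by
  unfold harm
  congr 1
  refine intervalIntegral.integral_congr fun α _ => ?_
  simp only [smul_smul, ← Complex.exp_add]
  congr 2
  push_cast; ring

end TeleSt

open TeleSt in
/-- **A1.** -/
theorem tele : StTele := by
  intro H _ _ _ rot hrot0 hadd h2pi hcont Ep Em hEp hEm h heq n r hr0 hr1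
  -- periodicity
  have hper : ∀ f : H, Function.Periodic (fun α => rot α f) (2 * Real.pi) := by
    intro f α
    change rot (α + 2 * Real.pi) f = rot α f
    rw [hadd, h2pi]
  -- weight of the component
  have hrotP : ∀ (n : ℤ) (β : ℝ) (f : H), rot β (harm (-n) fun α => rot α f) =
      Complex.exp (n * β * Complex.I) • harm (-n) fun α => rot α f := by
    intro n β f
    have h1 : rot β (harm (-n) fun α => rot α f) = harm (-n) fun α => rot (α + β) f := by
      have := harm_clm (hcont f) (rot β).toContinuousLinearMap (-n)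
      rw [LinearIsometry.coe_toContinuousLinearMap] at this
      rw [this]
      congr 1
      funext α
      rw [add_comm, hadd]
    rw [h1]
    unfold harm
    rw [smul_comm (Complex.exp (n * β * Complex.I)), ← intervalIntegral.integral_smul]
    congr 1
    have h2 : ∀ α : ℝ, Complex.exp (((-n : ℤ) : ℂ) * α * Complex.I) • rot (α + β) f =
        Complex.exp (n * β * Complex.I) •
          (fun γ : ℝ => Complex.exp (((-n : ℤ) : ℂ) * γ * Complex.I) • rot γ f) (α + β) := by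
      intro α
      simp only [smul_smul, ← Complex.exp_add]
      congr 2
      push_cast; ring
    simp only [h2]
    rw [intervalIntegral.integral_smul, intervalIntegral.integral_smul]
    congr 1
    rw [intervalIntegral.integral_comp_add_right
      (fun γ : ℝ => Complex.exp (((-n : ℤ) : ℂ) * γ * Complex.I) • rot γ f) β]
    have hp : Function.Periodic
        (fun γ : ℝ => Complex.exp (((-n : ℤ) : ℂ) * γ * Complex.I) • rot γ f) (2 * Real.pi) := by
      intro γ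
      simp only
      rw [show rot (γ + 2 * Real.pi) f = rot γ f from hper f γ]
      congr 1
      have := Complex.exp_int_mul_two_pi_mul_I (-n)
      calc Complex.exp (((-n : ℤ) : ℂ) * ((γ + 2 * Real.pi : ℝ) : ℂ) * Complex.I)
          = Complex.exp (((-n : ℤ) : ℂ) * γ * Complex.I + ((-n : ℤ) : ℂ) * (2 * Real.pi * Complex.I)) := by
            congr 1; push_cast; ring
        _ = _ := by rw [Complex.exp_add, this, mul_one]
    have := hp.intervalIntegral_add_eq (0 + β) 0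
    rw [zero_add] at this ⊢
    rw [add_comm (2 * Real.pi) β, this, zero_add]
  -- the projections as linear maps
  let P : ℤ → H →ₗ[ℂ] H := fun n =>
    { toFun := fun f => harm (-n) fun α => rot α f
      map_add' := by
        intro f g
        simp only [map_add]
        exact harm_add (hcont f) (hcont g) _
      map_smul' := by
        intro c f
        simp only [map_smul, RingHom.id_apply]
        exact harm_smul _ _ _ }
  have hPdef : ∀ n f, P n f = harm (-n) fun α => rot α f := fun _ _ => rfl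
  have hid : ∀ n x, P n (P n x) = P n x := by
    intro n x
    rw [hPdef n (P n x)]
    have : (fun α => rot α (P n x)) = fun α : ℝ => Complex.exp (n * α * Complex.I) • P n x := by
      funext α
      rw [hPdef, hrotP]
    rw [this, harm_mul_exp, neg_add_cancel, harm_zero_const]
  have hor : ∀ n m, n ≠ m → ∀ x, P n (P m x) = 0 := by
    intro n m hnm x
    rw [hPdef n (P m x)]
    have : (fun α => rot α (P m x)) = fun α : ℝ => Complex.exp (m * α * Complex.I) • P m x := by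
      funext α
      rw [hPdef, hrotP]
    rw [this, harm_mul_exp, harm_const]
    omega
  have hsa' : ∀ n x y, ⟪P n x, P n y⟫_ℂ = ⟪P n x, y⟫_ℂ := by
    intro n x y
    rw [hPdef n y, harm_inner_left (hcont y)]
    have : (fun α => ⟪P n x, rot α y⟫_ℂ) =
        fun α : ℝ => Complex.exp (n * α * Complex.I) • ⟪P n x, y⟫_ℂ := by
      funext α
      have h1 : P n x = Complex.exp (-(n * α * Complex.I)) • rot α (P n x) := by
        rw [hPdef n x, hrotP, smul_smul, ← Complex.exp_add, neg_add_cancel, Complex.exp_zero,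
          one_smul]
      have h2 : ⟪P n x, rot α y⟫_ℂ =
          ⟪Complex.exp (-(n * α * Complex.I)) • rot α (P n x), rot α y⟫_ℂ := by
        rw [← h1]
      rw [h2, inner_smul_left, LinearIsometry.inner_map_map, smul_eq_mul]
      congr 1
      rw [← Complex.exp_conj]
      congr 1
      simp
    rw [this, harm_mul_exp, neg_add_cancel, harm_zero_const]
  have hsa : ∀ n x y, ⟪P n x, y⟫_ℂ = ⟪x, P n y⟫_ℂ := by
    intro n x y
    rw [← hsa' n x y, ← inner_conj_symm (P n x) (P n y), hsa' n y x, inner_conj_symm]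
  have hEp' : ∀ n x, P (n + 1) (Ep x) = Ep (P n x) := by
    intro n x
    rw [hPdef, hPdef, harm_clm (hcont x) Ep]
    have : (fun α => rot α (Ep x)) =
        fun α : ℝ => Complex.exp (((1 : ℤ) : ℂ) * α * Complex.I) • Ep (rot α x) := by
      funext α
      rw [hEp]; simp
    rw [this, harm_mul_exp]
    congr 1
    ring
  have hEm' : ∀ n x, P (n - 1) (Em x) = Em (P n x) := by
    intro n x
    rw [hPdef, hPdef, harm_clm (hcont x) Em]
    have : (fun α => rot α (Em x)) =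
        fun α : ℝ => Complex.exp (((-1 : ℤ) : ℂ) * α * Complex.I) • Em (rot α x) := by
      funext α
      rw [hEm]; simp
    rw [this, harm_mul_exp]
    congr 1
    ring
  exact Tele.tele P hsa hid hor Ep.toLinearMap Em.toLinearMap hEp' hEm' ‖Em‖
    (fun x => Em.le_opNorm x) h heq hr0 hr1 n

end Crest.Agent.R103
end
end

-- ▼ part R103/POps
section

/-!
# R103, A3': properties of the weight projections
-/

open MeasureTheory Filter Topology
open scoped InnerProductSpace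

noncomputable section

set_option linter.unusedSectionVars false

namespace Crest.Agent.R103

namespace POps

/-! ### general facts on `harm` in a Hilbert space -/

section Hilbert

variable {H : Type*} [NormedAddCommGroup H] [InnerProductSpace ℂ H] [CompleteSpace H]

lemma norm_char (k : ℤ) (α : ℝ) : ‖Complex.exp (k * α * Complex.I)‖ = 1 := by
  have : ((k : ℂ) * (α : ℂ) * Complex.I) = ((k * α : ℝ) : ℂ) * Complex.I := by push_cast; ring
  rw [this, Complex.norm_exp_ofReal_mul_I]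

lemma continuous_char (k : ℤ) : Continuous fun α : ℝ => Complex.exp (k * α * Complex.I) := by
  fun_prop

lemma conj_char (k : ℤ) (α : ℝ) :
    (starRingEnd ℂ) (Complex.exp (k * α * Complex.I))
      = Complex.exp (((-k : ℤ) : ℂ) * α * Complex.I) := by
  rw [← Complex.exp_conj]
  congr 1
  simp

lemma harm_norm_le {k : ℤ} {F : ℝ → H} {C : ℝ} (hF : ∀ α, ‖F α‖ ≤ C) : ‖harm k F‖ ≤ C := by
  have hpi : (0 : ℝ) < 2 * Real.pi := by positivity
  have h1 : ‖∫ α in (0 : ℝ)..(2 * Real.pi), Complex.exp (k * α * Complex.I) • F α‖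
      ≤ C * |2 * Real.pi - 0| := by
    refine intervalIntegral.norm_integral_le_of_norm_le_const fun α _ => ?_
    rw [norm_smul, norm_char, one_mul]
    exact hF α
  unfold harm
  rw [norm_smul, Real.norm_eq_abs, abs_inv, abs_of_pos hpi]
  rw [sub_zero, abs_of_pos hpi] at h1
  calc (2 * Real.pi)⁻¹ * ‖∫ α in (0 : ℝ)..(2 * Real.pi), Complex.exp (k * α * Complex.I) • F α‖
      ≤ (2 * Real.pi)⁻¹ * (C * (2 * Real.pi)) := by gcongr
    _ = C := by field_simp

lemma harm_add {k : ℤ} {F G : ℝ → H} (hF : Continuous F) (hG : Continuous G) :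
    harm k (fun α => F α + G α) = harm k F + harm k G := by
  unfold harm
  rw [← smul_add, ← intervalIntegral.integral_add]
  · simp only [smul_add]
  · exact ((continuous_char k).smul hF).intervalIntegrable _ _
  · exact ((continuous_char k).smul hG).intervalIntegrable _ _

lemma harm_smul {k : ℤ} {F : ℝ → H} (c : ℂ) :
    harm k (fun α => c • F α) = c • harm k F := by
  unfold harm
  rw [smul_comm c]
  congr 1
  rw [← intervalIntegral.integral_smul]
  congr 1
  funext α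
  exact smul_comm _ _ _

lemma harm_inner_left {k : ℤ} {F : ℝ → H} (hF : Continuous F) (g : H) :
    ⟪g, harm k F⟫_ℂ = ((2 * Real.pi)⁻¹ : ℝ) *
      ∫ α in (0 : ℝ)..(2 * Real.pi), Complex.exp (k * α * Complex.I) * ⟪g, F α⟫_ℂ := by
  unfold harm
  have hcont : Continuous fun α : ℝ => Complex.exp (k * α * Complex.I) • F α :=
    (continuous_char k).smul hF
  have h := (innerSL ℂ g).intervalIntegral_comp_comm
    (μ := volume) (hcont.intervalIntegrable 0 (2 * Real.pi))
  simp only [innerSL_apply_apply, inner_smul_right] at h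
  rw [h]
  have : (((2 * Real.pi)⁻¹ : ℝ) • ∫ α in (0 : ℝ)..(2 * Real.pi),
      Complex.exp (k * α * Complex.I) • F α)
      = (((2 * Real.pi)⁻¹ : ℝ) : ℂ) • ∫ α in (0 : ℝ)..(2 * Real.pi),
      Complex.exp (k * α * Complex.I) • F α := by
    exact (Complex.coe_smul _ _).symm
  rw [this, inner_smul_right]

lemma harm_inner_right {k : ℤ} {F : ℝ → H} (hF : Continuous F) (g : H) :
    ⟪harm k F, g⟫_ℂ = ((2 * Real.pi)⁻¹ : ℝ) *
      ∫ α in (0 : ℝ)..(2 * Real.pi), Complex.exp (((-k : ℤ) : ℂ) * α * Complex.I) * ⟪F α, g⟫_ℂ := by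
  rw [← inner_conj_symm, harm_inner_left hF, map_mul, Complex.conj_ofReal]
  congr 1
  rw [intervalIntegral.integral_of_le (by positivity), intervalIntegral.integral_of_le
    (by positivity), ← integral_conj]
  congr 1
  funext α
  rw [map_mul, conj_char, inner_conj_symm]

variable {rot : ℝ → H →ₗᵢ[ℂ] H}

lemma inner_rot_left (h0 : ∀ f, rot 0 f = f) (hadd : ∀ a b f, rot (a + b) f = rot a (rot b f))
    (α : ℝ) (f g : H) : ⟪rot α f, g⟫_ℂ = ⟪f, rot (-α) g⟫_ℂ := by
  have : g = rot α (rot (-α) g) := by rw [← hadd, add_neg_cancel, h0]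
  conv_lhs => rw [this]
  exact (rot α).inner_map_map _ _

lemma rot_periodic (hadd : ∀ a b f, rot (a + b) f = rot a (rot b f))
    (h2 : ∀ f, rot (2 * Real.pi) f = f) (f : H) :
    Function.Periodic (fun α => rot α f) (2 * Real.pi) := by
  intro α
  simp only [hadd, h2]

lemma char_periodic (k : ℤ) :
    Function.Periodic (fun α : ℝ => Complex.exp (k * α * Complex.I)) (2 * Real.pi) := by
  intro α
  have : ((k : ℂ) * ((α + 2 * Real.pi : ℝ) : ℂ) * Complex.I)
      = (k : ℂ) * α * Complex.I + k * (2 * Real.pi * Complex.I) := by push_cast; ring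
  simp only [this, Complex.exp_add, Complex.exp_int_mul_two_pi_mul_I, mul_one]

lemma harm_selfAdjoint (h0 : ∀ f, rot 0 f = f) (hadd : ∀ a b f, rot (a + b) f = rot a (rot b f))
    (h2 : ∀ f, rot (2 * Real.pi) f = f) (hc : ∀ f, Continuous fun α => rot α f)
    (n : ℤ) (f g : H) :
    ⟪harm (-n) (fun α => rot α f), g⟫_ℂ = ⟪f, harm (-n) (fun α => rot α g)⟫_ℂ := by
  rw [harm_inner_right (hc f), harm_inner_left (hc g)]
  congr 1
  have e1 : ∀ α : ℝ, Complex.exp (((- -n : ℤ) : ℂ) * α * Complex.I) * ⟪rot α f, g⟫_ℂ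
      = (fun α : ℝ => Complex.exp (((-n : ℤ) : ℂ) * α * Complex.I) * ⟪f, rot α g⟫_ℂ) (-α) := by
    intro α
    simp only
    rw [inner_rot_left h0 hadd]
    congr 2
    push_cast
    ring
  simp_rw [e1]
  rw [intervalIntegral.integral_comp_neg
    (fun α : ℝ => Complex.exp (((-n : ℤ) : ℂ) * α * Complex.I) * ⟪f, rot α g⟫_ℂ)]
  have hper : Function.Periodic
      (fun α : ℝ => Complex.exp (((-n : ℤ) : ℂ) * α * Complex.I) * ⟪f, rot α g⟫_ℂ)
      (2 * Real.pi) := by
    intro α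
    have h1 := char_periodic (-n) α
    have h3 := rot_periodic hadd h2 g α
    simp only at h1 h3 ⊢
    rw [h1, h3]
  have := hper.intervalIntegral_add_eq (-(2 * Real.pi)) 0
  simpa using this

/-- a continuous `2π`-periodic function all of whose Fourier coefficients vanish is zero -/
lemma eq_zero_of_fourier {c : ℝ → ℂ} (hc : Continuous c)
    (hper : Function.Periodic c (2 * Real.pi))
    (hz : ∀ n : ℤ, ∫ α in (0 : ℝ)..(2 * Real.pi), Complex.exp (n * α * Complex.I) * c α = 0)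
    (x : ℝ) : c x = 0 := by
  have : Fact (0 < 2 * Real.pi) := ⟨by positivity⟩
  let C : C(AddCircle (2 * Real.pi), ℂ) :=
    ⟨hper.lift, continuous_coinduced_dom.mpr (by
      have : hper.lift ∘ ((↑) : ℝ → AddCircle (2 * Real.pi)) = c := by
        funext y; exact Function.Periodic.lift_coe hper y
      exact (congrArg Continuous this).mpr hc)⟩
  have hC : ∀ y : ℝ, C (y : AddCircle (2 * Real.pi)) = c y :=
    fun y => Function.Periodic.lift_coe hper y
  have hcoef : ∀ n : ℤ, fourierCoeff C n = 0 := by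
    intro n
    rw [fourierCoeff_eq_intervalIntegral _ n 0, zero_add]
    have : ∀ y : ℝ, @fourier (2 * Real.pi) (-n) (y : AddCircle (2 * Real.pi)) •
        C (y : AddCircle (2 * Real.pi))
        = Complex.exp (((-n : ℤ) : ℂ) * y * Complex.I) * c y := by
      intro y
      rw [hC, fourier_coe_apply, smul_eq_mul]
      congr 2
      have hpi : (Real.pi : ℂ) ≠ 0 := by exact_mod_cast Real.pi_ne_zero
      push_cast
      field_simp
    simp_rw [this]
    rw [hz (-n), smul_zero]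
  have hsum : Summable (fourierCoeff C) := by
    have : fourierCoeff C = fun _ => 0 := funext hcoef
    rw [this]; exact summable_zero
  have h1 := hasSum_fourier_series_of_summable hsum
  have h2 : (fun i => fourierCoeff C i • fourier (T := 2 * Real.pi) i) = fun _ => 0 := by
    funext i; rw [hcoef i, zero_smul]
  rw [h2] at h1
  have h3 : C = 0 := h1.unique hasSum_zero
  rw [← hC x, h3]; rfl

lemma harm_complete (h0 : ∀ f, rot 0 f = f) (hadd : ∀ a b f, rot (a + b) f = rot a (rot b f))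
    (h2 : ∀ f, rot (2 * Real.pi) f = f) (hc : ∀ f, Continuous fun α => rot α f)
    (f g : H) (hz : ∀ n : ℤ, ⟪harm (-n) (fun α => rot α f), g⟫_ℂ = 0) : ⟪f, g⟫_ℂ = 0 := by
  have hcc : Continuous fun α => ⟪rot α f, g⟫_ℂ := (hc f).inner continuous_const
  have hper : Function.Periodic (fun α => ⟪rot α f, g⟫_ℂ) (2 * Real.pi) := by
    intro α
    have h3 := rot_periodic hadd h2 f α
    simp only at h3 ⊢
    rw [h3]
  have := eq_zero_of_fourier hcc hper (fun n => by
    have h := hz n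
    rw [harm_inner_right (hc f), neg_neg] at h
    have hpi : (((2 * Real.pi)⁻¹ : ℝ) : ℂ) ≠ 0 := by
      simp [Real.pi_ne_zero]
    exact (mul_eq_zero.1 h).resolve_left hpi) 0
  simpa [h0] using this

end Hilbert

end POps

namespace PlaneSys

variable {Ω : Type} [TopologicalSpace Ω] [MeasurableSpace Ω] {μ : Measure Ω}
variable (S : PlaneSys Ω μ)

lemma rot_zero (f : Lp ℂ 2 μ) : S.rot 0 f = f := by
  apply Lp.ext
  filter_upwards [S.rot_coe 0 f] with z hz
  rw [hz, S.R_zero]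

lemma rot_add (a b : ℝ) (f : Lp ℂ 2 μ) : S.rot (a + b) f = S.rot a (S.rot b f) := by
  apply Lp.ext
  filter_upwards [S.rot_coe (a + b) f, S.rot_coe a (S.rot b f),
    (S.R_mp a).quasiMeasurePreserving.ae (S.rot_coe b f)] with z h1 h2 h3
  rw [h1, h2, h3, add_comm, S.R_add]

lemma rot_two_pi (f : Lp ℂ 2 μ) : S.rot (2 * Real.pi) f = f := by
  apply Lp.ext
  filter_upwards [S.rot_coe (2 * Real.pi) f] with z hz
  rw [hz, S.R_two_pi]

/-- the support condition in terms of inner products -/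
lemma suppGe_iff [IsFiniteMeasure μ] (b : ℝ) (f : Lp ℂ 2 μ) :
    S.SuppGe b f ↔ ∀ g : Lp ℂ 2 μ, (∀ᵐ z ∂μ, b ≤ S.ρ z → g z = 0) → ⟪f, g⟫_ℂ = 0 := by
  constructor
  · intro hf g hg
    rw [L2.inner_def]
    have : (fun a => ⟪f a, g a⟫_ℂ) =ᵐ[μ] fun _ => (0 : ℂ) := by
      filter_upwards [hf, hg] with z h1 h2
      rcases lt_or_ge (S.ρ z) b with h | h
      · rw [h1 h]; simp
      · rw [h2 h]; simp
    rw [integral_congr_ae this, integral_zero]
  · intro h
    have hms : MeasurableSet {z | S.ρ z < b} := S.ρ_meas measurableSet_Iio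
    have hmem : MemLp ({z | S.ρ z < b}.indicator f) 2 μ := (Lp.memLp f).indicator hms
    have hg := hmem.coeFn_toLp
    have h1 := h hmem.toLp (by
      filter_upwards [hg] with z hz hb
      rw [hz, Set.indicator_of_notMem]
      simpa using hb)
    have h2 : ⟪hmem.toLp, hmem.toLp⟫_ℂ = 0 := by
      rw [← h1, L2.inner_def, L2.inner_def]
      refine integral_congr_ae ?_
      filter_upwards [hg] with z hz
      rw [hz]
      by_cases hzb : z ∈ {z | S.ρ z < b}
      · rw [Set.indicator_of_mem hzb]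
      · rw [Set.indicator_of_notMem hzb]; simp
    have h3 : hmem.toLp = 0 := inner_self_eq_zero.1 h2
    have h4 : (hmem.toLp : Ω → ℂ) =ᵐ[μ] 0 := by
      rw [h3]; exact Lp.coeFn_zero _ _ _
    unfold SuppGe
    filter_upwards [hg, h4] with z hz1 hz2 hb
    rw [hz1, Set.indicator_of_mem (show z ∈ {z | S.ρ z < b} from hb)] at hz2
    simpa using hz2

lemma suppGe_rot (b : ℝ) (f : Lp ℂ 2 μ) (hf : S.SuppGe b f) (α : ℝ) :
    S.SuppGe b (S.rot α f) := by
  unfold SuppGe at *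
  filter_upwards [S.rot_coe α f, (S.R_mp α).quasiMeasurePreserving.ae hf] with z h1 h2 hb
  rw [h1, h2 (by rw [S.ρ_R]; exact hb)]

end PlaneSys

open PlaneSys in
theorem pops_of_cont (hcont : PlaneSys.StCont) : PlaneSys.StP := by
  intro Ω _ _ _ _ _ μ _ S
  have hc : ∀ f : Lp ℂ 2 μ, Continuous fun α => S.rot α f := (hcont Ω μ S).2.1
  refine ⟨fun n => ?_, fun n f => ?_, fun n f g => ?_, fun f g h => ?_, fun n b f hf => ?_⟩
  · refine ⟨LinearMap.mkContinuous
      { toFun := fun f => S.P n f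
        map_add' := fun f g => ?_
        map_smul' := fun c f => ?_ } 1 (fun f => ?_), fun f => rfl⟩
    · simp only [PlaneSys.P, map_add]
      exact POps.harm_add (hc f) (hc g)
    · simp only [PlaneSys.P, map_smul, RingHom.id_apply]
      exact POps.harm_smul c
    · rw [one_mul]
      exact POps.harm_norm_le fun α => ((S.rot α).norm_map f).le
  · exact POps.harm_norm_le fun α => ((S.rot α).norm_map f).le
  · exact POps.harm_selfAdjoint S.rot_zero S.rot_add S.rot_two_pi hc n f g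
  · exact POps.harm_complete S.rot_zero S.rot_add S.rot_two_pi hc f g h
  · rw [S.suppGe_iff] at *
    intro g hg
    have h1 : ∀ α, ⟪S.rot α f, g⟫_ℂ = 0 := fun α =>
      (S.suppGe_iff b _).1 (S.suppGe_rot b f ((S.suppGe_iff b f).2 hf) α) g hg
    unfold PlaneSys.P
    rw [POps.harm_inner_right (hc f)]
    simp [h1]

end Crest.Agent.R103
end
end

-- ▼ part R103/Comm
section

/-!
# R103, A4: the commutation identity `‖Ep δ f‖ = ‖Em δ f‖` for `f` supported in `{C₀ δ ≤ ρ}`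
-/

open MeasureTheory Filter Topology Set
open scoped InnerProductSpace

noncomputable section

namespace Crest.Agent.R103

namespace Comm

section hilbert

variable {H : Type*} [NormedAddCommGroup H] [InnerProductSpace ℂ H] [CompleteSpace H]

lemma inner_harm (f : H) (k : ℤ) (F : ℝ → H) (hF : Continuous F) :
    ⟪f, harm k F⟫_ℂ =
      ((2 * Real.pi)⁻¹ : ℝ) * ∫ α in (0 : ℝ)..(2 * Real.pi),
        Complex.exp (k * α * Complex.I) * ⟪f, F α⟫_ℂ := by
  unfold harm
  rw [← Complex.coe_smul, inner_smul_right]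
  congr 1
  have hc : Continuous fun α : ℝ => Complex.exp (k * α * Complex.I) • F α := by
    refine Continuous.smul ?_ hF
    fun_prop
  have := (innerSL ℂ f).intervalIntegral_comp_comm
    (hc.intervalIntegrable (μ := volume) (0 : ℝ) (2 * Real.pi))
  simp only [innerSL_apply_apply] at this
  rw [← this]
  refine intervalIntegral.integral_congr fun α _ => ?_
  simp only [inner_smul_right]

/-- the abstract symmetry: the double harmonic of a symmetric jointly continuous family. -/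
lemma double_harm (U : ℝ → H →ₗᵢ[ℂ] H) (hU : ∀ f, Continuous fun α => U α f) (f : H)
    (hs : ∀ a b, ⟪f, U a (U b f)⟫_ℂ = ⟪f, U b (U a f)⟫_ℂ) :
    ⟪f, harm 1 fun a => U a (harm (-1) fun b => U b f)⟫_ℂ =
      ⟪f, harm (-1) fun a => U a (harm 1 fun b => U b f)⟫_ℂ := by
  -- joint continuity
  have hjoint : Continuous fun p : ℝ × ℝ => U p.1 (U p.2 f) := by
    rw [continuous_iff_continuousAt]
    intro p
    rw [ContinuousAt, tendsto_iff_norm_sub_tendsto_zero]
    have h1 : Tendsto (fun q : ℝ × ℝ => ‖U q.2 f - U p.2 f‖ + ‖U q.1 (U p.2 f) - U p.1 (U p.2 f)‖)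
        (𝓝 p) (𝓝 (0 + 0)) := by
      refine Tendsto.add ?_ ?_
      · have : Continuous fun q : ℝ × ℝ => ‖U q.2 f - U p.2 f‖ :=
          (((hU f).comp continuous_snd).sub continuous_const).norm
        simpa using this.tendsto p
      · have : Continuous fun q : ℝ × ℝ => ‖U q.1 (U p.2 f) - U p.1 (U p.2 f)‖ :=
          (((hU (U p.2 f)).comp continuous_fst).sub continuous_const).norm
        simpa using this.tendsto p
    rw [add_zero] at h1
    refine squeeze_zero (fun _ => norm_nonneg _) (fun q => ?_) h1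
    calc ‖U q.1 (U q.2 f) - U p.1 (U p.2 f)‖
        ≤ ‖U q.1 (U q.2 f) - U q.1 (U p.2 f)‖ + ‖U q.1 (U p.2 f) - U p.1 (U p.2 f)‖ :=
          norm_sub_le_norm_sub_add_norm_sub _ _ _
      _ = _ := by
          rw [← map_sub, (U q.1).norm_map]
  set G : ℝ → ℝ → ℂ := fun a b => ⟪f, U a (U b f)⟫_ℂ with hG
  have hGc : Continuous fun p : ℝ × ℝ => G p.1 p.2 := continuous_const.inner hjoint
  -- expansion of one side
  have expand : ∀ k : ℤ, ⟪f, harm k fun a => U a (harm (-k) fun b => U b f)⟫_ℂ =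
      ((2 * Real.pi)⁻¹ : ℝ) * ∫ a in (0 : ℝ)..(2 * Real.pi),
        (((2 * Real.pi)⁻¹ : ℝ) : ℂ) * ∫ b in (0 : ℝ)..(2 * Real.pi),
          Complex.exp (k * a * Complex.I) * (Complex.exp (((-k : ℤ) : ℂ) * b * Complex.I) * G a b) := by
    intro k
    rw [inner_harm _ _ _ (hU _)]
    congr 1
    refine intervalIntegral.integral_congr fun a _ => ?_
    have h1 : U a (harm (-k) fun b => U b f) = harm (-k) fun b => U a (U b f) := by
      unfold harm
      rw [← Complex.coe_smul, ← Complex.coe_smul, map_smul, ← LinearIsometry.intervalIntegral_comp_comm]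
      simp only [map_smul]
    have hc : Continuous fun b => U a (U b f) := (U a).continuous.comp (hU f)
    rw [h1, inner_harm _ _ _ hc, ← mul_assoc, mul_comm (Complex.exp _), mul_assoc]
    congr 1
    rw [← intervalIntegral.integral_const_mul]
  have e1 := expand 1
  have e2 := expand (-1)
  rw [neg_neg] at e2
  rw [e1, e2]
  congr 1
  simp_rw [intervalIntegral.integral_const_mul (((2 * Real.pi)⁻¹ : ℝ) : ℂ)]
  congr 1
  rw [intervalIntegral_intervalIntegral_swap]
  · refine intervalIntegral.integral_congr fun a _ => ?_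
    refine intervalIntegral.integral_congr fun b _ => ?_
    have : G b a = G a b := hs b a
    rw [this]
    ring
  · have hc : Continuous (Function.uncurry fun a b : ℝ =>
        Complex.exp (((1 : ℤ) : ℂ) * a * Complex.I) *
          (Complex.exp (((-1 : ℤ) : ℂ) * b * Complex.I) * G a b)) := by
      refine Continuous.mul ?_ (Continuous.mul ?_ hGc)
      · fun_prop
      · fun_prop
    refine (hc.continuousOn.integrableOn_compact
      (isCompact_uIcc.prod isCompact_uIcc)).mono_set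
      (prod_mono uIoc_subset_uIcc uIoc_subset_uIcc)

end hilbert

open PlaneSys

variable {Ω : Type} [TopologicalSpace Ω] [MeasurableSpace Ω] {μ : Measure Ω}

/-- the quadratic form `⟪f, U ζ' U ζ f⟫` is symmetric in small `ζ, ζ'` if `f` is supported away from
the singular set. -/
lemma symm (S : PlaneSys Ω μ) {δ : ℝ} (hδ : 0 < δ) (f : Lp ℂ 2 μ) (hf : S.SuppGe (S.C₀ * δ) f)
    {ζ ζ' : ℂ} (h : ‖ζ‖ ≤ δ) (h' : ‖ζ'‖ ≤ δ) :
    ⟪f, S.U ζ (S.U ζ' f)⟫_ℂ = ⟪f, S.U ζ' (S.U ζ f)⟫_ℂ := by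
  rw [L2.inner_def, L2.inner_def]
  refine integral_congr_ae ?_
  have a1 : ∀ ζ ζ' : ℂ, ∀ᵐ z ∂μ, (S.U ζ (S.U ζ' f)) z = f (S.T ζ' (S.T ζ z)) := by
    intro ζ ζ'
    have h1 := S.U_coe ζ (S.U ζ' f)
    have h2 := (S.T_mp ζ).quasiMeasurePreserving.ae (S.U_coe ζ' f)
    filter_upwards [h1, h2] with z h1 h2
    rw [h1, h2]
  filter_upwards [a1 ζ ζ', a1 ζ' ζ, hf, S.LC δ hδ ζ ζ' h h', S.LC δ hδ ζ' ζ h' h]
    with z h1 h2 h3 h4 h5
  rcases lt_or_ge (S.ρ z) (S.C₀ * δ) with hz | hz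
  · simp only [h3 hz, inner_zero_left]
  · have e4 := h4 hz
    have e5 := h5 hz
    rw [h1, h2]
    have : S.T ζ' (S.T ζ z) = S.T ζ (S.T ζ' z) := by
      unfold PlaneSys.T
      rw [e4, e5, add_comm]
    rw [this]

end Comm

open Comm in
theorem comm (hC : PlaneSys.StCont) (hE : PlaneSys.StE) : PlaneSys.StComm := by
  intro Ω _ _ _ _ _ μ _ S δ hδ f hf
  obtain ⟨-, -, -, hU⟩ := hC Ω μ S
  obtain ⟨-, -, -, -, -, -, -, -, hpm, hmp⟩ := hE Ω μ S δ hδ.le
  have hn : ∀ α : ℝ, ‖(δ : ℂ) * Complex.exp (α * Complex.I)‖ ≤ δ := by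
    intro α
    rw [norm_mul, Complex.norm_exp_ofReal_mul_I, mul_one, Complex.norm_real, Real.norm_eq_abs,
      abs_of_pos hδ]
  have key : ⟪f, S.Em δ (S.Ep δ f)⟫_ℂ = ⟪f, S.Ep δ (S.Em δ f)⟫_ℂ := by
    have := double_harm (fun α => S.U (δ * Complex.exp (α * Complex.I)))
      (fun g => hU δ g hδ.le) f (fun a b => symm S hδ f hf (hn a) (hn b))
    exact this
  have h1 : ⟪S.Ep δ f, S.Ep δ f⟫_ℂ = ⟪S.Em δ f, S.Em δ f⟫_ℂ := by
    rw [hpm, hmp, key]
  rw [inner_self_eq_norm_sq_to_K, inner_self_eq_norm_sq_to_K] at h1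
  have h2 : ‖S.Ep δ f‖ ^ 2 = ‖S.Em δ f‖ ^ 2 := by exact_mod_cast h1
  exact (pow_left_inj₀ (norm_nonneg _) (norm_nonneg _) two_ne_zero).1 h2

end Crest.Agent.R103
end
end

-- ▼ part R103/Rt
section

/-!
# R103 / A5: the regularised distance `rt`
-/

open MeasureTheory Filter Topology

noncomputable section

namespace Crest.Agent.R103

namespace PlaneSys

section rtlemmas

variable {Ω : Type} [TopologicalSpace Ω] [MeasurableSpace Ω] {μ : Measure Ω}
variable (S : PlaneSys Ω μ)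

lemma ρ_φ_sub (s t : ℝ) (z : Ω) : S.ρ (S.φ s z) ≤ S.ρ (S.φ t z) + |s - t| := by
  have h := S.ρ_φ (s - t) (S.φ t z)
  rw [← S.φ_add, sub_add_cancel] at h
  exact h

lemma continuous_ρ_φ (z : Ω) : Continuous fun s => S.ρ (S.φ s z) := by
  refine LipschitzWith.continuous (K := 1) (LipschitzWith.of_dist_le_mul fun s t => ?_)
  rw [Real.dist_eq, Real.dist_eq, NNReal.coe_one, one_mul, abs_sub_le_iff]
  constructor
  · linarith [S.ρ_φ_sub s t z]
  · have := S.ρ_φ_sub t s z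
    rw [abs_sub_comm] at this
    linarith

lemma rt_term_nonneg {L : ℝ} (hL : 1 ≤ L) (z : Ω) (s : ℝ) :
    0 ≤ |s| / L + L * S.ρ (S.φ s z) := by
  have hL0 : 0 < L := by linarith
  have := S.ρ_nonneg (S.φ s z)
  positivity

lemma rt_bdd {L : ℝ} (hL : 1 ≤ L) (z : Ω) :
    BddBelow (Set.range fun s : ℝ => |s| / L + L * S.ρ (S.φ s z)) :=
  ⟨0, by rintro _ ⟨s, rfl⟩; exact S.rt_term_nonneg hL z s⟩

lemma rt_le {L : ℝ} (hL : 1 ≤ L) (z : Ω) (s : ℝ) :
    S.rt L z ≤ |s| / L + L * S.ρ (S.φ s z) :=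
  ciInf_le (S.rt_bdd hL z) s

lemma le_rt {L : ℝ} (z : Ω) {c : ℝ} (h : ∀ s : ℝ, c ≤ |s| / L + L * S.ρ (S.φ s z)) :
    c ≤ S.rt L z :=
  le_ciInf h

lemma rt_nonneg {L : ℝ} (hL : 1 ≤ L) (z : Ω) : 0 ≤ S.rt L z :=
  S.le_rt z fun s => S.rt_term_nonneg hL z s

lemma rt_le_mul_ρ {L : ℝ} (hL : 1 ≤ L) (z : Ω) : S.rt L z ≤ L * S.ρ z := by
  have := S.rt_le hL z 0
  simpa [S.φ_zero] using this

/-- infimum over the rationals -/
lemma le_rt_of_rat {L : ℝ} (z : Ω) {c : ℝ}
    (h : ∀ q : ℚ, c ≤ |(q : ℝ)| / L + L * S.ρ (S.φ q z)) : c ≤ S.rt L z := by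
  refine S.le_rt z fun s => ?_
  have hc : Continuous fun s : ℝ => |s| / L + L * S.ρ (S.φ s z) :=
    (continuous_abs.div_const L).add (continuous_const.mul (S.continuous_ρ_φ z))
  have hcl : IsClosed {s : ℝ | c ≤ |s| / L + L * S.ρ (S.φ s z)} :=
    isClosed_le continuous_const hc
  have hd : Dense (Set.range ((↑) : ℚ → ℝ)) := Rat.isDenseEmbedding_coe_real.dense
  have hsub : Set.range ((↑) : ℚ → ℝ) ⊆ {s : ℝ | c ≤ |s| / L + L * S.ρ (S.φ s z)} := by
    rintro _ ⟨q, rfl⟩; exact h q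
  have := hcl.closure_subset_iff.2 hsub
  rw [hd.closure_eq] at this
  exact this (Set.mem_univ s)

lemma rt_eq_rat {L : ℝ} (hL : 1 ≤ L) (z : Ω) :
    S.rt L z = ⨅ q : ℚ, (|(q : ℝ)| / L + L * S.ρ (S.φ q z)) := by
  apply le_antisymm
  · exact le_ciInf fun q => S.rt_le hL z q
  · refine S.le_rt_of_rat z fun q => ?_
    refine ciInf_le ?_ q
    exact ⟨0, by rintro _ ⟨q, rfl⟩; exact S.rt_term_nonneg hL z q⟩

lemma rt_measurable {L : ℝ} (hL : 1 ≤ L) : Measurable (S.rt L) := by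
  have : S.rt L = fun z => ⨅ q : ℚ, (|(q : ℝ)| / L + L * S.ρ (S.φ q z)) :=
    funext fun z => S.rt_eq_rat hL z
  rw [this]
  refine Measurable.iInf fun q => ?_
  exact measurable_const.add (measurable_const.mul (S.ρ_meas.comp (S.φ_measurable q)))

lemma rt_φ_le {L : ℝ} (hL : 1 ≤ L) (t : ℝ) (z : Ω) :
    S.rt L (S.φ t z) ≤ |t| / L + S.rt L z := by
  have hL0 : 0 < L := by linarith
  rw [← sub_le_iff_le_add']
  refine S.le_rt z fun s => ?_
  have h := S.rt_le hL (S.φ t z) (s - t)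
  rw [← S.φ_add, sub_add_cancel] at h
  have h2 : |s - t| / L ≤ |s| / L + |t| / L := by
    rw [← add_div]
    exact div_le_div_of_nonneg_right (abs_sub _ _) hL0.le
  linarith

lemma rt_φ {L : ℝ} (hL : 1 ≤ L) (t : ℝ) (z : Ω) :
    |S.rt L (S.φ t z) - S.rt L z| ≤ |t| / L := by
  rw [abs_sub_le_iff]
  constructor
  · linarith [S.rt_φ_le hL t z]
  · have h := S.rt_φ_le hL (-t) (S.φ t z)
    rw [S.φ_neg_φ, abs_neg] at h
    linarith

/-- commutation of `φ δ` and `T ζ` away from the singular set -/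
lemma φ_T_comm {ε : ℝ} (hε : 0 < ε) {ζ : ℂ} (hζ : ‖ζ‖ ≤ ε) {δ : ℝ} (hδ : |δ| ≤ ε) :
    ∀ᵐ z ∂μ, S.C₀ * ε ≤ S.ρ z → S.φ δ (S.T ζ z) = S.T ζ (S.φ δ z) := by
  have hδ' : ‖(δ : ℂ)‖ ≤ ε := by rw [Complex.norm_real]; exact hδ
  have h1 := S.LC ε hε ζ (δ : ℂ) hζ hδ'
  have h2 := S.LC ε hε (δ : ℂ) ζ hδ' hζ
  have h3 : ∀ᵐ z ∂μ, S.T (δ : ℂ) (S.T ζ z) = S.φ δ (S.T ζ z) :=
    (S.T_mp ζ).quasiMeasurePreserving.ae (S.T_ofReal δ)
  have h4 := S.T_ofReal δ
  filter_upwards [h1, h2, h3, h4] with z h1 h2 h3 h4 hz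
  have e1 : S.T (δ : ℂ) (S.T ζ z) = S.T (ζ + δ) z := h1 hz
  have e2 : S.T ζ (S.T (δ : ℂ) z) = S.T (δ + ζ) z := h2 hz
  rw [← h3, e1, ← h4, e2, add_comm]

lemma rt_T_le_aux {L : ℝ} (hL : 1 ≤ L) {ζ : ℂ} (hζ : ζ ≠ 0) (s : ℝ) :
    ∀ᵐ z ∂μ, S.rt L (S.T ζ z) ≤
      |s| / L + L * S.ρ (S.φ s z) + (S.C₀ + 1) * L * ‖ζ‖ := by
  have hL0 : 0 < L := by linarith
  have hζ0 : 0 < ‖ζ‖ := norm_pos_iff.2 hζ
  have hC := S.one_le_C₀
  obtain ⟨N, hN⟩ := exists_nat_gt (|s| / ‖ζ‖)
  have hN0 : 0 < (N : ℝ) := lt_of_le_of_lt (by positivity) hN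
  set δ : ℝ := s / N with hδdef
  have hδ : |δ| ≤ ‖ζ‖ := by
    rw [hδdef, abs_div, abs_of_pos hN0, div_le_iff₀ hN0]
    rw [div_lt_iff₀ hζ0] at hN
    nlinarith
  have hNδ : (N : ℝ) * δ = s := by rw [hδdef]; field_simp
  have hcomm := S.φ_T_comm hζ0 (le_refl ‖ζ‖) hδ
  have hall : ∀ᵐ z ∂μ, ∀ j : ℕ, S.C₀ * ‖ζ‖ ≤ S.ρ (S.φ (j * δ) z) →
      S.φ δ (S.T ζ (S.φ (j * δ) z)) = S.T ζ (S.φ δ (S.φ (j * δ) z)) := by
    rw [ae_all_iff]
    intro j
    exact (S.φ_mp (j * δ)).quasiMeasurePreserving.ae hcomm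
  filter_upwards [hall] with z hz
  have hstep : ∀ n : ℕ, (∀ j < n, S.C₀ * ‖ζ‖ ≤ S.ρ (S.φ (j * δ) z)) →
      S.φ (n * δ) (S.T ζ z) = S.T ζ (S.φ (n * δ) z) := by
    intro n
    induction n with
    | zero => intro _; simp [S.φ_zero]
    | succ n ih =>
      intro h
      have e : ((n + 1 : ℕ) : ℝ) * δ = δ + n * δ := by push_cast; ring
      rw [e, S.φ_add, ih fun j hj => h j (by omega), S.φ_add]
      exact hz n (h n (by omega))
  by_cases hgood : ∀ j < N, S.C₀ * ‖ζ‖ ≤ S.ρ (S.φ (j * δ) z)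
  · have h1 := hstep N hgood
    rw [hNδ] at h1
    have h2 := S.rt_le hL (S.T ζ z) s
    rw [h1] at h2
    have h3 := mul_le_mul_of_nonneg_left (S.ρ_T ζ (S.φ s z)) hL0.le
    have h4 : 0 ≤ S.C₀ * L * ‖ζ‖ := by positivity
    nlinarith
  · push Not at hgood
    classical
    have hex : ∃ j, j < N ∧ S.ρ (S.φ (j * δ) z) < S.C₀ * ‖ζ‖ := hgood
    have hj := Nat.find_spec hex
    set j := Nat.find hex with hjdef
    have hmin : ∀ i < j, S.C₀ * ‖ζ‖ ≤ S.ρ (S.φ (i * δ) z) := by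
      intro i hi
      have := Nat.find_min hex hi
      push Not at this
      exact this (by omega)
    have h1 := hstep j hmin
    have h2 := S.rt_le hL (S.T ζ z) (j * δ)
    rw [h1] at h2
    have h3 := mul_le_mul_of_nonneg_left (S.ρ_T ζ (S.φ (j * δ) z)) hL0.le
    have h4 : |(j : ℝ) * δ| ≤ |s| := by
      rw [← hNδ, abs_mul, abs_mul, abs_of_pos hN0, Nat.abs_cast]
      exact mul_le_mul_of_nonneg_right (by exact_mod_cast hj.1.le) (abs_nonneg _)
    have h5 : |(j : ℝ) * δ| / L ≤ |s| / L := div_le_div_of_nonneg_right h4 hL0.le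
    have h6 : 0 ≤ L * S.ρ (S.φ s z) := mul_nonneg hL0.le (S.ρ_nonneg _)
    have h7 : L * S.ρ (S.φ (j * δ) z) ≤ L * (S.C₀ * ‖ζ‖) :=
      mul_le_mul_of_nonneg_left hj.2.le hL0.le
    nlinarith

lemma rt_T_le {L : ℝ} (hL : 1 ≤ L) (ζ : ℂ) :
    ∀ᵐ z ∂μ, S.rt L (S.T ζ z) ≤ S.rt L z + (S.C₀ + 1) * L * ‖ζ‖ := by
  rcases eq_or_ne ζ 0 with rfl | hζ
  · exact Eventually.of_forall fun z => by simp [S.T_zero]
  have h : ∀ᵐ z ∂μ, ∀ q : ℚ, S.rt L (S.T ζ z) ≤
      |(q : ℝ)| / L + L * S.ρ (S.φ q z) + (S.C₀ + 1) * L * ‖ζ‖ := by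
    rw [ae_all_iff]; intro q; exact S.rt_T_le_aux hL hζ q
  filter_upwards [h] with z hz
  rw [← sub_le_iff_le_add]
  exact S.le_rt_of_rat z fun q => by linarith [hz q]

lemma rt_T {L : ℝ} (hL : 1 ≤ L) (ζ : ℂ) :
    ∀ᵐ z ∂μ, |S.rt L (S.T ζ z) - S.rt L z| ≤ (S.C₀ + 1) * L * ‖ζ‖ := by
  have h1 := S.rt_T_le hL ζ
  have h2 : ∀ᵐ z ∂μ, S.rt L (S.T (-ζ) (S.T ζ z)) ≤
      S.rt L (S.T ζ z) + (S.C₀ + 1) * L * ‖-ζ‖ :=
    (S.T_mp ζ).quasiMeasurePreserving.ae (S.rt_T_le hL (-ζ))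
  filter_upwards [h1, h2, S.T_neg ζ] with z h1 h2 h3
  rw [h3, norm_neg] at h2
  rw [abs_sub_le_iff]
  constructor <;> linarith

lemma rt_vol {L : ℝ} (hL : 1 ≤ L) {r : ℝ} (hr : 0 < r) :
    μ {z | S.rt L z < r} ≤ ENNReal.ofReal (20 * S.Cv * r ^ 2) := by
  have hL0 : 0 < L := by linarith
  set b : ℝ := r / L with hb
  have hb0 : 0 < b := by positivity
  set N : ℕ := ⌊L ^ 2 + 1 / 2⌋₊ with hN
  have hsub : {z | S.rt L z < r} ⊆
      ⋃ k ∈ Finset.Icc (-(N : ℤ)) N, S.φ (k * b) ⁻¹' {z | S.ρ z < 2 * b} := by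
    intro z hz
    obtain ⟨s, hs⟩ := exists_lt_of_ciInf_lt (show (⨅ s : ℝ, (|s| / L + L * S.ρ (S.φ s z))) < r from hz)
    have h1 : |s| < r * L := by
      have : |s| / L < r := by
        have := mul_nonneg hL0.le (S.ρ_nonneg (S.φ s z))
        linarith
      rwa [div_lt_iff₀ hL0] at this
    have h2 : S.ρ (S.φ s z) < b := by
      rw [hb, lt_div_iff₀ hL0]
      have : 0 ≤ |s| / L := by positivity
      linarith
    set k : ℤ := round (s / b) with hk
    have h3 : |s / b - k| ≤ 1 / 2 := abs_sub_round (s / b)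
    have h4 : |s - k * b| ≤ b / 2 := by
      have : s - k * b = (s / b - k) * b := by field_simp
      rw [this, abs_mul, abs_of_pos hb0]
      nlinarith
    have h5 : |(k : ℝ)| ≤ L ^ 2 + 1 / 2 := by
      have e1 : |s / b| < L ^ 2 := by
        rw [abs_div, abs_of_pos hb0, div_lt_iff₀ hb0, hb]
        calc |s| < r * L := h1
          _ = L ^ 2 * (r / L) := by field_simp
      have e2 : |(k : ℝ)| ≤ |s / b| + |s / b - k| := by
        have := abs_sub_abs_le_abs_sub (k : ℝ) (s / b)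
        rw [abs_sub_comm] at this
        linarith
      linarith
    have h6 : k.natAbs ≤ N := by
      rw [hN]
      apply Nat.le_floor
      rw [Nat.cast_natAbs]
      push_cast
      exact h5
    have h7 : k ∈ Finset.Icc (-(N : ℤ)) N := by
      rw [Finset.mem_Icc]; omega
    refine Set.mem_iUnion₂.2 ⟨k, h7, ?_⟩
    change S.ρ (S.φ (k * b) z) < 2 * b
    have h8 := S.ρ_φ_sub (k * b) s z
    rw [abs_sub_comm] at h8
    linarith
  have hmeas : MeasurableSet {z | S.ρ z < 2 * b} := measurableSet_lt S.ρ_meas measurable_const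
  calc μ {z | S.rt L z < r}
      ≤ μ (⋃ k ∈ Finset.Icc (-(N : ℤ)) N, S.φ (k * b) ⁻¹' {z | S.ρ z < 2 * b}) :=
        measure_mono hsub
    _ ≤ ∑ k ∈ Finset.Icc (-(N : ℤ)) N, μ (S.φ (k * b) ⁻¹' {z | S.ρ z < 2 * b}) :=
        measure_biUnion_finset_le _ _
    _ = ∑ k ∈ Finset.Icc (-(N : ℤ)) N, μ {z | S.ρ z < 2 * b} := by
        refine Finset.sum_congr rfl fun k _ => ?_
        exact (S.φ_mp (k * b)).measure_preimage hmeas.nullMeasurableSet
    _ ≤ ∑ k ∈ Finset.Icc (-(N : ℤ)) N, ENNReal.ofReal (S.Cv * (2 * b) ^ 2) :=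
        Finset.sum_le_sum fun k _ => S.vol (2 * b) (by positivity)
    _ = ENNReal.ofReal ((2 * N + 1 : ℕ) * (S.Cv * (2 * b) ^ 2)) := by
        have hcard : (Finset.Icc (-(N : ℤ)) N).card = 2 * N + 1 := by
          rw [Int.card_Icc]; omega
        rw [Finset.sum_const, nsmul_eq_mul, hcard,
          ENNReal.ofReal_mul (p := ((2 * N + 1 : ℕ) : ℝ)) (Nat.cast_nonneg _),
          ENNReal.ofReal_natCast]
    _ ≤ ENNReal.ofReal (20 * S.Cv * r ^ 2) := by
        apply ENNReal.ofReal_le_ofReal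
        have hNle : (N : ℝ) ≤ L ^ 2 + 1 / 2 := Nat.floor_le (by positivity)
        have h1 : ((2 * N + 1 : ℕ) : ℝ) ≤ 4 * L ^ 2 := by
          push_cast
          nlinarith
        have h2 : 0 ≤ S.Cv * (2 * b) ^ 2 := mul_nonneg S.Cv_nonneg (by positivity)
        have h3 : b ^ 2 * L ^ 2 = r ^ 2 := by rw [hb]; field_simp
        calc ((2 * N + 1 : ℕ) : ℝ) * (S.Cv * (2 * b) ^ 2)
            ≤ 4 * L ^ 2 * (S.Cv * (2 * b) ^ 2) := mul_le_mul_of_nonneg_right h1 h2
          _ = 16 * S.Cv * r ^ 2 := by rw [← h3]; ring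
          _ ≤ 20 * S.Cv * r ^ 2 := by
              have := mul_nonneg S.Cv_nonneg (sq_nonneg r)
              nlinarith

end rtlemmas

theorem rtfacts : PlaneSys.StRt := by
  intro Ω _ _ _ _ _ μ _ S L hL
  exact ⟨S.rt_measurable hL, S.rt_nonneg hL, S.rt_le_mul_ρ hL, S.rt_φ hL, S.rt_T hL,
    fun r hr => S.rt_vol hL hr⟩

end PlaneSys

end Crest.Agent.R103
end
end

-- ▼ part R103/Eta
section

/-!
# R103, A6: the cutoff function
-/

open MeasureTheory Filter Topology

noncomputable section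

namespace Crest.Agent.R103

namespace Eta

/-- the one-dimensional cutoff -/
def chi (ρ x : ℝ) : ℝ := max 0 (min 1 (x / ρ - 1))

lemma chi_nonneg (ρ x : ℝ) : 0 ≤ chi ρ x := le_max_left _ _

lemma chi_le_one (ρ x : ℝ) : chi ρ x ≤ 1 := max_le zero_le_one (min_le_left _ _)

lemma chi_zero {ρ x : ℝ} (hρ : 0 < ρ) (h : x ≤ ρ) : chi ρ x = 0 := by
  have : x / ρ ≤ 1 := (div_le_one hρ).2 h
  unfold chi
  exact max_eq_left (min_le_iff.2 (Or.inr (by linarith)))

lemma chi_one {ρ x : ℝ} (hρ : 0 < ρ) (h : 2 * ρ ≤ x) : chi ρ x = 1 := by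
  have : 2 ≤ x / ρ := (le_div_iff₀ hρ).2 h
  unfold chi
  rw [min_eq_left (by linarith)]
  exact max_eq_right zero_le_one

lemma chi_lip {ρ : ℝ} (hρ : 0 < ρ) (x y : ℝ) : |chi ρ x - chi ρ y| ≤ |x - y| / ρ := by
  unfold chi
  have h1 : |max 0 (min 1 (x / ρ - 1)) - max 0 (min 1 (y / ρ - 1))|
      ≤ |min 1 (x / ρ - 1) - min 1 (y / ρ - 1)| := by
    have := abs_max_sub_max_le_max 0 (min 1 (x / ρ - 1)) 0 (min 1 (y / ρ - 1))
    simpa using this
  have h2 : |min 1 (x / ρ - 1) - min 1 (y / ρ - 1)| ≤ |(x / ρ - 1) - (y / ρ - 1)| := by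
    have := abs_min_sub_min_le_max 1 (x / ρ - 1) 1 (y / ρ - 1)
    simpa using this
  have h3 : (x / ρ - 1) - (y / ρ - 1) = (x - y) / ρ := by ring
  rw [h3, abs_div, abs_of_pos hρ] at h2
  exact h1.trans h2

lemma rad_pos {ρ₀ : ℝ} (h : 0 < ρ₀) (k : ℕ) : 0 < PlaneSys.rad ρ₀ k := by
  unfold PlaneSys.rad; positivity

lemma rad_succ (ρ₀ : ℝ) (k : ℕ) : PlaneSys.rad ρ₀ (k + 1) = PlaneSys.rad ρ₀ k / 8 := by
  unfold PlaneSys.rad; rw [pow_succ]; field_simp

lemma rad_anti {ρ₀ : ℝ} (h : 0 < ρ₀) {j k : ℕ} (hjk : j < k) :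
    PlaneSys.rad ρ₀ k ≤ PlaneSys.rad ρ₀ j / 8 := by
  induction k, hjk using Nat.le_induction with
  | base => rw [rad_succ]
  | succ k _ ih =>
    rw [rad_succ]
    have := rad_pos h j
    linarith

lemma rad_anti' {ρ₀ : ℝ} (h : 0 < ρ₀) {j k : ℕ} (hjk : j ≤ k) :
    PlaneSys.rad ρ₀ k ≤ PlaneSys.rad ρ₀ j := by
  rcases hjk.eq_or_lt with rfl | hlt
  · exact le_rfl
  · have := rad_anti h hlt
    have := rad_pos h j
    linarith

/-- outside of the `k`-th shell nothing changes -/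
lemma chi_eq_of_not_shell {ρ a x y : ℝ} (hρ : 0 < ρ) (ha : a ≤ ρ / 16) (hxy : |y - x| ≤ a)
    (h : x < ρ / 2 ∨ 3 * ρ ≤ x) : chi ρ y - chi ρ x = 0 := by
  have h1 := abs_le.1 hxy
  rcases h with h | h
  · rw [chi_zero hρ (by linarith), chi_zero hρ (by linarith), sub_zero]
  · rw [chi_one hρ (by linarith), chi_one hρ (by linarith), sub_self]

/-- the pointwise energy estimate -/
lemma pointwise {ρ₀ : ℝ} (h0 : 0 < ρ₀) {K : ℕ} (hK : 0 < K) {a x y : ℝ} (ha0 : 0 ≤ a)
    (ha : a ≤ PlaneSys.rad ρ₀ K / 2) (hxy : |y - x| ≤ a) :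
    ((K : ℝ)⁻¹ * ∑ k ∈ Finset.range K, chi (PlaneSys.rad ρ₀ k) y
      - (K : ℝ)⁻¹ * ∑ k ∈ Finset.range K, chi (PlaneSys.rad ρ₀ k) x) ^ 2
      ≤ ((K : ℝ)⁻¹) ^ 2 * ∑ k ∈ Finset.range K,
          (if x < 3 * PlaneSys.rad ρ₀ k then a ^ 2 / (PlaneSys.rad ρ₀ k) ^ 2 else 0) := by
  have hka : ∀ k ∈ Finset.range K, a ≤ PlaneSys.rad ρ₀ k / 16 := by
    intro k hk
    have := rad_anti h0 (Finset.mem_range.1 hk)
    linarith
  set D : ℕ → ℝ := fun k => chi (PlaneSys.rad ρ₀ k) y - chi (PlaneSys.rad ρ₀ k) x with hD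
  have e1 : (K : ℝ)⁻¹ * ∑ k ∈ Finset.range K, chi (PlaneSys.rad ρ₀ k) y
      - (K : ℝ)⁻¹ * ∑ k ∈ Finset.range K, chi (PlaneSys.rad ρ₀ k) x
      = (K : ℝ)⁻¹ * ∑ k ∈ Finset.range K, D k := by
    rw [← mul_sub, ← Finset.sum_sub_distrib]
  rw [e1, mul_pow]
  refine mul_le_mul_of_nonneg_left ?_ (by positivity)
  -- the shells are disjoint
  have hzero : ∀ k ∈ Finset.range K, (x < PlaneSys.rad ρ₀ k / 2 ∨ 3 * PlaneSys.rad ρ₀ k ≤ x) →
      D k = 0 := fun k hk h => chi_eq_of_not_shell (rad_pos h0 k) (hka k hk) hxy h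
  have hprod : ∀ j ∈ Finset.range K, ∀ k ∈ Finset.range K, j ≠ k → D j * D k = 0 := by
    have key : ∀ j ∈ Finset.range K, ∀ k ∈ Finset.range K, j < k → D j * D k = 0 := by
      intro j hj k hk hjk
      by_contra hne
      have hj0 : D j ≠ 0 := fun h => hne (by rw [h, zero_mul])
      have hk0 : D k ≠ 0 := fun h => hne (by rw [h, mul_zero])
      have h1 : PlaneSys.rad ρ₀ j / 2 ≤ x := by
        by_contra h; push Not at h; exact hj0 (hzero j hj (Or.inl h))
      have h2 : x < 3 * PlaneSys.rad ρ₀ k := by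
        by_contra h; push Not at h; exact hk0 (hzero k hk (Or.inr h))
      have h3 := rad_anti h0 hjk
      have h4 := rad_pos h0 j
      linarith
    intro j hj k hk hjk
    rcases lt_or_gt_of_ne hjk with h | h
    · exact key j hj k hk h
    · rw [mul_comm]; exact key k hk j hj h
  have hsq : (∑ k ∈ Finset.range K, D k) ^ 2 = ∑ k ∈ Finset.range K, D k ^ 2 := by
    rw [sq, Finset.sum_mul_sum]
    refine Finset.sum_congr rfl fun j hj => ?_
    rw [Finset.sum_eq_single j]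
    · rw [sq]
    · intro k hk hkj; exact hprod j hj k hk hkj.symm
    · intro h; exact absurd hj h
  rw [hsq]
  refine Finset.sum_le_sum fun k hk => ?_
  split_ifs with h
  · have h1 : |D k| ≤ a / PlaneSys.rad ρ₀ k := by
      refine (chi_lip (rad_pos h0 k) y x).trans ?_
      exact div_le_div_of_nonneg_right hxy (rad_pos h0 k).le
    have h2 : D k ^ 2 ≤ (a / PlaneSys.rad ρ₀ k) ^ 2 := by
      rw [← sq_abs (D k)]
      exact pow_le_pow_left₀ (abs_nonneg _) h1 2
    rwa [div_pow] at h2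
  · rw [hzero k hk (Or.inr (not_lt.1 h))]; simp

end Eta

open Eta in
theorem etafacts : PlaneSys.StRt → PlaneSys.StEta := by
  intro hRt Ω _ _ _ _ _ μ _ S L hL ρ₀ K h0 hK
  obtain ⟨hm, hnn, hle, -, -, hvol⟩ := hRt Ω μ S L hL
  have hL0 : (0 : ℝ) < L := lt_of_lt_of_le one_pos hL
  have hK0 : (0 : ℝ) < K := by exact_mod_cast hK
  have heta : ∀ z, S.eta ρ₀ K L z
      = (K : ℝ)⁻¹ * ∑ k ∈ Finset.range K, chi (PlaneSys.rad ρ₀ k) (S.rt L z) := fun z => rfl
  have hmeas : Measurable (S.eta ρ₀ K L) := by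
    have : ∀ k, Measurable fun z => chi (PlaneSys.rad ρ₀ k) (S.rt L z) := by
      intro k
      unfold chi
      exact measurable_const.max (measurable_const.min ((hm.div_const _).sub_const _))
    exact (Finset.measurable_fun_sum _ fun k _ => this k).const_mul _
  have hnn' : ∀ z, 0 ≤ S.eta ρ₀ K L z := by
    intro z
    rw [heta]
    exact mul_nonneg (by positivity) (Finset.sum_nonneg fun k _ => chi_nonneg _ _)
  have hle1 : ∀ z, S.eta ρ₀ K L z ≤ 1 := by
    intro z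
    rw [heta]
    have : ∑ k ∈ Finset.range K, chi (PlaneSys.rad ρ₀ k) (S.rt L z) ≤ K := by
      refine (Finset.sum_le_sum fun k _ => chi_le_one (PlaneSys.rad ρ₀ k) (S.rt L z)).trans ?_
      simp
    calc (K : ℝ)⁻¹ * ∑ k ∈ Finset.range K, chi (PlaneSys.rad ρ₀ k) (S.rt L z)
        ≤ (K : ℝ)⁻¹ * K := mul_le_mul_of_nonneg_left this (by positivity)
      _ = 1 := inv_mul_cancel₀ hK0.ne'
  refine ⟨hmeas, hnn', hle1, ?_, ?_, ?_⟩
  · intro z hz
    rw [heta]
    have hx : S.rt L z ≤ PlaneSys.rad ρ₀ K := by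
      refine (hle z).trans ?_
      rw [lt_div_iff₀ hL0] at hz
      linarith [mul_comm L (S.ρ z)]
    rw [Finset.sum_eq_zero, mul_zero]
    intro k hk
    exact chi_zero (rad_pos h0 k) (hx.trans (rad_anti' h0 (Finset.mem_range.1 hk).le))
  · -- the volume estimate
    have hpt : ∀ z, (1 - S.eta ρ₀ K L z) ^ 2
        ≤ ({z | S.rt L z < 2 * ρ₀}).indicator (fun _ => (1 : ℝ)) z := by
      intro z
      by_cases hz : S.rt L z < 2 * ρ₀
      · rw [Set.indicator_of_mem (by exact hz)]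
        have := hnn' z; have := hle1 z
        nlinarith
      · rw [Set.indicator_of_notMem (by exact hz)]
        have : S.eta ρ₀ K L z = 1 := by
          rw [heta]
          have : ∀ k ∈ Finset.range K, chi (PlaneSys.rad ρ₀ k) (S.rt L z) = 1 := by
            intro k hk
            refine chi_one (rad_pos h0 k) ?_
            have h1 : PlaneSys.rad ρ₀ k ≤ PlaneSys.rad ρ₀ 0 := rad_anti' h0 (Nat.zero_le k)
            have h2 : PlaneSys.rad ρ₀ 0 = ρ₀ := by unfold PlaneSys.rad; simp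
            push Not at hz
            linarith
          rw [Finset.sum_congr rfl this]
          simp [hK0.ne']
        rw [this]; norm_num
    have hms : MeasurableSet {z | S.rt L z < 2 * ρ₀} := measurableSet_lt hm measurable_const
    calc ∫ z, (1 - S.eta ρ₀ K L z) ^ 2 ∂μ
        ≤ ∫ z, ({z | S.rt L z < 2 * ρ₀}).indicator (fun _ => (1 : ℝ)) z ∂μ := by
          refine integral_mono_of_nonneg (Eventually.of_forall fun z => sq_nonneg _) ?_
            (Eventually.of_forall hpt)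
          exact (integrable_const (1 : ℝ)).indicator hms
      _ = μ.real {z | S.rt L z < 2 * ρ₀} := by
          rw [integral_indicator hms]; simp
      _ ≤ 20 * S.Cv * (2 * ρ₀) ^ 2 := by
          have h := hvol (2 * ρ₀) (by linarith)
          have hc : 0 ≤ 20 * S.Cv * (2 * ρ₀) ^ 2 := by
            have := S.Cv_nonneg; positivity
          exact ENNReal.toReal_le_of_le_ofReal hc h
      _ = 80 * S.Cv * ρ₀ ^ 2 := by ring
  · intro g a hg ha0 ha hga
    have hpt : ∀ᵐ z ∂μ, (S.eta ρ₀ K L (g z) - S.eta ρ₀ K L z) ^ 2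
        ≤ ((K : ℝ)⁻¹) ^ 2 * ∑ k ∈ Finset.range K,
          ({z | S.rt L z < 3 * PlaneSys.rad ρ₀ k}).indicator
            (fun _ => a ^ 2 / (PlaneSys.rad ρ₀ k) ^ 2) z := by
      filter_upwards [hga] with z hz
      have h := pointwise h0 hK ha0 ha hz
      rw [heta, heta]
      refine h.trans (le_of_eq ?_)
      congr 1
    have hms : ∀ k, MeasurableSet {z | S.rt L z < 3 * PlaneSys.rad ρ₀ k} :=
      fun k => measurableSet_lt hm measurable_const
    have hint : ∀ k, Integrable (({z | S.rt L z < 3 * PlaneSys.rad ρ₀ k}).indicator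
            (fun _ => a ^ 2 / (PlaneSys.rad ρ₀ k) ^ 2)) μ :=
      fun k => (integrable_const _).indicator (hms k)
    calc ∫ z, (S.eta ρ₀ K L (g z) - S.eta ρ₀ K L z) ^ 2 ∂μ
        ≤ ∫ z, ((K : ℝ)⁻¹) ^ 2 * ∑ k ∈ Finset.range K,
          ({z | S.rt L z < 3 * PlaneSys.rad ρ₀ k}).indicator
            (fun _ => a ^ 2 / (PlaneSys.rad ρ₀ k) ^ 2) z ∂μ := by
          refine integral_mono_of_nonneg (Eventually.of_forall fun z => sq_nonneg _) ?_ hpt
          exact (integrable_finset_sum _ fun k _ => hint k).const_mul _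
      _ = ((K : ℝ)⁻¹) ^ 2 * ∑ k ∈ Finset.range K,
            (a ^ 2 / (PlaneSys.rad ρ₀ k) ^ 2) * μ.real {z | S.rt L z < 3 * PlaneSys.rad ρ₀ k} := by
          rw [integral_const_mul, integral_finset_sum _ fun k _ => hint k]
          congr 1
          refine Finset.sum_congr rfl fun k _ => ?_
          rw [integral_indicator (hms k)]
          simp [mul_comm]
      _ ≤ ((K : ℝ)⁻¹) ^ 2 * ∑ k ∈ Finset.range K, a ^ 2 * (180 * S.Cv) := by
          refine mul_le_mul_of_nonneg_left (Finset.sum_le_sum fun k _ => ?_) (by positivity)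
          have hr := rad_pos h0 k
          have h := hvol (3 * PlaneSys.rad ρ₀ k) (by linarith)
          have hc : 0 ≤ 20 * S.Cv * (3 * PlaneSys.rad ρ₀ k) ^ 2 := by
            have := S.Cv_nonneg; positivity
          have h2 : μ.real {z | S.rt L z < 3 * PlaneSys.rad ρ₀ k}
              ≤ 20 * S.Cv * (3 * PlaneSys.rad ρ₀ k) ^ 2 := ENNReal.toReal_le_of_le_ofReal hc h
          calc (a ^ 2 / (PlaneSys.rad ρ₀ k) ^ 2) * μ.real {z | S.rt L z < 3 * PlaneSys.rad ρ₀ k}
              ≤ (a ^ 2 / (PlaneSys.rad ρ₀ k) ^ 2) * (20 * S.Cv * (3 * PlaneSys.rad ρ₀ k) ^ 2) :=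
                mul_le_mul_of_nonneg_left h2 (by positivity)
            _ = a ^ 2 * (180 * S.Cv) := by field_simp; ring
      _ = a ^ 2 * (180 * S.Cv) / K := by
          rw [Finset.sum_const, Finset.card_range, nsmul_eq_mul]
          field_simp

end Crest.Agent.R103
end
end

-- ▼ part R103/Main
section

/-!
# R103, A7: the main estimate

`h = η u` with `η` the logarithmic cutoff at the scale of the deformed metric.  The two first
harmonics of `h` at scale `δ` are estimated by pairing the directions `α ↔ π - α` and `α ↔ -α`,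
and the telescoping lemma gives the bound for all weight components.
-/

open MeasureTheory Filter Topology
open scoped InnerProductSpace

noncomputable section

namespace Crest.Agent.R103.Mn

/-! ## Representation facts -/

section rotfacts

variable {Ω : Type} [TopologicalSpace Ω] [MeasurableSpace Ω] {μ : Measure Ω}

lemma rot_zero (S : PlaneSys Ω μ) (f : Lp ℂ 2 μ) : S.rot 0 f = f := by
  apply Lp.ext
  filter_upwards [S.rot_coe 0 f] with z hz
  rw [hz, S.R_zero]

lemma rot_add (S : PlaneSys Ω μ) (a b : ℝ) (f : Lp ℂ 2 μ) :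
    S.rot (a + b) f = S.rot a (S.rot b f) := by
  apply Lp.ext
  have h1 := (S.R_mp a).quasiMeasurePreserving.ae (S.rot_coe b f)
  filter_upwards [S.rot_coe (a + b) f, S.rot_coe a (S.rot b f), h1] with z h2 h3 h4
  rw [h2, h3, h4, add_comm a b, S.R_add]

lemma rot_two_pi (S : PlaneSys Ω μ) (f : Lp ℂ 2 μ) : S.rot (2 * Real.pi) f = f := by
  apply Lp.ext
  filter_upwards [S.rot_coe (2 * Real.pi) f] with z hz
  rw [hz, S.R_two_pi]

end rotfacts

/-! ## Harmonics and pairing of directions -/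

section harmonics

variable {H : Type*} [NormedAddCommGroup H] [NormedSpace ℂ H]

lemma harm_add_eq (F : ℝ → H) (hF : Continuous F) :
    harm (-1) F + harm 1 F
      = ((2 * Real.pi)⁻¹ : ℝ) • ∫ α in (0 : ℝ)..(2 * Real.pi), (2 * Complex.cos α) • F α := by
  unfold harm
  rw [← smul_add, ← intervalIntegral.integral_add]
  · congr 1
    apply intervalIntegral.integral_congr
    intro α _
    simp only
    rw [← add_smul, Complex.two_cos]
    congr 1
    push_cast
    rw [add_comm]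
    congr 1 <;> congr 1 <;> ring
  · apply Continuous.intervalIntegrable
    fun_prop
  · apply Continuous.intervalIntegrable
    fun_prop

lemma harm_sub_eq (F : ℝ → H) (hF : Continuous F) :
    harm 1 F - harm (-1) F
      = ((2 * Real.pi)⁻¹ : ℝ) •
        ∫ α in (0 : ℝ)..(2 * Real.pi), (2 * Complex.sin α * Complex.I) • F α := by
  unfold harm
  rw [← smul_sub, ← intervalIntegral.integral_sub]
  · congr 1
    apply intervalIntegral.integral_congr
    intro α _
    simp only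
    rw [← sub_smul]
    congr 1
    have h := Complex.two_sin (α : ℂ)
    rw [h]
    push_cast
    have e1 : (1 : ℂ) * (α : ℂ) * Complex.I = α * Complex.I := by ring
    have e2 : (-1 : ℂ) * (α : ℂ) * Complex.I = -α * Complex.I := by ring
    rw [e1, e2, mul_assoc, Complex.I_mul_I]
    ring
  · apply Continuous.intervalIntegrable
    fun_prop
  · apply Continuous.intervalIntegrable
    fun_prop

lemma norm_aux (I : H) (M : ℝ) (h : ‖(2 : ℂ) • I‖ ≤ M * (2 * Real.pi)) :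
    ‖((2 * Real.pi)⁻¹ : ℝ) • ((2 : ℂ) • I)‖ ≤ M := by
  have hpi : 0 < 2 * Real.pi := by positivity
  rw [norm_smul, Real.norm_eq_abs, abs_of_pos (by positivity : 0 < (2 * Real.pi)⁻¹)]
  rw [inv_mul_le_iff₀ hpi]
  linarith

lemma pair_add_le (F : ℝ → H) (hF : Continuous F) (hper : ∀ α, F (α + 2 * Real.pi) = F α)
    (M : ℝ) (hM : ∀ α, ‖F α - F (Real.pi - α)‖ ≤ M) :
    ‖harm (-1) F + harm 1 F‖ ≤ M := by
  have hpi : 0 < 2 * Real.pi := by positivity
  rw [harm_add_eq F hF]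
  set G : ℝ → H := fun α => Complex.cos α • F α with hG
  have hGc : Continuous G := by
    rw [hG]; fun_prop
  have hGper : Function.Periodic G (2 * Real.pi) := by
    intro α
    simp only [hG]
    rw [hper]
    congr 1
    push_cast
    exact Complex.cos_add_two_pi _
  set I : H := ∫ α in (0 : ℝ)..(2 * Real.pi), G α with hI
  have hI2 : (∫ α in (0 : ℝ)..(2 * Real.pi), G (Real.pi - α)) = I := by
    rw [intervalIntegral.integral_comp_sub_left (fun α => G α) Real.pi]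
    have h := hGper.intervalIntegral_add_eq (Real.pi - 2 * Real.pi) 0
    rw [show Real.pi - 2 * Real.pi + 2 * Real.pi = Real.pi - 0 by ring, zero_add] at h
    rw [h]
  have h2 : (∫ α in (0 : ℝ)..(2 * Real.pi), (2 * Complex.cos α) • F α) = (2 : ℂ) • I := by
    rw [hI, ← intervalIntegral.integral_smul]
    apply intervalIntegral.integral_congr
    intro α _
    simp only [hG]
    rw [smul_smul]
  rw [h2]
  apply norm_aux
  have h3 : (2 : ℂ) • I = ∫ α in (0 : ℝ)..(2 * Real.pi), Complex.cos α • (F α - F (Real.pi - α)) := by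
    rw [two_smul]
    nth_rewrite 2 [← hI2]
    rw [hI, ← intervalIntegral.integral_add]
    · apply intervalIntegral.integral_congr
      intro α _
      simp only [hG]
      push_cast
      rw [Complex.cos_pi_sub, neg_smul, smul_sub, ← sub_eq_add_neg]
    · exact hGc.intervalIntegrable _ _
    · exact (hGc.comp (by fun_prop)).intervalIntegrable _ _
  rw [h3]
  have h4 := intervalIntegral.norm_integral_le_of_norm_le_const (a := 0) (b := 2 * Real.pi)
    (f := fun α : ℝ => Complex.cos α • (F α - F (Real.pi - α))) (C := M) (by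
      intro α _
      rw [norm_smul]
      have hc : ‖Complex.cos (α : ℂ)‖ ≤ 1 := by
        rw [← Complex.ofReal_cos, Complex.norm_real, Real.norm_eq_abs]
        exact Real.abs_cos_le_one α
      calc ‖Complex.cos (α : ℂ)‖ * ‖F α - F (Real.pi - α)‖ ≤ 1 * ‖F α - F (Real.pi - α)‖ := by
            gcongr
        _ ≤ M := by rw [one_mul]; exact hM α)
  rw [sub_zero, abs_of_pos hpi] at h4
  exact h4

lemma pair_sub_le (F : ℝ → H) (hF : Continuous F) (hper : ∀ α, F (α + 2 * Real.pi) = F α)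
    (M : ℝ) (hM : ∀ α, ‖F α - F (-α)‖ ≤ M) :
    ‖harm 1 F - harm (-1) F‖ ≤ M := by
  have hpi : 0 < 2 * Real.pi := by positivity
  rw [harm_sub_eq F hF]
  set G : ℝ → H := fun α => (Complex.sin α * Complex.I) • F α with hG
  have hGc : Continuous G := by
    rw [hG]; fun_prop
  have hGper : Function.Periodic G (2 * Real.pi) := by
    intro α
    simp only [hG]
    rw [hper]
    congr 2
    push_cast
    exact Complex.sin_add_two_pi _
  set I : H := ∫ α in (0 : ℝ)..(2 * Real.pi), G α with hI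
  have hI2 : (∫ α in (0 : ℝ)..(2 * Real.pi), G (-α)) = I := by
    rw [intervalIntegral.integral_comp_neg (fun α => G α)]
    have h := hGper.intervalIntegral_add_eq (-(2 * Real.pi)) 0
    rw [show -(2 * Real.pi) + 2 * Real.pi = -0 by ring, zero_add] at h
    rw [h]
  have h2 : (∫ α in (0 : ℝ)..(2 * Real.pi), (2 * Complex.sin α * Complex.I) • F α)
      = (2 : ℂ) • I := by
    rw [hI, ← intervalIntegral.integral_smul]
    apply intervalIntegral.integral_congr
    intro α _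
    simp only [hG]
    rw [smul_smul]
    congr 1
    ring
  rw [h2]
  apply norm_aux
  have h3 : (2 : ℂ) • I
      = ∫ α in (0 : ℝ)..(2 * Real.pi), (Complex.sin α * Complex.I) • (F α - F (-α)) := by
    rw [two_smul]
    nth_rewrite 2 [← hI2]
    rw [hI, ← intervalIntegral.integral_add]
    · apply intervalIntegral.integral_congr
      intro α _
      simp only [hG]
      push_cast
      rw [Complex.sin_neg, neg_mul, neg_smul, smul_sub, sub_eq_add_neg]
    · exact hGc.intervalIntegrable _ _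
    · exact (hGc.comp (by fun_prop)).intervalIntegrable _ _
  rw [h3]
  have h4 := intervalIntegral.norm_integral_le_of_norm_le_const (a := 0) (b := 2 * Real.pi)
    (f := fun α : ℝ => (Complex.sin α * Complex.I) • (F α - F (-α))) (C := M) (by
      intro α _
      rw [norm_smul]
      have hc : ‖Complex.sin (α : ℂ) * Complex.I‖ ≤ 1 := by
        rw [norm_mul, Complex.norm_I, mul_one, ← Complex.ofReal_sin, Complex.norm_real,
          Real.norm_eq_abs]
        exact Real.abs_sin_le_one α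
      calc ‖Complex.sin (α : ℂ) * Complex.I‖ * ‖F α - F (-α)‖ ≤ 1 * ‖F α - F (-α)‖ := by
            gcongr
        _ ≤ M := by rw [one_mul]; exact hM α)
  rw [sub_zero, abs_of_pos hpi] at h4
  exact h4

end harmonics

/-! ## `L²` estimates -/

section l2

variable {Ω : Type} [MeasurableSpace Ω] {μ : Measure Ω}

lemma norm_sq_eq (f : Lp ℂ 2 μ) : ‖f‖ ^ 2 = ∫ z, ‖f z‖ ^ 2 ∂μ := by
  have h1 : (⟪f, f⟫_ℂ) = ((‖f‖ : ℂ)) ^ 2 := inner_self_eq_norm_sq_to_K f
  have h2 : (⟪f, f⟫_ℂ) = ∫ z, (((‖f z‖ ^ 2 : ℝ)) : ℂ) ∂μ := by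
    rw [L2.inner_def]
    apply integral_congr_ae
    filter_upwards with z
    have h := inner_self_eq_norm_sq_to_K (𝕜 := ℂ) (f z)
    rw [h]
    push_cast
    rfl
  rw [h1, integral_complex_ofReal] at h2
  exact_mod_cast h2

lemma norm_le_of_ae [IsFiniteMeasure μ] (f : Lp ℂ 2 μ) (g : Ω → ℝ) (hg : Measurable g)
    (M : ℝ) (hgb : ∀ z, |g z| ≤ M) (B c : ℝ) (hB : 0 ≤ B)
    (h : ∀ᵐ z ∂μ, ‖f z‖ ≤ B * |g z|) (hc : ∫ z, g z ^ 2 ∂μ ≤ c) :
    ‖f‖ ≤ B * Real.sqrt c := by
  have hint : Integrable (fun z => g z ^ 2) μ := by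
    refine Integrable.of_bound (hg.pow_const 2).aestronglyMeasurable (M ^ 2) ?_
    · filter_upwards with z
      rw [Real.norm_eq_abs, abs_pow]
      have := hgb z
      gcongr
  have h0 : 0 ≤ ∫ z, g z ^ 2 ∂μ := integral_nonneg fun z => sq_nonneg _
  have hc0 : 0 ≤ c := h0.trans hc
  have h1 : ‖f‖ ^ 2 ≤ (B * Real.sqrt c) ^ 2 := by
    rw [norm_sq_eq, mul_pow, Real.sq_sqrt hc0]
    calc ∫ z, ‖f z‖ ^ 2 ∂μ ≤ ∫ z, B ^ 2 * g z ^ 2 ∂μ := by
          apply integral_mono_of_nonneg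
          · filter_upwards with z; positivity
          · exact hint.const_mul _
          · filter_upwards [h] with z hz
            rw [← sq_abs (g z), ← mul_pow]
            gcongr
      _ = B ^ 2 * ∫ z, g z ^ 2 ∂μ := by rw [integral_const_mul]
      _ ≤ B ^ 2 * c := by gcongr
  exact le_of_sq_le_sq h1 (by positivity)

end l2


/-! ## The cutoff function and the two displacement estimates -/

section est

variable {Ω : Type} [TopologicalSpace Ω] [MeasurableSpace Ω] {μ : Measure Ω}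

/-- displacement in the direction of the flow: `h = η u`, `ζ₂` arbitrary, `t` real. -/
lemma X_est [IsFiniteMeasure μ] (S : PlaneSys Ω μ) (u h : Lp ℂ 2 μ) (η : Ω → ℝ) (B δ b t c : ℝ)
    (ζ : ℂ) (hB : 0 ≤ B) (hδ : 0 < δ)
    (hu : ∀ᵐ z ∂μ, ‖u z‖ ≤ B) (hinv : S.Uφ t u = u)
    (hh : h =ᵐ[μ] fun z => (η z : ℂ) * u z)
    (hηm : Measurable η) (hη0 : ∀ z, 0 ≤ η z) (hη1 : ∀ z, η z ≤ 1)
    (hvan : ∀ z, S.ρ z < b → η z = 0) (hb : (2 * S.C₀ + 1) * δ ≤ b)
    (hζ : ‖ζ‖ ≤ δ) (ht : |t| ≤ 2 * δ) (hζt : ‖ζ + t‖ ≤ δ)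
    (hc : ∫ z, (η (S.φ t z) - η z) ^ 2 ∂μ ≤ c) :
    ‖S.U (ζ + t) h - S.U ζ h‖ ≤ B * Real.sqrt c := by
  have hTm : Measurable (S.T ζ) := S.T_measurable ζ
  refine norm_le_of_ae (S.U (ζ + t) h - S.U ζ h)
    (fun z => η (S.φ t (S.T ζ z)) - η (S.T ζ z)) ?_ 1 ?_ B c hB ?_ ?_
  · exact (hηm.comp ((S.φ_measurable t).comp hTm)).sub (hηm.comp hTm)
  · intro z
    rw [abs_le]
    constructor
    · linarith [hη0 (S.φ t (S.T ζ z)), hη1 (S.T ζ z)]
    · linarith [hη1 (S.φ t (S.T ζ z)), hη0 (S.T ζ z)]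
  · -- pointwise bound
    have q1 := (S.T_mp ζ).quasiMeasurePreserving
    have q2 := (S.T_mp (ζ + t)).quasiMeasurePreserving
    have q3 := (S.φ_mp t).quasiMeasurePreserving
    have a1 := S.U_coe (ζ + t) h
    have a2 := S.U_coe ζ h
    have a3 := q1.ae hh
    have a4 := q2.ae hh
    have a5 : ∀ᵐ z ∂μ, u (S.φ t z) = u z := by
      have := S.Uφ_coe t u
      rw [hinv] at this
      filter_upwards [this] with z hz using hz.symm
    have a6 := q1.ae a5
    have a7 := q1.ae hu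
    have a8 := q1.ae (S.T_ofReal t)
    have hLC : ∀ᵐ z ∂μ, S.C₀ * (2 * δ) ≤ S.ρ z → S.T (t : ℂ) (S.T ζ z) = S.T (ζ + t) z :=
      S.LC (2 * δ) (by linarith) ζ t (by linarith) (by
        rw [Complex.norm_real, Real.norm_eq_abs]; exact ht)
    filter_upwards [a1, a2, a3, a4, a6, a7, a8, hLC, Lp.coeFn_sub (S.U (ζ + t) h) (S.U ζ h)]
      with z h1 h2 h3 h4 h6 h7 h8 hLCz hsub
    rw [hsub, Pi.sub_apply, h1, h2, h3, h4]
    by_cases hz : S.C₀ * (2 * δ) ≤ S.ρ z
    · rw [← hLCz hz, h8, h6, ← sub_mul, norm_mul, ← Complex.ofReal_sub, Complex.norm_real,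
        Real.norm_eq_abs, mul_comm]
      gcongr
    · have hz' : S.ρ z < S.C₀ * (2 * δ) := not_le.1 hz
      have e1 : η (S.T ζ z) = 0 := hvan _ (by
        have := S.ρ_T ζ z
        nlinarith)
      have e2 : η (S.T (ζ + t) z) = 0 := hvan _ (by
        have := S.ρ_T (ζ + t) z
        nlinarith)
      rw [e1, e2]
      simp only [Complex.ofReal_zero, zero_mul, sub_zero, norm_zero]
      positivity
  · have hmp := S.T_mp ζ
    have : ∫ z, (η (S.φ t (S.T ζ z)) - η (S.T ζ z)) ^ 2 ∂μ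
        = ∫ z, (η (S.φ t z) - η z) ^ 2 ∂μ := by
      have hm : AEStronglyMeasurable (fun z => (η (S.φ t z) - η z) ^ 2)
          (Measure.map (S.T ζ) μ) :=
        (((hηm.comp (S.φ_measurable t)).sub hηm).pow_const 2).aestronglyMeasurable
      have h := integral_map hTm.aemeasurable hm
      rw [hmp.map_eq] at h
      exact h.symm
    rw [this]
    exact hc

/-- arbitrary small displacement of `h = η u`. -/
lemma Y_est [IsFiniteMeasure μ] (S : PlaneSys Ω μ) (u h : Lp ℂ 2 μ) (η : Ω → ℝ) (B c : ℝ)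
    (ζ : ℂ) (hB : 0 ≤ B)
    (hu : ∀ᵐ z ∂μ, ‖u z‖ ≤ B)
    (hh : h =ᵐ[μ] fun z => (η z : ℂ) * u z)
    (hηm : Measurable η) (hη0 : ∀ z, 0 ≤ η z) (hη1 : ∀ z, η z ≤ 1)
    (hc : ∫ z, (η (S.T ζ z) - η z) ^ 2 ∂μ ≤ c) :
    ‖S.U ζ h - h‖ ≤ B * Real.sqrt c + ‖S.U ζ u - u‖ := by
  have hTm : Measurable (S.T ζ) := S.T_measurable ζ
  -- the function `g = (η ∘ T - η) (u ∘ T)`
  set g : Ω → ℂ := fun z => ((η (S.T ζ z) - η z : ℝ) : ℂ) * (S.U ζ u) z with hg
  have hgm : MemLp g 2 μ := by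
    have hm1 : AEStronglyMeasurable (fun z => ((η (S.T ζ z) - η z : ℝ) : ℂ)) μ :=
      (Complex.measurable_ofReal.comp ((hηm.comp hTm).sub hηm)).aestronglyMeasurable
    refine MemLp.of_le (Lp.memLp (S.U ζ u)) (hm1.mul (Lp.aestronglyMeasurable _)) ?_
    filter_upwards with z
    rw [hg]
    simp only
    rw [norm_mul, Complex.norm_real, Real.norm_eq_abs]
    have : |η (S.T ζ z) - η z| ≤ 1 := by
      rw [abs_le]
      constructor
      · linarith [hη0 (S.T ζ z), hη1 z]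
      · linarith [hη1 (S.T ζ z), hη0 z]
    calc |η (S.T ζ z) - η z| * ‖(S.U ζ u) z‖ ≤ 1 * ‖(S.U ζ u) z‖ := by gcongr
      _ = _ := one_mul _
  set k : Ω → ℂ := fun z => (η z : ℂ) * (S.U ζ u - u) z with hk
  have hkm : MemLp k 2 μ := by
    have hm1 : AEStronglyMeasurable (fun z => (η z : ℂ)) μ :=
      (Complex.measurable_ofReal.comp hηm).aestronglyMeasurable
    refine MemLp.of_le (Lp.memLp (S.U ζ u - u)) (hm1.mul (Lp.aestronglyMeasurable _)) ?_
    filter_upwards with z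
    rw [hk]
    simp only
    rw [norm_mul, Complex.norm_real, Real.norm_eq_abs, abs_of_nonneg (hη0 z)]
    calc η z * ‖(S.U ζ u - u : Lp ℂ 2 μ) z‖ ≤ 1 * ‖(S.U ζ u - u : Lp ℂ 2 μ) z‖ := by
          gcongr; exact hη1 z
      _ = _ := one_mul _
  have hsum : S.U ζ h - h = hgm.toLp g + hkm.toLp k := by
    apply Lp.ext
    have q1 := (S.T_mp ζ).quasiMeasurePreserving
    filter_upwards [Lp.coeFn_sub (S.U ζ h) h, Lp.coeFn_add (hgm.toLp g) (hkm.toLp k),
      hgm.coeFn_toLp, hkm.coeFn_toLp, S.U_coe ζ h, hh, q1.ae hh, S.U_coe ζ u,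
      Lp.coeFn_sub (S.U ζ u) u] with z h1 h2 h3 h4 h5 h6 h7 h8 h9
    rw [h1, h2, Pi.sub_apply, Pi.add_apply, h3, h4, h5, h6, h7]
    simp only [hg, hk]
    rw [h9, Pi.sub_apply, h8]
    push_cast
    ring
  rw [hsum]
  refine (norm_add_le _ _).trans (add_le_add ?_ ?_)
  · refine norm_le_of_ae (hgm.toLp g) (fun z => η (S.T ζ z) - η z) ?_ 1 ?_ B c hB ?_ hc
    · exact (hηm.comp hTm).sub hηm
    · intro z
      rw [abs_le]
      constructor
      · linarith [hη0 (S.T ζ z), hη1 z]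
      · linarith [hη1 (S.T ζ z), hη0 z]
    · have q1 := (S.T_mp ζ).quasiMeasurePreserving
      filter_upwards [hgm.coeFn_toLp, S.U_coe ζ u, q1.ae hu] with z h1 h2 h3
      rw [h1]
      simp only [hg]
      rw [norm_mul, Complex.norm_real, Real.norm_eq_abs, h2, mul_comm]
      gcongr
  · apply Lp.norm_le_norm_of_ae_le
    filter_upwards [hkm.coeFn_toLp] with z h1
    rw [h1]
    simp only [hk]
    rw [norm_mul, Complex.norm_real, Real.norm_eq_abs, abs_of_nonneg (hη0 z)]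
    calc η z * ‖(S.U ζ u - u : Lp ℂ 2 μ) z‖ ≤ 1 * ‖(S.U ζ u - u : Lp ℂ 2 μ) z‖ := by
          gcongr; exact hη1 z
      _ = _ := one_mul _

end est

/-! ## Assembly -/

lemma SuppGe_mono {Ω : Type} [TopologicalSpace Ω] [MeasurableSpace Ω] {μ : Measure Ω}
    (S : PlaneSys Ω μ) {b b' : ℝ} (hb : b' ≤ b) {f : Lp ℂ 2 μ} (hf : S.SuppGe b f) :
    S.SuppGe b' f := by
  filter_upwards [hf] with z hz h
  exact hz (h.trans_le hb)

/-- the algebra behind the choice `r = (L²-1)/(L²+1)`. -/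
lemma tele_alg {H : Type*} [NormedAddCommGroup H] [NormedSpace ℂ H] (ep em : H) (L : ℝ)
    (hL : 1 ≤ L) (a b : ℝ) (ha : ‖ep + em‖ ≤ a) (hb : ‖em - ep‖ ≤ b) :
    (Real.sqrt (1 - ((L ^ 2 - 1) / (L ^ 2 + 1)) ^ 2))⁻¹ *
      ‖em + (((L ^ 2 - 1) / (L ^ 2 + 1) : ℝ) : ℂ) • ep‖ ≤ L / 2 * a + 1 / (2 * L) * b := by
  have hL0 : 0 < L := by linarith
  have hL2 : 0 < L ^ 2 + 1 := by positivity
  set r : ℝ := (L ^ 2 - 1) / (L ^ 2 + 1) with hr
  have hr1 : (1 + r) / 2 = L ^ 2 / (L ^ 2 + 1) := by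
    rw [hr]; field_simp; ring
  have hr2 : (1 - r) / 2 = 1 / (L ^ 2 + 1) := by
    rw [hr]; field_simp; ring
  have hs : Real.sqrt (1 - r ^ 2) = 2 * L / (L ^ 2 + 1) := by
    rw [Real.sqrt_eq_iff_mul_self_eq_of_pos (by positivity), hr]
    field_simp
    ring
  have hdec : em + (r : ℂ) • ep = (((1 + r) / 2 : ℝ) : ℂ) • (ep + em)
      + (((1 - r) / 2 : ℝ) : ℂ) • (em - ep) := by
    rw [smul_add, smul_sub]
    have e1 : (((1 + r) / 2 : ℝ) : ℂ) • em + (((1 - r) / 2 : ℝ) : ℂ) • em = em := by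
      rw [← add_smul]
      have : (((1 + r) / 2 : ℝ) : ℂ) + (((1 - r) / 2 : ℝ) : ℂ) = 1 := by push_cast; ring
      rw [this, one_smul]
    have e2 : (((1 + r) / 2 : ℝ) : ℂ) • ep - (((1 - r) / 2 : ℝ) : ℂ) • ep = (r : ℂ) • ep := by
      rw [← sub_smul]
      have : (((1 + r) / 2 : ℝ) : ℂ) - (((1 - r) / 2 : ℝ) : ℂ) = (r : ℂ) := by push_cast; ring
      rw [this]
    nth_rewrite 1 [← e1]
    rw [← e2]
    abel
  have hn : ‖em + (r : ℂ) • ep‖ ≤ L ^ 2 / (L ^ 2 + 1) * a + 1 / (L ^ 2 + 1) * b := by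
    rw [hdec]
    refine (norm_add_le _ _).trans (add_le_add ?_ ?_)
    · rw [norm_smul, Complex.norm_real, hr1, Real.norm_eq_abs, abs_of_nonneg (by positivity)]
      gcongr
    · rw [norm_smul, Complex.norm_real, hr2, Real.norm_eq_abs, abs_of_nonneg (by positivity)]
      gcongr
  rw [hs]
  calc (2 * L / (L ^ 2 + 1))⁻¹ * ‖em + (r : ℂ) • ep‖
      ≤ (2 * L / (L ^ 2 + 1))⁻¹ * (L ^ 2 / (L ^ 2 + 1) * a + 1 / (L ^ 2 + 1) * b) := by gcongr
    _ = L / 2 * a + 1 / (2 * L) * b := by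
      field_simp

/-- the estimate for fixed parameters -/
lemma core (hTele : StTele) (hCont : PlaneSys.StCont) (hE : PlaneSys.StE) (hP : PlaneSys.StP)
    (hComm : PlaneSys.StComm) (hEta : PlaneSys.StEta) (hRt : PlaneSys.StRt)
    (Ω : Type) [TopologicalSpace Ω] [MeasurableSpace Ω] [BorelSpace Ω]
    [SecondCountableTopology Ω] [TopologicalSpace.PseudoMetrizableSpace Ω]
    (μ : Measure Ω) [IsFiniteMeasure μ] (S : PlaneSys Ω μ) (u : Lp ℂ 2 μ) (B : ℝ) (hB : 0 ≤ B)
    (hu : ∀ᵐ z ∂μ, ‖u z‖ ≤ B) (hinv : ∀ t, S.Uφ t u = u)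
    (ρ₀ : ℝ) (hρ₀ : 0 < ρ₀) (K : ℕ) (hK : 0 < K) (L : ℝ) (hL : 1 ≤ L) (δ : ℝ)
    (hδ : δ = PlaneSys.rad ρ₀ K / ((4 * S.C₀ + 4) * L)) (ω : ℝ)
    (hω : ∀ ζ : ℂ, ‖ζ‖ = δ → ‖S.U ζ u - u‖ ≤ ω) :
    ∃ h : Lp ℂ 2 μ, ‖h - u‖ ≤ B * Real.sqrt (80 * S.Cv * ρ₀ ^ 2) ∧
      ∀ n : ℤ, ‖S.Ep δ (S.P n h)‖ ≤ B * (S.C₀ + 2) * Real.sqrt (180 * S.Cv / K) * δ + ω / L ∧
        ‖S.Em δ (S.P n h)‖ ≤ B * (S.C₀ + 2) * Real.sqrt (180 * S.Cv / K) * δ + ω / L := by
  have hC : 1 ≤ S.C₀ := S.one_le_C₀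
  have hCv : 0 ≤ S.Cv := S.Cv_nonneg
  have hL0 : 0 < L := by linarith
  have hKr : (0 : ℝ) < K := by exact_mod_cast hK
  obtain ⟨hηm, hη0, hη1, hηvan, hηint, hηdiff⟩ := hEta Ω μ S L hL ρ₀ K hρ₀ hK
  obtain ⟨-, -, -, hrtφ, hrtT, -⟩ := hRt Ω μ S L hL
  obtain ⟨hc0, hcrot, hcφ, hcU⟩ := hCont Ω μ S
  have hrad : 0 < PlaneSys.rad ρ₀ K := by unfold PlaneSys.rad; positivity
  have hδ0 : 0 < δ := by rw [hδ]; positivity
  have hδL : δ * L = PlaneSys.rad ρ₀ K / (4 * S.C₀ + 4) := by rw [hδ]; field_simp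
  have hδL' : (4 * S.C₀ + 4) * δ = PlaneSys.rad ρ₀ K / L := by rw [hδ]; field_simp
  set η : Ω → ℝ := S.eta ρ₀ K L with hηdef
  -- the function `h`
  have hηu : MemLp (fun z => (η z : ℂ) * u z) 2 μ := by
    have hm1 : AEStronglyMeasurable (fun z => (η z : ℂ)) μ :=
      (Complex.measurable_ofReal.comp hηm).aestronglyMeasurable
    refine MemLp.of_le (Lp.memLp u) (hm1.mul (Lp.aestronglyMeasurable _)) ?_
    filter_upwards with z
    rw [norm_mul, Complex.norm_real, Real.norm_eq_abs, abs_of_nonneg (hη0 z)]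
    calc η z * ‖u z‖ ≤ 1 * ‖u z‖ := by gcongr; exact hη1 z
      _ = _ := one_mul _
  set h : Lp ℂ 2 μ := hηu.toLp _ with hhdef
  have hh : h =ᵐ[μ] fun z => (η z : ℂ) * u z := hηu.coeFn_toLp
  -- support
  have hsupp : S.SuppGe ((4 * S.C₀ + 4) * δ) h := by
    filter_upwards [hh] with z hz hρ
    rw [hz, hηvan z (by rw [← hδL']; exact hρ)]
    simp
  -- square root abbreviation
  set s : ℝ := Real.sqrt (180 * S.Cv / K) with hs
  have hs0 : 0 ≤ s := Real.sqrt_nonneg _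
  have hsq : ∀ a : ℝ, 0 ≤ a → Real.sqrt (a ^ 2 * (180 * S.Cv) / K) = a * s := by
    intro a ha
    rw [hs, mul_div_assoc, Real.sqrt_mul (sq_nonneg a), Real.sqrt_sq ha]
  -- the continuous circle function
  set F : ℝ → Lp ℂ 2 μ := fun α => S.U (δ * Complex.exp (α * Complex.I)) h with hF
  have hFc : Continuous F := hcU δ h hδ0.le
  have hFper : ∀ α, F (α + 2 * Real.pi) = F α := by
    intro α
    simp only [hF]
    congr 2
    push_cast
    rw [add_mul, Complex.exp_add, Complex.exp_two_pi_mul_I, mul_one]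
  -- X estimate
  have hX : ‖S.Ep δ h + S.Em δ h‖ ≤ B * (2 * δ / L * s) := by
    apply pair_add_le F hFc hFper
    intro α
    simp only [hF]
    set t : ℝ := 2 * δ * Real.cos α with ht
    set ζ : ℂ := δ * Complex.exp (((Real.pi - α : ℝ) : ℂ) * Complex.I) with hζ
    have hsumζ : (δ : ℂ) * Complex.exp (α * Complex.I) = ζ + (t : ℂ) := by
      rw [hζ, ht]
      push_cast
      have h2 := Complex.two_cos (α : ℂ)
      have h3 : Complex.exp (((Real.pi : ℂ) - α) * Complex.I) = - Complex.exp (-α * Complex.I) := by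
        rw [sub_mul, sub_eq_add_neg, Complex.exp_add, Complex.exp_pi_mul_I, neg_one_mul, neg_mul]
      rw [h3]
      have : (2 : ℂ) * δ * Complex.cos α = δ * (2 * Complex.cos α) := by ring
      rw [this, h2]
      ring
    have hζn : ‖ζ‖ = δ := by
      rw [hζ, norm_mul, Complex.norm_exp_ofReal_mul_I, Complex.norm_real, Real.norm_eq_abs,
        abs_of_pos hδ0, mul_one]
    have hζn' : ‖ζ + (t : ℂ)‖ = δ := by
      rw [← hsumζ, norm_mul, Complex.norm_exp_ofReal_mul_I, Complex.norm_real, Real.norm_eq_abs,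
        abs_of_pos hδ0, mul_one]
    have htabs : |t| ≤ 2 * δ := by
      rw [ht, abs_mul, abs_of_pos (by positivity : 0 < 2 * δ)]
      calc 2 * δ * |Real.cos α| ≤ 2 * δ * 1 := by gcongr; exact Real.abs_cos_le_one α
        _ = 2 * δ := mul_one _
    rw [hsumζ]
    have ha : |t| / L ≤ PlaneSys.rad ρ₀ K / 2 := by
      rw [div_le_div_iff₀ hL0 two_pos]
      have h1 : (4 * S.C₀ + 4) * (δ * L) = PlaneSys.rad ρ₀ K := by
        rw [hδL]; field_simp
      have h2 : 8 * (δ * L) ≤ PlaneSys.rad ρ₀ K := by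
        rw [← h1]
        have : 0 < δ * L := by positivity
        nlinarith
      have h3 : PlaneSys.rad ρ₀ K ≤ PlaneSys.rad ρ₀ K * L := by nlinarith
      nlinarith
    have hd := hηdiff (S.φ t) (|t| / L) (S.φ_measurable t) (by positivity) ha
      (Eventually.of_forall fun z => hrtφ t z)
    have hest := X_est S u h η B δ ((4 * S.C₀ + 4) * δ) t _ ζ hB hδ0 hu (hinv t) hh hηm hη0 hη1
      (fun z hz => hηvan z (by rw [← hδL']; exact hz)) (by nlinarith) hζn.le htabs hζn'.le hd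
    rw [hsq _ (by positivity)] at hest
    refine hest.trans ?_
    gcongr
  -- Y estimate
  have hY : ‖S.Em δ h - S.Ep δ h‖ ≤ 2 * (B * ((S.C₀ + 1) * L * δ * s) + ω) := by
    apply pair_sub_le F hFc hFper
    intro α
    have key : ∀ β : ℝ, ‖F β - h‖ ≤ B * ((S.C₀ + 1) * L * δ * s) + ω := by
      intro β
      simp only [hF]
      set ζ : ℂ := δ * Complex.exp ((β : ℂ) * Complex.I) with hζ
      have hζn : ‖ζ‖ = δ := by
        rw [hζ, norm_mul, Complex.norm_exp_ofReal_mul_I, Complex.norm_real, Real.norm_eq_abs,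
          abs_of_pos hδ0, mul_one]
      have ha : (S.C₀ + 1) * L * ‖ζ‖ ≤ PlaneSys.rad ρ₀ K / 2 := by
        rw [hζn]
        have h1 : (4 * S.C₀ + 4) * (δ * L) = PlaneSys.rad ρ₀ K := by
          rw [hδL]; field_simp
        nlinarith
      have hd := hηdiff (S.T ζ) ((S.C₀ + 1) * L * ‖ζ‖) (S.T_measurable ζ) (by positivity) ha
        (hrtT ζ)
      have hest := Y_est S u h η B _ ζ hB hu hh hηm hη0 hη1 hd
      rw [hsq _ (by positivity), hζn] at hest
      exact hest.trans (by gcongr; exact hω ζ hζn)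
    calc ‖F α - F (-α)‖ = ‖(F α - h) - (F (-α) - h)‖ := by congr 1; abel
      _ ≤ ‖F α - h‖ + ‖F (-α) - h‖ := norm_sub_le _ _
      _ ≤ 2 * (B * ((S.C₀ + 1) * L * δ * s) + ω) := by linarith [key α, key (-α)]
  -- telescoping
  obtain ⟨Ep', Em', hEp, hEm, -, -, hrEp, hrEm, -, -⟩ := hE Ω μ S δ hδ0.le
  obtain ⟨-, -, -, -, hPsupp⟩ := hP Ω μ S
  have heq : ∀ n : ℤ, ‖S.Ep δ (S.P n h)‖ = ‖S.Em δ (S.P n h)‖ := by
    intro n
    apply hComm Ω μ S δ hδ0
    refine SuppGe_mono S ?_ (hPsupp n _ h hsupp)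
    nlinarith
  have htele := hTele (Lp ℂ 2 μ) S.rot (rot_zero S) (rot_add S) (rot_two_pi S) hcrot Ep' Em'
    (by intro α f; rw [hEp, hEp]; exact hrEp α f)
    (by intro α f; rw [hEm, hEm]; exact hrEm α f) h
    (by intro n; rw [hEp, hEm]; exact heq n)
  have hr0 : 0 ≤ (L ^ 2 - 1) / (L ^ 2 + 1) := by
    apply div_nonneg _ (by positivity)
    nlinarith
  have hr1 : (L ^ 2 - 1) / (L ^ 2 + 1) < 1 := by
    rw [div_lt_one (by positivity)]
    linarith
  have hfinal : ∀ n : ℤ, ‖S.Em δ (S.P n h)‖ ≤ B * (S.C₀ + 2) * s * δ + ω / L := by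
    intro n
    have h1 := htele n _ hr0 hr1
    rw [hEm, hEm, hEp] at h1
    have h2 := tele_alg (S.Ep δ h) (S.Em δ h) L hL _ _ hX hY
    refine (h1.trans h2).trans (le_of_eq ?_)
    field_simp
    ring
  refine ⟨h, ?_, fun n => ⟨?_, hfinal n⟩⟩
  · -- distance to `u`
    refine norm_le_of_ae (h - u) (fun z => 1 - η z) (measurable_const.sub hηm) 1 ?_ B _ hB ?_
      hηint
    · intro z
      rw [abs_le]
      constructor <;> linarith [hη0 z, hη1 z]
    · filter_upwards [Lp.coeFn_sub h u, hh, hu] with z h1 h2 h3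
      rw [h1, Pi.sub_apply, h2]
      have : (η z : ℂ) * u z - u z = -((1 - η z : ℝ) : ℂ) * u z := by push_cast; ring
      rw [this, norm_mul, norm_neg, Complex.norm_real, Real.norm_eq_abs, mul_comm]
      gcongr
  · rw [heq n]
    exact hfinal n

end Crest.Agent.R103.Mn

namespace Crest.Agent.R103

theorem main (hTele : StTele) (hCont : PlaneSys.StCont) (hE : PlaneSys.StE) (hP : PlaneSys.StP)
    (hComm : PlaneSys.StComm) (hEta : PlaneSys.StEta) (hRt : PlaneSys.StRt) :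
    PlaneSys.StMain := by
  intro Ω _ _ _ _ _ μ _ S u B₀ hu₀ hinv ε hε δ₀ hδ₀
  set B : ℝ := max B₀ 0 with hB
  have hB0 : 0 ≤ B := le_max_right _ _
  have hu : ∀ᵐ z ∂μ, ‖u z‖ ≤ B := by
    filter_upwards [hu₀] with z hz using hz.trans (le_max_left _ _)
  have hC : 1 ≤ S.C₀ := S.one_le_C₀
  have hCv : 0 ≤ S.Cv := S.Cv_nonneg
  -- choice of `ρ₀`
  obtain ⟨ρ₀, hρ₀, hρ₀'⟩ : ∃ ρ₀ : ℝ, 0 < ρ₀ ∧ B * Real.sqrt (80 * S.Cv * ρ₀ ^ 2) ≤ ε := by
    have hD : 0 < B * Real.sqrt (80 * S.Cv) + 1 := by positivity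
    refine ⟨ε / (B * Real.sqrt (80 * S.Cv) + 1), by positivity, ?_⟩
    rw [Real.sqrt_mul (by positivity), Real.sqrt_sq (by positivity), ← mul_assoc,
      mul_div_assoc', div_le_iff₀ hD]
    nlinarith [Real.sqrt_nonneg (80 * S.Cv)]
  -- choice of `K`
  obtain ⟨K, hK, hK'⟩ : ∃ K : ℕ, 0 < K ∧
      B * (S.C₀ + 2) * Real.sqrt (180 * S.Cv / K) ≤ ε / 2 := by
    have ht : Tendsto (fun K : ℕ => B * (S.C₀ + 2) * Real.sqrt (180 * S.Cv / K)) atTop
        (𝓝 (B * (S.C₀ + 2) * Real.sqrt 0)) := by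
      refine Tendsto.const_mul _ ?_
      refine (Real.continuous_sqrt.tendsto 0).comp ?_
      exact tendsto_const_div_atTop_nhds_zero_nat _
    rw [Real.sqrt_zero, mul_zero] at ht
    have h1 := ht.eventually (gt_mem_nhds (show (0 : ℝ) < ε / 2 by positivity))
    obtain ⟨K, hK1, hK2⟩ := (h1.and (eventually_gt_atTop 0)).exists
    exact ⟨K, hK2, hK1.le⟩
  -- the constant `c = L δ`
  have hrad : 0 < PlaneSys.rad ρ₀ K := by unfold PlaneSys.rad; positivity
  set c : ℝ := PlaneSys.rad ρ₀ K / (4 * S.C₀ + 4) with hc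
  have hc0 : 0 < c := by positivity
  -- modulus of continuity
  obtain ⟨hcont0, -⟩ := hCont Ω μ S
  have hmod : ∀ᶠ ζ : ℂ in 𝓝 0, ‖S.U ζ u - u‖ < ε / 2 * c := by
    have h1 : Tendsto (fun ζ : ℂ => ‖S.U ζ u - u‖) (𝓝 0) (𝓝 0) := by
      have h2 := ((hcont0 u).sub_const u).norm
      simpa using h2
    exact h1.eventually (gt_mem_nhds (by positivity))
  obtain ⟨δ₁, hδ₁, hmod'⟩ := Metric.eventually_nhds_iff.1 hmod
  -- choice of `L`
  obtain ⟨L, hL1, hL2⟩ : ∃ L : ℝ, 1 ≤ L ∧ c / L < min δ₀ δ₁ := by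
    have hm : 0 < min δ₀ δ₁ := lt_min hδ₀ hδ₁
    refine ⟨max 1 (c / min δ₀ δ₁ + 1), le_max_left _ _, ?_⟩
    have hpos : 0 < max 1 (c / min δ₀ δ₁ + 1) := lt_of_lt_of_le one_pos (le_max_left _ _)
    rw [div_lt_iff₀ hpos]
    have h1 : c / min δ₀ δ₁ < max 1 (c / min δ₀ δ₁ + 1) :=
      lt_of_lt_of_le (lt_add_one _) (le_max_right _ _)
    rw [div_lt_iff₀ hm] at h1
    linarith
  have hL0 : 0 < L := by linarith
  have hδeq : c / L = PlaneSys.rad ρ₀ K / ((4 * S.C₀ + 4) * L) := by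
    rw [hc]; field_simp
  have hδpos : 0 < c / L := by positivity
  obtain ⟨h, hh1, hh2⟩ := Mn.core hTele hCont hE hP hComm hEta hRt Ω μ S u B hB0 hu hinv ρ₀ hρ₀ K
    hK L hL1 (c / L) hδeq (ε / 2 * c) (by
      intro ζ hζ
      apply le_of_lt
      apply hmod'
      rw [dist_zero_right, hζ]
      exact hL2.trans_le (min_le_right _ _))
  refine ⟨c / L, hδpos, hL2.trans_le (min_le_left _ _), h, hh1.trans hρ₀', fun n => ?_⟩
  have hb : B * (S.C₀ + 2) * Real.sqrt (180 * S.Cv / K) * (c / L) + ε / 2 * c / L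
      ≤ ε * (c / L) := by
    have h1 : B * (S.C₀ + 2) * Real.sqrt (180 * S.Cv / K) * (c / L) ≤ ε / 2 * (c / L) := by
      gcongr
    have h2 : ε / 2 * c / L = ε / 2 * (c / L) := by ring
    rw [h2]
    linarith
  exact ⟨(hh2 n).1.trans hb, (hh2 n).2.trans hb⟩

end Crest.Agent.R103
end
end

-- ▼ part R103/Fin
section

/-! Row 103, B2 (helper428): finite dimensional invariant subspaces consist of fixed vectors. -/

set_option autoImplicit false

open MeasureTheory Filter Topology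
open scoped InnerProductSpace

noncomputable section

namespace Crest.Agent.R103.FinB2

/-- a commuting family of operators on a nonzero finite dimensional invariant subspace has a common
eigenvector -/
theorem common_eigen {H : Type*} [AddCommGroup H] [Module ℂ H] {ι : Type*}
    (A : ι → (H →ₗ[ℂ] H)) :
    ∀ (n : ℕ) (W : Submodule ℂ H), FiniteDimensional ℂ W → Module.finrank ℂ W = n → W ≠ ⊥ →
      (∀ i, ∀ w ∈ W, A i w ∈ W) → (∀ i j, ∀ w ∈ W, A i (A j w) = A j (A i w)) →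
      ∃ w ∈ W, w ≠ 0 ∧ ∀ i, ∃ c : ℂ, A i w = c • w := by
  intro n
  induction n using Nat.strong_induction_on with
  | _ n ih =>
    intro W hfd hn hW hinv hcomm
    by_cases hsc : ∀ i, ∃ c : ℂ, ∀ w ∈ W, A i w = c • w
    · obtain ⟨w, hw, hw0⟩ := Submodule.exists_mem_ne_zero_of_ne_bot hW
      exact ⟨w, hw, hw0, fun i => (hsc i).imp fun c hc => hc w hw⟩
    · push Not at hsc
      obtain ⟨i, hi⟩ := hsc
      have : Nontrivial W := (Submodule.nontrivial_iff_ne_bot).2 hW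
      obtain ⟨c, hc⟩ := Module.End.exists_eigenvalue ((A i).restrict (hinv i))
      obtain ⟨v, hv⟩ := hc.exists_hasEigenvector
      have hv1 : A i (v : H) = c • (v : H) := by
        have := hv.apply_eq_smul
        have h2 := congrArg (Subtype.val) this
        simpa using h2
      have hv0 : (v : H) ≠ 0 := by
        intro h0
        exact hv.2 (Subtype.ext h0)
      let E : Submodule ℂ H := W ⊓ LinearMap.ker (A i - c • LinearMap.id)
      have hE : ∀ w, w ∈ E ↔ w ∈ W ∧ A i w = c • w := by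
        intro w; simp [E, sub_eq_zero]
      have hvE : (v : H) ∈ E := (hE _).2 ⟨v.2, hv1⟩
      have hEle : E ≤ W := inf_le_left
      have hElt : E < W := by
        refine lt_of_le_of_ne hEle ?_
        intro heq
        obtain ⟨w, hw, hwc⟩ := hi c
        rw [← heq] at hw
        exact hwc ((hE w).1 hw).2
      have hfin : Module.finrank ℂ E < n := by
        rw [← hn]; exact Submodule.finrank_lt_finrank_of_lt hElt
      have hEfd : FiniteDimensional ℂ E := Submodule.finiteDimensional_of_le hEle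
      have hEne : E ≠ ⊥ := by
        intro h0
        rw [h0, Submodule.mem_bot] at hvE
        exact hv0 hvE
      obtain ⟨w, hw, hw0, hwe⟩ := ih _ hfin E hEfd rfl hEne
        (fun j w hw => by
          obtain ⟨hw1, hw2⟩ := (hE w).1 hw
          refine (hE _).2 ⟨hinv j w hw1, ?_⟩
          rw [hcomm i j w hw1, hw2, map_smul])
        (fun j k w hw => hcomm j k w (hEle hw))
      exact ⟨w, hEle hw, hw0, hwe⟩

variable {Ω : Type} [TopologicalSpace Ω] [MeasurableSpace Ω] {μ : Measure Ω}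
  (S : PlaneSys Ω μ)

/-- the singular set is null -/
theorem ρ_pos_ae : ∀ᵐ z ∂μ, 0 < S.ρ z := by
  have h0 : μ {z | ¬ 0 < S.ρ z} = 0 := by
    refine le_antisymm ?_ bot_le
    refine ge_of_tendsto' (x := atTop) (f := fun n : ℕ =>
      ENNReal.ofReal (S.Cv * ((1 : ℝ) / ((n : ℝ) + 1)) ^ 2)) ?_ ?_
    · have h1 : Tendsto (fun n : ℕ => S.Cv * ((1 : ℝ) / ((n : ℝ) + 1)) ^ 2) atTop (𝓝 0) := by
        have := ((tendsto_one_div_add_atTop_nhds_zero_nat (𝕜 := ℝ)).pow 2).const_mul S.Cv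
        simpa using this
      have h2 := (ENNReal.continuous_ofReal.tendsto 0).comp h1
      rw [ENNReal.ofReal_zero] at h2
      exact h2
    · intro n
      refine le_trans (measure_mono ?_) (S.vol _ (by positivity))
      intro z hz
      simp only [Set.mem_ofPred_eq, not_lt] at hz ⊢
      exact lt_of_le_of_lt hz (by positivity)
  exact h0

/-- functions in `V` supported in `{ρ < b}` -/
def suppSub (V : Submodule ℂ (Lp ℂ 2 μ)) (b : ℝ) : Submodule ℂ (Lp ℂ 2 μ) where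
  carrier := {f | f ∈ V ∧ ∀ᵐ z ∂μ, b ≤ S.ρ z → f z = 0}
  zero_mem' := by
    refine ⟨V.zero_mem, ?_⟩
    filter_upwards [Lp.coeFn_zero ℂ 2 μ] with z hz _
    simpa using hz
  add_mem' := by
    rintro f g ⟨hf, hf'⟩ ⟨hg, hg'⟩
    refine ⟨V.add_mem hf hg, ?_⟩
    filter_upwards [Lp.coeFn_add f g, hf', hg'] with z hz h1 h2 hb
    rw [hz, Pi.add_apply, h1 hb, h2 hb, add_zero]
  smul_mem' := by
    rintro c f ⟨hf, hf'⟩
    refine ⟨V.smul_mem c hf, ?_⟩
    filter_upwards [Lp.coeFn_smul c f, hf'] with z hz h1 hb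
    rw [hz, Pi.smul_apply, h1 hb, smul_zero]

theorem mem_suppSub (V : Submodule ℂ (Lp ℂ 2 μ)) (b : ℝ) (f : Lp ℂ 2 μ) :
    f ∈ suppSub S V b ↔ f ∈ V ∧ ∀ᵐ z ∂μ, b ≤ S.ρ z → f z = 0 := Iff.rfl

/-- in a finite dimensional space, a function supported near the singular set is zero -/
theorem small_zero (V : Submodule ℂ (Lp ℂ 2 μ)) [FiniteDimensional ℂ V] :
    ∃ b : ℝ, 0 < b ∧ ∀ f ∈ V, (∀ᵐ z ∂μ, b ≤ S.ρ z → f z = 0) → f = 0 := by
  let W : ℕ → Submodule ℂ (Lp ℂ 2 μ) := fun n => suppSub S V (1 / ((n : ℝ) + 1))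
  have hle : ∀ n, W n ≤ V := fun n f hf => ((mem_suppSub S V _ f).1 hf).1
  have hanti : ∀ n m, n ≤ m → W m ≤ W n := by
    intro n m hnm f hf
    obtain ⟨h1, h2⟩ := (mem_suppSub S V _ f).1 hf
    refine (mem_suppSub S V _ f).2 ⟨h1, ?_⟩
    filter_upwards [h2] with z hz hb
    refine hz (le_trans ?_ hb)
    have : (n : ℝ) ≤ m := by exact_mod_cast hnm
    exact one_div_le_one_div_of_le (by positivity) (by linarith)
  obtain ⟨n, hn⟩ : ∃ n, ∀ m, Module.finrank ℂ (W n) ≤ Module.finrank ℂ (W m) := by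
    obtain ⟨n, hn⟩ := WellFounded.has_min (InvImage.wf (fun n => Module.finrank ℂ (W n))
      Nat.lt_wfRel.wf) Set.univ ⟨0, trivial⟩
    exact ⟨n, fun m => not_lt.1 (hn.2 m trivial)⟩
  refine ⟨1 / ((n : ℝ) + 1), by positivity, fun f hf hfz => ?_⟩
  have hfn : f ∈ W n := (mem_suppSub S V _ f).2 ⟨hf, hfz⟩
  have hall : ∀ m, n ≤ m → f ∈ W m := by
    intro m hm
    have : FiniteDimensional ℂ (W n) := Submodule.finiteDimensional_of_le (hle n)
    have : W m = W n := Submodule.eq_of_le_of_finrank_le (hanti n m hm) (hn m)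
    rw [this]; exact hfn
  have hae : ∀ᵐ z ∂μ, ∀ m : ℕ, n ≤ m → 1 / ((m : ℝ) + 1) ≤ S.ρ z → f z = 0 := by
    rw [ae_all_iff]
    intro m
    by_cases hm : n ≤ m
    · filter_upwards [((mem_suppSub S V _ f).1 (hall m hm)).2] with z hz _ using hz
    · exact Eventually.of_forall fun z h => absurd h hm
  rw [Lp.eq_zero_iff_ae_eq_zero]
  filter_upwards [hae, ρ_pos_ae S] with z hz hpos
  obtain ⟨m, hm⟩ := exists_nat_one_div_lt hpos
  refine hz (max n m) (le_max_left _ _) (le_trans ?_ hm.le)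
  have : (m : ℝ) ≤ (max n m : ℕ) := by exact_mod_cast le_max_right n m
  exact one_div_le_one_div_of_le (by positivity) (by linarith)

/-- the operators `U ζ` form a local group on a finite dimensional invariant subspace -/
theorem local_group (V : Submodule ℂ (Lp ℂ 2 μ)) [FiniteDimensional ℂ V]
    (hV : ∀ ζ, ∀ f ∈ V, S.U ζ f ∈ V) :
    ∃ e : ℝ, 0 < e ∧ ∀ ζ ζ' : ℂ, ‖ζ‖ ≤ e → ‖ζ'‖ ≤ e → ∀ f ∈ V,
      S.U ζ (S.U ζ' f) = S.U (ζ + ζ') f := by
  obtain ⟨b, hb, hbz⟩ := small_zero S V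
  have hC : 0 < S.C₀ := lt_of_lt_of_le one_pos S.one_le_C₀
  refine ⟨b / S.C₀, by positivity, fun ζ ζ' hζ hζ' f hf => ?_⟩
  rw [← sub_eq_zero]
  refine hbz _ (V.sub_mem (hV _ _ (hV _ _ hf)) (hV _ _ hf)) ?_
  have h1 := S.LC (b / S.C₀) (by positivity) ζ ζ' hζ hζ'
  have h2 := S.U_coe ζ (S.U ζ' f)
  have h3 := (S.T_mp ζ).quasiMeasurePreserving.ae (S.U_coe ζ' f)
  have h4 := S.U_coe (ζ + ζ') f
  filter_upwards [h1, h2, h3, h4, Lp.coeFn_sub (S.U ζ (S.U ζ' f)) (S.U (ζ + ζ') f)]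
    with z e1 e2 e3 e4 e5 hz
  have hz' : S.C₀ * (b / S.C₀) ≤ S.ρ z := by
    rw [mul_div_cancel₀ _ hC.ne']; exact hz
  rw [e5, Pi.sub_apply, e2, e3, e4, sub_eq_zero]
  exact congrArg f (e1 hz')

theorem U_zero (f : Lp ℂ 2 μ) : S.U 0 f = f := by
  refine Lp.ext ?_
  filter_upwards [S.U_coe 0 f] with z hz
  rw [hz, S.T_zero]

theorem rot_zero (f : Lp ℂ 2 μ) : S.rot 0 f = f := by
  refine Lp.ext ?_
  filter_upwards [S.rot_coe 0 f] with z hz
  rw [hz, S.R_zero]

/-- `U ζ (rot a f) = rot a (U (e^{-ia} ζ) f)` -/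
theorem U_rot (ζ : ℂ) (a : ℝ) (f : Lp ℂ 2 μ) :
    S.U ζ (S.rot a f) = S.rot a (S.U (Complex.exp (-(a * Complex.I)) * ζ) f) := by
  refine Lp.ext ?_
  have h1 := S.U_coe ζ (S.rot a f)
  have h2 := (S.T_mp ζ).quasiMeasurePreserving.ae (S.rot_coe a f)
  have h3 := S.rot_coe a (S.U (Complex.exp (-(a * Complex.I)) * ζ) f)
  have h4 := (S.R_mp a).quasiMeasurePreserving.ae
    (S.U_coe (Complex.exp (-(a * Complex.I)) * ζ) f)
  filter_upwards [h1, h2, h3, h4] with z e1 e2 e3 e4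
  rw [e1, e2, e3, e4]
  congr 1
  rw [S.T_R]
  congr 2
  rw [← mul_assoc, ← Complex.exp_add]
  simp

/-- powers along a ray -/
theorem U_ray {s t : ℝ} (hs : 0 ≤ s) (ht : 0 ≤ t) (α : ℝ) (f : Lp ℂ 2 μ) :
    S.U (((s + t : ℝ) : ℂ) * Complex.exp (α * Complex.I)) f
      = S.U (t * Complex.exp (α * Complex.I)) (S.U (s * Complex.exp (α * Complex.I)) f) := by
  refine Lp.ext ?_
  have h1 := S.U_coe (((s + t : ℝ) : ℂ) * Complex.exp (α * Complex.I)) f
  have h2 := S.U_coe (t * Complex.exp (α * Complex.I)) (S.U (s * Complex.exp (α * Complex.I)) f)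
  have h3 := (S.T_mp (t * Complex.exp (α * Complex.I))).quasiMeasurePreserving.ae
    (S.U_coe (s * Complex.exp (α * Complex.I)) f)
  filter_upwards [h1, h2, h3] with z e1 e2 e3
  rw [e1, e2, e3, S.T_ray hs ht]

/-- a vector fixed by all small translations is fixed by all of them -/
theorem fixed_of_small {e : ℝ} (he : 0 < e) (w : Lp ℂ 2 μ)
    (h : ∀ ζ : ℂ, ‖ζ‖ ≤ e → S.U ζ w = w) (ζ : ℂ) : S.U ζ w = w := by
  obtain ⟨t, α, ht, -, rfl⟩ := PlaneSys.exists_polar ζ
  obtain ⟨N, hN⟩ := exists_nat_gt (t / e)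
  have hN0 : (0 : ℝ) < N := lt_of_le_of_lt (by positivity) hN
  have hs : 0 ≤ t / N := by positivity
  have hsmall : S.U (((t / N : ℝ) : ℂ) * Complex.exp (α * Complex.I)) w = w := by
    refine h _ ?_
    rw [norm_mul, Complex.norm_exp_ofReal_mul_I, mul_one, Complex.norm_real,
      Real.norm_of_nonneg hs]
    rw [div_le_iff₀ hN0]
    rw [div_lt_iff₀ he] at hN
    linarith
  have hind : ∀ k : ℕ, S.U (((k * (t / N) : ℝ) : ℂ) * Complex.exp (α * Complex.I)) w = w := by
    intro k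
    induction k with
    | zero => simp [U_zero S w]
    | succ k ih =>
      have e1 : (((k + 1 : ℕ) : ℝ) * (t / N)) = k * (t / N) + t / N := by push_cast; ring
      rw [e1, U_ray S (by positivity) hs, ih, hsmall]
  have := hind N
  rwa [mul_div_cancel₀ _ hN0.ne'] at this

/-- a common eigenvector of the small translations is a fixed vector -/
theorem eigen_fixed {e : ℝ} (he : 0 < e) (w : Lp ℂ 2 μ) (hw0 : w ≠ 0)
    (hrot : Continuous fun α : ℝ => S.rot α w)
    (hgrp : ∀ ζ ζ' : ℂ, ‖ζ‖ ≤ e → ‖ζ'‖ ≤ e → S.U ζ (S.U ζ' w) = S.U (ζ + ζ') w)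
    (heig : ∀ ζ : ℂ, ‖ζ‖ ≤ e → ∃ c : ℂ, S.U ζ w = c • w) (ζ : ℂ) : S.U ζ w = w := by
  refine fixed_of_small S he w ?_ ζ
  clear ζ
  -- the character
  have hch : ∃ χ : ℂ → ℂ, ∀ ζ : ℂ, ‖ζ‖ ≤ e → S.U ζ w = χ ζ • w := by
    choose! χ hχ using heig
    exact ⟨χ, hχ⟩
  obtain ⟨χ, hχ⟩ := hch
  have hwn : ‖w‖ ≠ 0 := norm_ne_zero_iff.2 hw0
  have hnorm : ∀ ζ : ℂ, ‖ζ‖ ≤ e → ‖χ ζ‖ = 1 := by
    intro ζ hζ
    have h1 := congrArg norm (hχ ζ hζ)
    rw [LinearIsometry.norm_map, norm_smul] at h1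
    have h2 : ‖χ ζ‖ * ‖w‖ = 1 * ‖w‖ := by rw [one_mul]; exact h1.symm
    exact mul_right_cancel₀ hwn h2
  have hsmul : ∀ c d : ℂ, c • w = d • w → c = d := by
    intro c d h
    exact smul_left_injective ℂ hw0 h
  -- rotation invariance for small angles
  have hne : ∀ᶠ a : ℝ in 𝓝 0, ⟪S.rot a w, w⟫_ℂ ≠ 0 := by
    have hc : Continuous fun a : ℝ => ⟪S.rot a w, w⟫_ℂ := hrot.inner continuous_const
    have h0 : (fun a : ℝ => ⟪S.rot a w, w⟫_ℂ) 0 ≠ 0 := by
      simp only [rot_zero S w]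
      rw [Ne, inner_self_eq_zero]
      exact hw0
    exact hc.continuousAt.eventually_ne h0
  obtain ⟨a₀, ha₀, hball⟩ := Metric.eventually_nhds_iff.1 hne
  have hrotinv : ∀ a : ℝ, |a| < a₀ → ∀ ζ : ℂ, ‖ζ‖ ≤ e →
      χ (Complex.exp (-(a * Complex.I)) * ζ) = χ ζ := by
    intro a ha ζ hζ
    have hnz : ⟪S.rot a w, w⟫_ℂ ≠ 0 := hball (by simpa using ha)
    have hn' : ‖Complex.exp (-(a * Complex.I)) * ζ‖ ≤ e := by
      rw [norm_mul]
      have : ‖Complex.exp (-(a * Complex.I))‖ = 1 := by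
        have := Complex.norm_exp_ofReal_mul_I (-a)
        simpa using this
      rw [this, one_mul]; exact hζ
    have h1 : ⟪S.U ζ (S.rot a w), S.U ζ w⟫_ℂ = ⟪S.rot a w, w⟫_ℂ :=
      LinearIsometry.inner_map_map _ _ _
    rw [U_rot S ζ a w, hχ _ hn', hχ ζ hζ, map_smul, inner_smul_left, inner_smul_right] at h1
    have h2 : (starRingEnd ℂ) (χ (Complex.exp (-(a * Complex.I)) * ζ)) * χ ζ = 1 := by
      refine mul_right_cancel₀ hnz ?_
      rw [one_mul]
      rw [mul_assoc]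
      exact h1
    have h3 : χ (Complex.exp (-(a * Complex.I)) * ζ) *
        (starRingEnd ℂ) (χ (Complex.exp (-(a * Complex.I)) * ζ)) = 1 := by
      rw [Complex.mul_conj, Complex.normSq_eq_norm_sq, hnorm _ hn']; simp
    calc χ (Complex.exp (-(a * Complex.I)) * ζ)
        = χ (Complex.exp (-(a * Complex.I)) * ζ) *
          ((starRingEnd ℂ) (χ (Complex.exp (-(a * Complex.I)) * ζ)) * χ ζ) := by rw [h2, mul_one]
      _ = χ ζ := by rw [← mul_assoc, h3, one_mul]
  -- the character is even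
  have heven : ∀ ζ : ℂ, ‖ζ‖ ≤ e → χ (-ζ) = χ ζ := by
    intro ζ hζ
    obtain ⟨N, hN⟩ := exists_nat_gt (Real.pi / a₀)
    have hN0 : (0 : ℝ) < N := lt_of_le_of_lt (by positivity) hN
    have ha : |Real.pi / N| < a₀ := by
      rw [abs_of_pos (by positivity), div_lt_iff₀ hN0]
      rw [div_lt_iff₀ ha₀] at hN
      linarith
    have hind : ∀ k : ℕ,
        χ (Complex.exp (-(((k * (Real.pi / N) : ℝ) : ℂ) * Complex.I)) * ζ) = χ ζ := by
      intro k
      induction k with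
      | zero => simp
      | succ k ih =>
        have hn' : ‖Complex.exp (-(((k * (Real.pi / N) : ℝ) : ℂ) * Complex.I)) * ζ‖ ≤ e := by
          rw [norm_mul]
          have : ‖Complex.exp (-(((k * (Real.pi / N) : ℝ) : ℂ) * Complex.I))‖ = 1 := by
            have := Complex.norm_exp_ofReal_mul_I (-(k * (Real.pi / N)))
            rw [← this]; congr 2; push_cast; ring
          rw [this, one_mul]; exact hζ
        have h1 := hrotinv (Real.pi / N) ha _ hn'
        rw [← mul_assoc, ← Complex.exp_add, ih] at h1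
        rw [← h1]
        congr 3
        push_cast; ring
    have h1 := hind N
    rw [mul_div_cancel₀ _ hN0.ne'] at h1
    rw [← h1]
    congr 1
    rw [Complex.exp_neg, Complex.exp_pi_mul_I]
    ring
  have hmul : ∀ ζ ζ' : ℂ, ‖ζ‖ ≤ e → ‖ζ'‖ ≤ e → ‖ζ + ζ'‖ ≤ e → χ ζ * χ ζ' = χ (ζ + ζ') := by
    intro ζ ζ' h1 h2 h3
    have h4 := hgrp ζ ζ' h1 h2
    rw [hχ _ h2, map_smul, hχ _ h1, hχ _ h3, smul_smul] at h4
    have := hsmul _ _ h4
    rw [mul_comm]; exact this
  have h0 : χ 0 = 1 := by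
    have h1 := hχ 0 (by simpa using he.le)
    rw [U_zero S w] at h1
    exact (hsmul _ _ (by rw [one_smul]; exact h1)).symm
  have hsq : ∀ ζ : ℂ, ‖ζ‖ ≤ e → χ ζ * χ ζ = 1 := by
    intro ζ hζ
    have h1 := hmul ζ (-ζ) hζ (by simpa using hζ) (by simpa using he.le)
    rw [heven ζ hζ, add_neg_cancel, h0] at h1
    exact h1
  intro ζ hζ
  have hhalf : ‖ζ / 2‖ ≤ e := by
    rw [norm_div]; simp only [Complex.norm_ofNat]
    have : 0 ≤ ‖ζ‖ := norm_nonneg _
    linarith
  have h1 := hmul (ζ / 2) (ζ / 2) hhalf hhalf (by rw [add_halves]; exact hζ)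
  rw [hsq _ hhalf, add_halves] at h1
  rw [hχ ζ hζ, ← h1, one_smul]

end Crest.Agent.R103.FinB2

namespace Crest.Agent.R103.PlaneSys

open FinB2

/-- B2 -/
theorem fin (hcont : StCont) : StFin := by
  intro Ω _ _ _ _ _ μ _ S V hfd hV f hf ζ
  have := hfd
  obtain ⟨e, he, hgrp⟩ := local_group S V hV
  -- the fixed vectors
  let F : Submodule ℂ (Lp ℂ 2 μ) :=
    { carrier := {g | g ∈ V ∧ ∀ ζ, S.U ζ g = g}
      zero_mem' := ⟨V.zero_mem, fun ζ => map_zero _⟩
      add_mem' := by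
        rintro g h ⟨hg, hg'⟩ ⟨hh, hh'⟩
        exact ⟨V.add_mem hg hh, fun ζ => by rw [map_add, hg', hh']⟩
      smul_mem' := by
        rintro c g ⟨hg, hg'⟩
        exact ⟨V.smul_mem c hg, fun ζ => by rw [map_smul, hg']⟩ }
  have hF : ∀ g, g ∈ F ↔ g ∈ V ∧ ∀ ζ, S.U ζ g = g := fun g => Iff.rfl
  have hFV : F ≤ V := fun g hg => hg.1
  have : FiniteDimensional ℂ F := Submodule.finiteDimensional_of_le hFV
  have hW : Fᗮ ⊓ V = ⊥ := by
    by_contra hne
    have : FiniteDimensional ℂ (Fᗮ ⊓ V : Submodule ℂ (Lp ℂ 2 μ)) :=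
      Submodule.finiteDimensional_of_le inf_le_right
    obtain ⟨w, hw, hw0, heig⟩ := common_eigen
      (fun ζ : {ζ : ℂ // ‖ζ‖ ≤ e} => (S.U ζ.1).toLinearMap) _ (Fᗮ ⊓ V) inferInstance rfl hne
      (by
        rintro ⟨ζ, hζ⟩ w ⟨hw1, hw2⟩
        refine ⟨?_, hV ζ w hw2⟩
        refine (Submodule.mem_orthogonal F _).2 fun g hg => ?_
        have h1 : ⟪S.U ζ g, S.U ζ w⟫_ℂ = ⟪g, w⟫_ℂ := LinearIsometry.inner_map_map _ _ _
        rw [((hF g).1 hg).2 ζ] at h1
        exact h1.trans ((Submodule.mem_orthogonal F w).1 hw1 g hg))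
      (by
        rintro ⟨ζ, hζ⟩ ⟨ζ', hζ'⟩ w ⟨hw1, hw2⟩
        show S.U ζ (S.U ζ' w) = S.U ζ' (S.U ζ w)
        rw [hgrp ζ ζ' hζ hζ' w hw2, hgrp ζ' ζ hζ' hζ w hw2, add_comm])
    have hfix : ∀ ζ, S.U ζ w = w :=
      eigen_fixed S he w hw0 ((hcont Ω μ S).2.1 w)
        (fun ζ ζ' h1 h2 => hgrp ζ ζ' h1 h2 w hw.2) (fun ζ hζ => heig ⟨ζ, hζ⟩)
    have hwF : w ∈ F := ⟨hw.2, hfix⟩
    have := (Submodule.mem_orthogonal F w).1 hw.1 w hwF
    exact hw0 (inner_self_eq_zero.1 this)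
  have hsup := Submodule.sup_orthogonal_inf_of_hasOrthogonalProjection hFV
  rw [hW, sup_bot_eq] at hsup
  rw [← hsup] at hf
  exact hf.2 ζ

end Crest.Agent.R103.PlaneSys
end
end

-- ▼ part R103/ThmB

/-!
# R103, B3: theorem B (weak mixing) from the kernel operator and the finite dimensional statement
-/

open MeasureTheory Filter Topology
open scoped InnerProductSpace

noncomputable section

namespace Crest.Agent.R103

namespace PlaneSys

section aux

variable {Ω : Type} [TopologicalSpace Ω] [MeasurableSpace Ω] {μ : Measure Ω}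
  (S : PlaneSys Ω μ)

lemma bU_U_neg (ζ : ℂ) (f : Lp ℂ 2 μ) : S.U ζ (S.U (-ζ) f) = f := by
  apply Lp.ext
  have h1 := S.U_coe ζ (S.U (-ζ) f)
  have h2 := (S.T_mp ζ).quasiMeasurePreserving.ae (S.U_coe (-ζ) f)
  filter_upwards [h1, h2, S.T_neg ζ] with z h1 h2 h3
  rw [h1, h2, h3]



lemma binner_U_right (ζ : ℂ) (f g : Lp ℂ 2 μ) : ⟪f, S.U ζ g⟫_ℂ = ⟪S.U (-ζ) f, g⟫_ℂ := by
  conv_lhs => rw [← S.bU_U_neg ζ f]
  exact (S.U ζ).inner_map_map _ _

/-- a bounded operator commuting with all `U ζ` has an adjoint commuting with all `U ζ` -/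
lemma adjoint_comm (K : Lp ℂ 2 μ →L[ℂ] Lp ℂ 2 μ) (hK : ∀ ζ f, K (S.U ζ f) = S.U ζ (K f))
    (ζ : ℂ) (f : Lp ℂ 2 μ) :
    K.adjoint (S.U ζ f) = S.U ζ (K.adjoint f) := by
  apply ext_inner_left ℂ
  intro v
  rw [ContinuousLinearMap.adjoint_inner_right, S.binner_U_right, S.binner_U_right, ← hK,
    ContinuousLinearMap.adjoint_inner_right]

end aux

/-- `K h = 0` for `h ⟂ 1` -/
lemma kernel_eq_zero (hfin : StFin) {Ω : Type} [TopologicalSpace Ω] [MeasurableSpace Ω]
    [BorelSpace Ω] [SecondCountableTopology Ω] [TopologicalSpace.PseudoMetrizableSpace Ω]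
    (μ : Measure Ω) [IsFiniteMeasure μ] (S : PlaneSys Ω μ)
    (hconst : ∀ f : Lp ℂ 2 μ, (∀ ζ, S.U ζ f = f) → ∃ c : ℂ, f =ᵐ[μ] fun _ => c)
    (K : Lp ℂ 2 μ →L[ℂ] Lp ℂ 2 μ) (hKc : IsCompactOperator K)
    (hK : ∀ ζ f, K (S.U ζ f) = S.U ζ (K f)) (h : Lp ℂ 2 μ)
    (hh : ∀ f : Lp ℂ 2 μ, (∃ c : ℂ, f =ᵐ[μ] fun _ => c) → ⟪f, h⟫_ℂ = 0) : K h = 0 := by
  set A : Lp ℂ 2 μ →L[ℂ] Lp ℂ 2 μ := K.adjoint.comp K with hA
  have hAc : IsCompactOperator A := hKc.clm_comp K.adjoint
  have hAs : A.IsSymmetric := by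
    intro x y
    simp only [hA, ContinuousLinearMap.coe_coe, ContinuousLinearMap.comp_apply,
      ContinuousLinearMap.adjoint_inner_left, ContinuousLinearMap.adjoint_inner_right]
  have hAU : ∀ ζ f, A (S.U ζ f) = S.U ζ (A f) := by
    intro ζ f
    simp only [hA, ContinuousLinearMap.comp_apply, hK, S.adjoint_comm K hK]
  have key : A h ∈ (⨆ ν, Module.End.eigenspace (A : Module.End ℂ (Lp ℂ 2 μ)) ν)ᗮ := by
    rw [Submodule.mem_orthogonal]
    intro v hv
    refine Submodule.iSup_induction (fun ν => Module.End.eigenspace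
      (A : Module.End ℂ (Lp ℂ 2 μ)) ν) (motive := fun v => ⟪v, A h⟫_ℂ = 0) hv ?_ ?_ ?_
    · intro ν v hv
      have hv' : A v = ν • v := Module.End.mem_eigenspace_iff.1 hv
      have e : ⟪v, A h⟫_ℂ = ⟪A v, h⟫_ℂ := (hAs v h).symm
      rw [e, hv', inner_smul_left]
      by_cases hν : ν = 0
      · simp [hν]
      · have hfd := ContinuousLinearMap.finite_dimensional_eigenspace hAc ν hν
        have := hfin Ω μ S (Module.End.eigenspace A.toLinearMap ν) hfd (by
          intro ζ f hf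
          rw [Module.End.mem_eigenspace_iff] at hf ⊢
          have hf' : A f = ν • f := hf
          change A (S.U ζ f) = ν • S.U ζ f
          rw [hAU, hf', map_smul]) v hv
        rw [hh v (hconst v this), mul_zero]
    · simp
    · intro x y hx hy
      rw [inner_add_left, hx, hy, add_zero]
  rw [ContinuousLinearMap.orthogonalComplement_iSup_eigenspaces_eq_bot hAc hAs] at key
  have hz : A h = 0 := (Submodule.mem_bot ℂ).1 key
  have : ⟪K h, K h⟫_ℂ = 0 := by
    rw [← ContinuousLinearMap.adjoint_inner_right]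
    change ⟪h, A h⟫_ℂ = 0
    rw [hz, inner_zero_right]
  exact inner_self_eq_zero.1 this

theorem thmB : StKer → StFin → StThmB := by
  classical
  intro hker hfin Ω _ _ _ _ _ μ _ S hconst s hs hinv
  obtain ⟨K, hKc, hKi⟩ := hker Ω μ s hs
  have hK : ∀ ζ f, K (S.U ζ f) = S.U ζ (K f) := by
    intro ζ f
    apply ext_inner_left ℂ
    intro v
    -- it suffices to test against `U ζ g`
    obtain ⟨g, rfl⟩ : ∃ g, S.U ζ g = v := ⟨_, S.bU_U_neg ζ v⟩
    rw [(S.U ζ).inner_map_map, hKi, hKi]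
    have hmp : MeasurePreserving (fun z : Ω × Ω => (S.T ζ z.1, S.T ζ z.2)) (μ.prod μ)
        (μ.prod μ) := (S.T_mp ζ).prod (S.T_mp ζ)
    set F : Ω × Ω → ℂ := fun z => s.indicator
      (fun z : Ω × Ω => (starRingEnd ℂ) (g z.1) * f z.2) z with hF
    have hFm : AEStronglyMeasurable F (μ.prod μ) := by
      apply AEStronglyMeasurable.indicator _ hs
      have h1 : AEStronglyMeasurable (fun z : Ω × Ω => g z.1) (μ.prod μ) :=
        (Lp.aestronglyMeasurable g).comp_fst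
      have h2 : AEStronglyMeasurable (fun z : Ω × Ω => f z.2) (μ.prod μ) :=
        (Lp.aestronglyMeasurable f).comp_snd
      exact (Complex.continuous_conj.comp_aestronglyMeasurable h1).mul h2
    have e1 : ∫ z, F z ∂(μ.prod μ) = ∫ z, F (S.T ζ z.1, S.T ζ z.2) ∂(μ.prod μ) := by
      conv_lhs => rw [← hmp.map_eq]
      rw [integral_map hmp.aemeasurable]
      rwa [hmp.map_eq]
    rw [e1]
    apply integral_congr_ae
    have hg : ∀ᵐ z ∂(μ.prod μ), (S.U ζ g) z.1 = g (S.T ζ z.1) :=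
      Measure.quasiMeasurePreserving_fst.ae (S.U_coe ζ g)
    have hf : ∀ᵐ z ∂(μ.prod μ), (S.U ζ f) z.2 = f (S.T ζ z.2) :=
      Measure.quasiMeasurePreserving_snd.ae (S.U_coe ζ f)
    filter_upwards [hg, hf, (hinv ζ).mem_iff] with z hg hf hz
    simp only [hF, Set.indicator_apply]
    have : ((S.T ζ z.1, S.T ζ z.2) ∈ s) ↔ z ∈ s := hz
    simp only [this, hg, hf]
  -- the constant function
  set one : Lp ℂ 2 μ := indicatorConstLp 2 MeasurableSet.univ (measure_ne_top μ _) (1 : ℂ)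
    with hone
  have hone' : one =ᵐ[μ] fun _ => (1 : ℂ) := by
    refine (indicatorConstLp_coeFn (p := 2) (μ := μ) (hs := MeasurableSet.univ)
      (hμs := measure_ne_top μ _) (c := (1 : ℂ))).trans ?_
    rw [Set.indicator_univ]
  have honeU : ∀ ζ, S.U ζ one = one := by
    intro ζ
    apply Lp.ext
    have h2 := (S.T_mp ζ).quasiMeasurePreserving.ae hone'
    filter_upwards [S.U_coe ζ one, hone', h2] with z h1 h2 h3
    rw [h1, h2, h3]
  rcases eq_or_ne μ 0 with h0 | h0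
  · left
    rw [h0]; simp
  have hμpos : 0 < μ.real Set.univ := by
    rw [measureReal_def, ENNReal.toReal_pos_iff]
    exact ⟨by rwa [pos_iff_ne_zero, Ne, Measure.measure_univ_eq_zero], measure_lt_top _ _⟩
  -- `K one = c`
  obtain ⟨c, hc⟩ : ∃ c : ℂ, K one =ᵐ[μ] fun _ => c := by
    apply hconst
    intro ζ
    rw [← hK, honeU]
  have hc' : K one = c • one := by
    apply Lp.ext
    filter_upwards [hc, Lp.coeFn_smul c one, hone'] with z h1 h2 h3
    rw [h1, h2, Pi.smul_apply, h3]; simp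
  have hoo : ⟪one, one⟫_ℂ = (μ.real Set.univ : ℂ) := by
    rw [L2.inner_def]
    have : ∫ a, ⟪one a, one a⟫_ℂ ∂μ = ∫ _a, (1 : ℂ) ∂μ := by
      apply integral_congr_ae
      filter_upwards [hone'] with z hz
      rw [hz]; simp
    rw [this]; simp
  -- general formula for `K`
  have hKf : ∀ f : Lp ℂ 2 μ, K f = ((μ.real Set.univ : ℂ)⁻¹ * ⟪one, f⟫_ℂ * c) • one := by
    intro f
    set a : ℂ := (μ.real Set.univ : ℂ)⁻¹ * ⟪one, f⟫_ℂ with ha
    have hne : (μ.real Set.univ : ℂ) ≠ 0 := by exact_mod_cast hμpos.ne'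
    have h1 : K (f - a • one) = 0 := by
      apply kernel_eq_zero hfin μ S hconst K hKc hK
      rintro v ⟨b, hb⟩
      have hv : v = b • one := by
        apply Lp.ext
        filter_upwards [hb, Lp.coeFn_smul b one, hone'] with z h1 h2 h3
        rw [h1, h2, Pi.smul_apply, h3]; simp
      rw [hv, inner_smul_left, inner_sub_right, inner_smul_right, hoo, ha]
      field_simp
      simp
    rw [map_sub, sub_eq_zero, map_smul, hc', smul_smul] at h1
    exact h1
  -- value on rectangles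
  have hrect : ∀ A B : Set Ω, MeasurableSet A → MeasurableSet B →
      ((μ.prod μ).real (s ∩ A ×ˢ B) : ℂ)
        = (μ.real Set.univ : ℂ)⁻¹ * c * (μ.real A * μ.real B) := by
    intro A B hA hB
    set fA : Lp ℂ 2 μ := indicatorConstLp 2 hA (measure_ne_top μ _) (1 : ℂ)
    set fB : Lp ℂ 2 μ := indicatorConstLp 2 hB (measure_ne_top μ _) (1 : ℂ)
    have hfA : fA =ᵐ[μ] A.indicator fun _ => (1 : ℂ) := indicatorConstLp_coeFn
    have hfB : fB =ᵐ[μ] B.indicator fun _ => (1 : ℂ) := indicatorConstLp_coeFn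
    have h1 := hKi fB fA
    have e1 : ∫ z, s.indicator (fun z : Ω × Ω => (starRingEnd ℂ) (fA z.1) * fB z.2) z ∂(μ.prod μ)
        = ((μ.prod μ).real (s ∩ A ×ˢ B) : ℂ) := by
      have : ∫ z, s.indicator (fun z : Ω × Ω => (starRingEnd ℂ) (fA z.1) * fB z.2) z ∂(μ.prod μ)
          = ∫ z, (s ∩ A ×ˢ B).indicator (fun _ => (1 : ℂ)) z ∂(μ.prod μ) := by
        apply integral_congr_ae
        have hg : ∀ᵐ z ∂(μ.prod μ), fA z.1 = A.indicator (fun _ => (1 : ℂ)) z.1 :=
          Measure.quasiMeasurePreserving_fst.ae hfA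
        have hf : ∀ᵐ z ∂(μ.prod μ), fB z.2 = B.indicator (fun _ => (1 : ℂ)) z.2 :=
          Measure.quasiMeasurePreserving_snd.ae hfB
        filter_upwards [hg, hf] with z hg hf
        simp only [Set.indicator_apply, hg, hf, Set.mem_inter_iff, Set.mem_prod]
        by_cases h1 : z ∈ s <;> by_cases h2 : z.1 ∈ A <;> by_cases h3 : z.2 ∈ B <;>
          simp [h1, h2, h3]
      rw [this, integral_indicator_const _ (hs.inter (hA.prod hB))]
      simp
    rw [e1, hKf] at h1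
    rw [← h1, inner_smul_right]
    have hfAo : ⟪fA, one⟫_ℂ = (μ.real A : ℂ) := by
      rw [L2.inner_def]
      have : ∫ a, ⟪fA a, one a⟫_ℂ ∂μ = ∫ a, A.indicator (fun _ => (1 : ℂ)) a ∂μ := by
        apply integral_congr_ae
        filter_upwards [hone', hfA] with z hz hz'
        rw [hz, hz']
        by_cases h2 : z ∈ A <;> simp [h2]
      rw [this, integral_indicator_const _ hA]; simp
    have hofB : ⟪one, fB⟫_ℂ = (μ.real B : ℂ) := by
      rw [L2.inner_def]
      have : ∫ a, ⟪one a, fB a⟫_ℂ ∂μ = ∫ a, B.indicator (fun _ => (1 : ℂ)) a ∂μ := by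
        apply integral_congr_ae
        filter_upwards [hone', hfB] with z hz hz'
        rw [hz, hz']
        by_cases h2 : z ∈ B <;> simp [h2]
      rw [this, integral_indicator_const _ hB]; simp
    rw [hfAo, hofB]
    ring
  -- the real constant
  set k : ℝ := (μ.prod μ).real s / (μ.real Set.univ * μ.real Set.univ) with hk
  have hk0 : 0 ≤ k := by positivity
  have hkc : (k : ℂ) = (μ.real Set.univ : ℂ)⁻¹ * c := by
    have h1 := hrect Set.univ Set.univ MeasurableSet.univ MeasurableSet.univ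
    rw [Set.univ_prod_univ, Set.inter_univ] at h1
    have hne : (μ.real Set.univ : ℂ) ≠ 0 := by exact_mod_cast hμpos.ne'
    rw [hk]; push_cast; rw [h1]
    field_simp
  have hrect' : ∀ A B : Set Ω, MeasurableSet A → MeasurableSet B →
      (μ.prod μ).real (s ∩ A ×ˢ B) = k * (μ.real A * μ.real B) := by
    intro A B hA hB
    have h1 := hrect A B hA hB
    rw [← hkc] at h1
    exact_mod_cast h1
  have hprod : (ENNReal.ofReal k • μ).prod μ = (μ.prod μ).restrict s := by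
    have : IsFiniteMeasure (ENNReal.ofReal k • μ) := by
      constructor
      rw [Measure.smul_apply, smul_eq_mul]
      exact ENNReal.mul_lt_top ENNReal.ofReal_lt_top (measure_lt_top _ _)
    apply Measure.prod_eq
    intro A B hA hB
    rw [Measure.restrict_apply (hA.prod hB), Set.inter_comm]
    have h1 := hrect' A B hA hB
    rw [Measure.smul_apply, smul_eq_mul]
    rw [← ENNReal.ofReal_toReal (measure_ne_top (μ.prod μ) (s ∩ A ×ˢ B)),
      ← ENNReal.ofReal_toReal (measure_ne_top μ A), ← ENNReal.ofReal_toReal (measure_ne_top μ B),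
      ← ENNReal.ofReal_mul hk0, ← ENNReal.ofReal_mul (by positivity), mul_assoc]
    congr 1
  have hfinal : ENNReal.ofReal k * (μ.prod μ) sᶜ = 0 := by
    have h1 : ((ENNReal.ofReal k • μ).prod μ) sᶜ = ((μ.prod μ).restrict s) sᶜ := by rw [hprod]
    rw [Measure.restrict_apply hs.compl, Set.compl_inter_self, measure_empty] at h1
    rw [Measure.prod_smul_left, Measure.smul_apply, smul_eq_mul] at h1
    exact h1
  rcases mul_eq_zero.1 hfinal with h1 | h1
  · left
    have hk' : k = 0 := le_antisymm (ENNReal.ofReal_eq_zero.1 h1) hk0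
    have h2 := hrect' Set.univ Set.univ MeasurableSet.univ MeasurableSet.univ
    rw [Set.univ_prod_univ, Set.inter_univ, hk', zero_mul] at h2
    rw [measureReal_def, ENNReal.toReal_eq_zero_iff] at h2
    rcases h2 with h2 | h2
    · exact h2
    · exact absurd h2 (measure_ne_top _ _)
  · right; exact h1

end PlaneSys

end Crest.Agent.R103
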